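import Vale.Agent.P367.A.FieldX

/-! P367, Theorem A, block F, last step: the simulation statement and Gram continuity give
Theorem A. -/

namespace Vale.Agent.P367.A

open Complex Filter Topology

open Vale.Agent.P367.NI (Gate)

namespace Sys

variable {H K : Type*} [NormedAddCommGroup H] [InnerProductSpace ℂ H]
  [NormedAddCommGroup K] [InnerProductSpace ℂ K] (S : Sys H K)

/-! ### The exact labelled evolution as an instance of `lw` -/

/-- field vectors of the exact labelled evolution -/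
noncomputable def asX (w : List Gate) (i : ℕ) : H := S.xv (S.ev (w.drop (w.length - i)))

/-- phase vectors of the exact labelled evolution -/
noncomputable def asV (w : List Gate) (i : ℕ) : K :=
  match w.drop (w.length - (i + 1)) with
  | Gate.C γ :: u => (γ : ℂ) • S.iota (S.xv (S.ev u))
  | Gate.G κ :: _ => (κ : ℂ) • S.e0
  | _ => 0

lemma as_drop {w p u : List Gate} (h : w = p ++ u) : w.drop (w.length - u.length) = u := by
  subst h
  rw [List.length_append, Nat.add_sub_cancel, List.drop_left]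

lemma asX_eq {w p u : List Gate} (h : w = p ++ u) : S.asX w u.length = S.xv (S.ev u) := by
  unfold asX
  rw [as_drop h]

lemma asV_C {w p u : List Gate} {γ : ℝ} (h : w = p ++ (Gate.C γ :: u)) :
    S.asV w u.length = (γ : ℂ) • S.iota (S.xv (S.ev u)) := by
  unfold asV
  have h1 := as_drop h
  rw [List.length_cons] at h1
  rw [h1]

lemma asV_G {w p u : List Gate} {κ : ℝ} (h : w = p ++ (Gate.G κ :: u)) :
    S.asV w u.length = (κ : ℂ) • S.e0 := by
  unfold asV
  have h1 := as_drop h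
  rw [List.length_cons] at h1
  rw [h1]

lemma as_lw {w : List Gate} : ∀ (u p : List Gate), w = p ++ u → S.lw (S.asV w) u = S.ev u := by
  intro u
  induction u with
  | nil => intro p _; rfl
  | cons g u ih =>
    intro p h
    have h1 : w = (p ++ [g]) ++ u := by rw [h, List.append_assoc]; rfl
    have h2 := ih _ h1
    cases g with
    | B b => show S.xr b * S.lw (S.asV w) u = S.xr b * S.ev u; rw [h2]
    | C γ =>
      show S.zr (S.asV w u.length) * S.lw (S.asV w) u =
        S.zr ((γ : ℂ) • S.iota (S.xv (S.ev u))) * S.ev u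
      rw [h2, S.asV_C h]
    | G κ =>
      show S.zr (S.asV w u.length) * S.lw (S.asV w) u = S.zr ((κ : ℂ) • S.e0) * S.ev u
      rw [h2, S.asV_G h]

lemma as_good {w : List Gate} :
    ∀ (u p : List Gate), w = p ++ u → S.Good 0 S.e0 (S.asX w) (S.asV w) u := by
  intro u
  induction u with
  | nil => intro p _; trivial
  | cons g u ih =>
    intro p h
    have h1 : w = (p ++ [g]) ++ u := by rw [h, List.append_assoc]; rfl
    have h2 := ih _ h1
    have h3 : ‖S.asX w u.length - S.xv (S.lw (S.asV w) u)‖ ≤ 0 := by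
      rw [S.asX_eq h1, S.as_lw u _ h1, sub_self, norm_zero]
    have h4 : ‖(inner ℂ S.e0 (S.iota (S.asX w u.length)) : ℂ)‖ ≤ 0 := by
      rw [S.e0perp, norm_zero]
    cases g with
    | B b => exact ⟨h2, h3, h4⟩
    | C γ => exact ⟨h2, h3, h4, by rw [S.asV_C h, S.asX_eq h1]⟩
    | G κ => exact ⟨h2, h3, h4, by rw [S.asV_G h, sub_self, norm_zero]⟩

lemma as_eaux {w : List Gate} (y : H) :
    ∀ (u p : List Gate), w = p ++ u → eSum (S.asX w) y u = S.eaux y u := by
  intro u
  induction u with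
  | nil => intro p _; rfl
  | cons g u ih =>
    intro p h
    have h1 : w = (p ++ [g]) ++ u := by rw [h, List.append_assoc]; rfl
    have h2 := ih _ h1
    cases g with
    | B b => exact h2
    | C γ =>
      show -(γ * ((inner ℂ (S.asX w u.length) y) ^ 2 : ℂ).im) + eSum (S.asX w) y u =
        -(γ * ((inner ℂ (S.xv (S.ev u)) y) ^ 2 : ℂ).im) + S.eaux y u
      rw [h2, S.asX_eq h1]
    | G κ => exact h2

/-! ### Comparison of energies -/

/-- total strength of the `C` gates -/
def asG : List Gate → ℝ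
  | [] => 0
  | Gate.C γ :: u => |γ| + asG u
  | Gate.B _ :: u => asG u
  | Gate.G _ :: u => asG u

lemma asG_nonneg : ∀ u : List Gate, 0 ≤ asG u := by
  intro u
  induction u with
  | nil => exact le_rfl
  | cons g u ih =>
    cases g with
    | B b => exact ih
    | C γ => exact add_nonneg (abs_nonneg _) ih
    | G κ => exact ih

lemma as_sq {z z' : ℂ} {δ : ℝ} (hz : ‖z‖ ≤ 2) (hz' : ‖z'‖ ≤ 2) (h : ‖z - z'‖ ≤ δ) :
    |(z ^ 2).im - (z' ^ 2).im| ≤ 4 * δ := by
  rw [← Complex.sub_im]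
  refine (Complex.abs_im_le_norm _).trans ?_
  have e : z ^ 2 - z' ^ 2 = (z - z') * (z + z') := by ring
  rw [e, norm_mul]
  have h1 : ‖z + z'‖ ≤ 4 := (norm_add_le _ _).trans (by linarith)
  have h2 : 0 ≤ ‖z - z'‖ := norm_nonneg _
  nlinarith [norm_nonneg (z + z')]

lemma as_diff {x x' : ℕ → H} {y y' : H} {δ : ℝ} : ∀ (u : List Gate),
    (∀ i < u.length, ‖(inner ℂ (x i) y : ℂ)‖ ≤ 2 ∧ ‖(inner ℂ (x' i) y' : ℂ)‖ ≤ 2 ∧
      ‖(inner ℂ (x i) y : ℂ) - inner ℂ (x' i) y'‖ ≤ δ) →
    |eSum x y u - eSum x' y' u| ≤ asG u * (4 * δ) := by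
  intro u
  induction u with
  | nil => intro _; simp [eSum, asG]
  | cons g u ih =>
    intro h
    have h2 := ih fun i hi => h i (by rw [List.length_cons]; omega)
    cases g with
    | B b => exact h2
    | G κ => exact h2
    | C γ =>
      obtain ⟨a1, a2, a3⟩ := h u.length (by rw [List.length_cons]; omega)
      have h3 := as_sq a1 a2 a3
      show |(-(γ * ((inner ℂ (x u.length) y) ^ 2 : ℂ).im) + eSum x y u) -
        (-(γ * ((inner ℂ (x' u.length) y') ^ 2 : ℂ).im) + eSum x' y' u)| ≤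
          (|γ| + asG u) * (4 * δ)
      have e : (-(γ * ((inner ℂ (x u.length) y) ^ 2 : ℂ).im) + eSum x y u) -
        (-(γ * ((inner ℂ (x' u.length) y') ^ 2 : ℂ).im) + eSum x' y' u) =
        -(γ * (((inner ℂ (x u.length) y) ^ 2 : ℂ).im -
          ((inner ℂ (x' u.length) y') ^ 2 : ℂ).im)) + (eSum x y u - eSum x' y' u) := by ring
      rw [e]
      refine (abs_add_le _ _).trans ?_
      rw [abs_neg, abs_mul, add_mul]
      exact add_le_add (mul_le_mul_of_nonneg_left h3 (abs_nonneg _)) h2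

lemma as_norm_xv (V : H ≃ₗᵢ[ℂ] H) : ‖S.xv V‖ = 1 := by
  unfold xv
  rw [LinearIsometryEquiv.norm_map, LinearIsometryEquiv.norm_map, LinearIsometryEquiv.norm_map,
    S.nOm]

/-- the vectors of a good assignment are close to field vectors -/
lemma as_good_norm {d : ℝ} {e : K} {x : ℕ → H} {v : ℕ → K} : ∀ (u : List Gate),
    S.Good d e x v u → ∀ i < u.length, ‖x i‖ ≤ 1 + d := by
  intro u
  induction u with
  | nil => intro _ i hi; exact absurd hi (by simp)
  | cons g u ih =>
    intro h i hi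
    have hx : ‖x u.length - S.xv (S.lw v u)‖ ≤ d → ‖x u.length‖ ≤ 1 + d := by
      intro h1
      have h2 : x u.length = S.xv (S.lw v u) + (x u.length - S.xv (S.lw v u)) := by abel
      rw [h2]
      refine (norm_add_le _ _).trans ?_
      rw [S.as_norm_xv]
      linarith
    have key : S.Good d e x v u ∧ ‖x u.length - S.xv (S.lw v u)‖ ≤ d := by
      cases g with
      | B b => exact ⟨h.1, h.2.1⟩
      | C γ => exact ⟨h.1, h.2.1⟩
      | G κ => exact ⟨h.1, h.2.1⟩
    rcases Nat.lt_or_ge i u.length with h1 | h1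
    · exact ih key.1 i h1
    · have h2 : i = u.length := by
        rw [List.length_cons] at hi
        omega
      rw [h2]
      exact hx key.2

lemma as_good_mono {d d' : ℝ} (hd : d ≤ d') {e : K} {x : ℕ → H} {v : ℕ → K} :
    ∀ (u : List Gate), S.Good d e x v u → S.Good d' e x v u := by
  intro u
  induction u with
  | nil => intro _; trivial
  | cons g u ih =>
    intro h
    cases g with
    | B b => exact ⟨ih h.1, h.2.1.trans hd, h.2.2.trans hd⟩
    | C γ => exact ⟨ih h.1, h.2.1.trans hd, h.2.2.1.trans hd, h.2.2.2⟩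
    | G κ => exact ⟨ih h.1, h.2.1.trans hd, h.2.2.1.trans hd, h.2.2.2.trans hd⟩

theorem aStmt_of (hN : S.NStmt) (hG : S.GStmt) (hSim : S.SimStmt) : S.AStmt := by
  intro u κ hu δ hδ
  obtain ⟨C, ε₀, hC, hε₀, H1⟩ := hSim u κ hu
  generalize u ++ [Gate.G κ] = w at H1 ⊢
  obtain ⟨C', hCC', HX⟩ := S.xStmt hN C hC
  have hC' : 0 ≤ C' := hC.trans hCC'
  have hG0 := asG_nonneg w
  obtain ⟨δ1, hδ1, hδ1e⟩ : ∃ δ1 : ℝ, 0 < δ1 ∧ asG w * (4 * (2 * δ1)) ≤ δ / 2 := by
    refine ⟨δ / (16 * (asG w + 1)), by positivity, ?_⟩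
    have h1 : asG w * (4 * (2 * (δ / (16 * (asG w + 1))))) =
        δ / 2 * (asG w / (asG w + 1)) := by
      field_simp
      ring
    rw [h1]
    have h2 : asG w / (asG w + 1) ≤ 1 := by
      rw [div_le_one (by linarith)]
      linarith
    nlinarith
  obtain ⟨d, hd, H2⟩ := hG w (S.asX w) (S.asV w) (S.as_good w [] rfl) δ1 hδ1
  have hCC : 0 ≤ C * C' := mul_nonneg hC hC'
  obtain ⟨M, hM1, hM2, hM3, hM4⟩ : ∃ M : ℝ, 1 ≤ M ∧ C ≤ M ∧ C' ≤ M ∧ C + C * C' ≤ M :=
    ⟨C + C * C' + C' + 1, by linarith, by linarith, by linarith, by linarith⟩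
  have hM0 : 0 < M := by linarith
  obtain ⟨ε, hε, hεε₀, hε1, hMd, hMδ1, hMδ, hM1'⟩ : ∃ ε : ℝ, 0 < ε ∧ ε ≤ ε₀ ∧ ε ≤ 1 ∧
      M * ε ≤ d ∧ M * ε ≤ δ1 / 2 ∧ M * ε ≤ δ / 4 ∧ M * ε ≤ 1 := by
    refine ⟨min ε₀ (min d (min (δ1 / 2) (min (δ / 4) 1)) / M), ?_, min_le_left _ _, ?_, ?_⟩
    · positivity
    · refine (min_le_right _ _).trans ?_
      rw [div_le_iff₀ hM0]
      refine (min_le_right _ _).trans ((min_le_right _ _).trans ((min_le_right _ _).trans ?_))
      linarith
    · have h1 : M * min ε₀ (min d (min (δ1 / 2) (min (δ / 4) 1)) / M) ≤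
          min d (min (δ1 / 2) (min (δ / 4) 1)) := by
        refine (mul_le_mul_of_nonneg_left (min_le_right _ _) hM0.le).trans (le_of_eq ?_)
        field_simp
      exact ⟨h1.trans (min_le_left _ _),
        h1.trans ((min_le_right _ _).trans (min_le_left _ _)),
        h1.trans ((min_le_right _ _).trans ((min_le_right _ _).trans (min_le_left _ _))),
        h1.trans ((min_le_right _ _).trans ((min_le_right _ _).trans (min_le_right _ _)))⟩
  obtain ⟨r, θ, σ, a, η, e, x, v, hr, hSt, hL, hGo, -, hE⟩ := H1 ε hε hεε₀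
  refine ⟨r, hr, ?_⟩
  obtain ⟨-, hX2, hX3⟩ := HX ε hε hε1 _ _ _ _ _ _ _ hSt
  have hX3' := hX3 hL
  have hie : ‖S.iota e‖ = 1 := by rw [LinearIsometry.norm_map, hL.n]
  have hCM : C * ε ≤ M * ε := mul_le_mul_of_nonneg_right hM2 hε.le
  have hCM' : C' * ε ≤ M * ε := mul_le_mul_of_nonneg_right hM3 hε.le
  have hGd : S.Good d (S.iota e) x v w := S.as_good_mono (hCM.trans hMd) w hGo
  have H3 := (H2 (S.iota e) x v hie hGd).2
  have hlw : S.lw (S.asV w) w = S.ev w := S.as_lw (w := w) w [] rfl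
  rw [hlw] at H3
  have hxn := S.as_good_norm w hGo
  have hy := S.as_norm_xv (S.ev r)
  have hy0 := S.as_norm_xv (S.ev w)
  have K1 := as_diff (x := x) (x' := S.asX w) (y := S.xv (S.ev r)) (y' := S.xv (S.ev w))
    (δ := 2 * δ1) w (fun i hi => by
      have h1 : ‖x i‖ ≤ 2 := by
        have := hxn i hi
        linarith
      refine ⟨?_, ?_, ?_⟩
      · refine (norm_inner_le_norm _ _).trans ?_
        rw [hy]
        linarith
      · refine (norm_inner_le_norm _ _).trans ?_
        have h2 : ‖S.asX w i‖ = 1 := S.as_norm_xv _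
        rw [hy0, h2]
        norm_num
      · have h2 : (inner ℂ (x i) (S.xv (S.ev r)) : ℂ) - inner ℂ (S.asX w i) (S.xv (S.ev w)) =
            inner ℂ (x i) (S.xv (S.ev r) - S.xv (S.lw v w)) +
            (inner ℂ (x i) (S.xv (S.lw v w)) - inner ℂ (S.asX w i) (S.xv (S.ev w))) := by
          rw [inner_sub_right]
          ring
        rw [h2]
        refine (norm_add_le _ _).trans ?_
        have h3 : ‖(inner ℂ (x i) (S.xv (S.ev r) - S.xv (S.lw v w)) : ℂ)‖ ≤ 2 * (C' * ε) :=
          (norm_inner_le_norm _ _).trans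
            (mul_le_mul h1 hX2 (norm_nonneg _) (by norm_num))
        have h4 := (H3 i hi).le
        linarith)
  have K2 : eSum (S.asX w) (S.xv (S.ev w)) w = S.energy w := S.as_eaux (w := w) _ w [] rfl
  have K3 := hE (S.xv (S.ev r)) hy.le
  have K4 : C * ε + C * ‖(inner ℂ e (S.xv (S.ev r)) : ℂ)‖ ≤ M * ε := by
    have h1 : C * ‖(inner ℂ e (S.xv (S.ev r)) : ℂ)‖ ≤ C * (C' * ε) :=
      mul_le_mul_of_nonneg_left hX3' hC
    have h2 := mul_le_mul_of_nonneg_right hM4 hε.le
    nlinarith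
  have K5 : S.energy r = S.eaux (S.xv (S.ev r)) r := rfl
  rw [K2] at K1
  rw [K5]
  have K6 := abs_sub_le (S.eaux (S.xv (S.ev r)) r) (eSum x (S.xv (S.ev r)) w) (S.energy w)
  linarith

end Sys

end Vale.Agent.P367.A
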