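import Vale.Agent.P367.A.Skel

/-! P367, Theorem A, block L0: algebra of pulses (helper96). -/

namespace Vale.Agent.P367.A

open Complex

open Vale.Agent.P367.NI (Gate)

/-- imaginary part of the inner product -/
noncomputable def th {K : Type*} [NormedAddCommGroup K] [InnerProductSpace ℂ K] (a b : K) : ℝ :=
  (inner ℂ a b : ℂ).im

section thlemmas

variable {K : Type*} [NormedAddCommGroup K] [InnerProductSpace ℂ K]

lemma th_swap (a b : K) : th a b = -th b a := by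
  unfold th
  rw [← inner_conj_symm a b, Complex.conj_im]

lemma th_self (a : K) : th a a = 0 := by
  have := th_swap a a
  linarith

lemma th_add_left (a b c : K) : th (a + b) c = th a c + th b c := by
  unfold th; rw [inner_add_left, add_im]

lemma th_add_right (a b c : K) : th a (b + c) = th a b + th a c := by
  unfold th; rw [inner_add_right, add_im]

lemma th_sub_left (a b c : K) : th (a - b) c = th a c - th b c := by
  unfold th; rw [inner_sub_left, sub_im]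

lemma th_sub_right (a b c : K) : th a (b - c) = th a b - th a c := by
  unfold th; rw [inner_sub_right, sub_im]

lemma th_neg_left (a b : K) : th (-a) b = -th a b := by
  unfold th; rw [inner_neg_left, neg_im]

lemma th_neg_right (a b : K) : th a (-b) = -th a b := by
  unfold th; rw [inner_neg_right, neg_im]

lemma th_smul_left (r : ℝ) (a b : K) : th ((r : ℂ) • a) b = r * th a b := by
  unfold th; rw [inner_smul_left, Complex.conj_ofReal, re_ofReal_mul_im]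
where
  re_ofReal_mul_im (r : ℝ) (z : ℂ) : ((r : ℂ) * z).im = r * z.im := by simp

lemma th_smul_right (r : ℝ) (a b : K) : th a ((r : ℂ) • b) = r * th a b := by
  unfold th; rw [inner_smul_right]; simp

lemma abs_th_le (a b : K) : |th a b| ≤ ‖a‖ * ‖b‖ :=
  (Complex.abs_im_le_norm _).trans (norm_inner_le_norm a b)

end thlemmas

namespace Sys

variable {H K : Type*} [NormedAddCommGroup H] [InnerProductSpace ℂ H]
  [NormedAddCommGroup K] [InnerProductSpace ℂ K] (S : Sys H K)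

lemma mulA (U V : H ≃ₗᵢ[ℂ] H) (x : H) : (U * V) x = U (V x) := rfl

lemma oneA (x : H) : (1 : H ≃ₗᵢ[ℂ] H) x = x := rfl

lemma invA (U : H ≃ₗᵢ[ℂ] H) (x : H) : U⁻¹ (U x) = x := U.symm_apply_apply x

lemma Ainv (U : H ≃ₗᵢ[ℂ] H) (x : H) : U (U⁻¹ x) = x := U.apply_symm_apply x

lemma inner_invA (U : H ≃ₗᵢ[ℂ] H) (x y : H) : inner ℂ (U⁻¹ x) y = inner ℂ x (U y) := by
  rw [← U.inner_map_map, Ainv]

lemma WW' (a b : K) (x : H) : S.W a (S.W b x)
    = Complex.exp (-(Complex.I * (th a b : ℂ))) • S.W (a + b) x := S.WW a b x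

/-- exchange relation -/
lemma Wx (a b : K) (x : H) : S.W a (S.W b x)
    = Complex.exp (-(2 * Complex.I * (th a b : ℂ))) • S.W b (S.W a x) := by
  rw [S.WW' a b, S.WW' b a, smul_smul, ← Complex.exp_add, add_comm b a, th_swap b a]
  congr 2
  push_cast
  ring

/-! ### `xr` -/

lemma xr_zero (x : H) : S.xr 0 x = x := by
  rw [xr_apply]; simp

lemma xr_xr (b c : ℝ) (x : H) : S.xr b (S.xr c x) = S.xr (b + c) x := by
  simp only [xr_apply, map_sub, map_smul, S.XX, Real.cos_add, Real.sin_add, ofReal_add, ofReal_sub,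
    ofReal_mul]
  have hI : Complex.I * Complex.I = -1 := Complex.I_mul_I
  have e : (Complex.I * (Real.sin b : ℂ)) * (Complex.I * (Real.sin c : ℂ))
      = -((Real.sin b : ℂ) * (Real.sin c : ℂ)) := by
    linear_combination ((Real.sin b : ℂ) * (Real.sin c : ℂ)) * hI
  calc _ = ((Real.cos b : ℂ) * (Real.cos c : ℂ)
        + (Complex.I * (Real.sin b : ℂ)) * (Complex.I * (Real.sin c : ℂ))) • x
        - (Complex.I * ((Real.sin b : ℂ) * (Real.cos c : ℂ)
          + (Real.cos b : ℂ) * (Real.sin c : ℂ))) • S.X x := by module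
    _ = _ := by rw [e, ← sub_eq_add_neg]

lemma xr_mul (b c : ℝ) : S.xr b * S.xr c = S.xr (b + c) := by
  ext x; exact S.xr_xr b c x

lemma xr_neg_xr (b : ℝ) (x : H) : S.xr (-b) (S.xr b x) = x := by
  rw [xr_xr, neg_add_cancel, xr_zero]

lemma xr_xr_neg (b : ℝ) (x : H) : S.xr b (S.xr (-b) x) = x := by
  rw [xr_xr, add_neg_cancel, xr_zero]

lemma xr_inv (b : ℝ) : (S.xr b)⁻¹ = S.xr (-b) := by
  ext x; exact inv_apply_eq (S.xr_xr_neg b x)

lemma inner_xr (b : ℝ) (x y : H) : inner ℂ (S.xr b x) y = inner ℂ x (S.xr (-b) y) := by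
  rw [← (S.xr (-b)).inner_map_map, xr_neg_xr]

lemma W_xrA (a : K) (b : ℝ) (x : H) : S.W a (S.xr b x) = S.xr b (S.W a x) := by
  rw [xr_apply, xr_apply, map_sub, map_smul, map_smul, S.WX]

lemma X_xr (b : ℝ) (x : H) : S.X (S.xr b x) = S.xr b (S.X x) := by
  rw [xr_apply, xr_apply, map_sub, map_smul, map_smul]

lemma Z_xr (b : ℝ) (x : H) : S.Z (S.xr b x) = S.xr (-b) (S.Z x) := by
  rw [xr_apply, xr_apply, map_sub, map_smul, map_smul, S.ZX, Real.cos_neg, Real.sin_neg, ofReal_neg]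
  module

lemma xr_pi_div_two (x : H) : S.xr (Real.pi / 2) x = -(Complex.I • S.X x) := by
  rw [xr_apply, Real.cos_pi_div_two, Real.sin_pi_div_two]
  simp

lemma xr_neg_pi_div_two (x : H) : S.xr (-(Real.pi / 2)) x = Complex.I • S.X x := by
  rw [xr_apply, Real.cos_neg, Real.sin_neg, Real.cos_pi_div_two, Real.sin_pi_div_two]
  simp

/-! ### `Zt` -/

lemma Zt_apply (t : ℝ) (x : H) : S.Zt t x = S.xr (2 * t) (S.Z x) := by
  change S.xr t (S.Z (S.xr (-t) x)) = _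
  rw [Z_xr, xr_xr, neg_neg, two_mul]

lemma Zt_zero (x : H) : S.Zt 0 x = S.Z x := by
  rw [Zt_apply, mul_zero, xr_zero]

/-- `Y = i X Z` -/
lemma Zt_apply' (t : ℝ) (x : H) : S.Zt t x
    = (Real.cos (2 * t) : ℂ) • S.Z x - (Real.sin (2 * t) : ℂ) • (Complex.I • S.X (S.Z x)) := by
  rw [Zt_apply, xr_apply, smul_smul, mul_comm (Real.sin (2 * t) : ℂ) Complex.I]

lemma Zt_Zt (t s : ℝ) (x : H) : S.Zt t (S.Zt s x) = S.xr (2 * (t - s)) x := by
  rw [Zt_apply, Zt_apply, Z_xr, S.ZZ, xr_xr]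
  congr 2
  ring

lemma Zt_sq (t : ℝ) (x : H) : S.Zt t (S.Zt t x) = x := by
  rw [Zt_Zt, sub_self, mul_zero, xr_zero]

lemma inner_Zt (t : ℝ) (x y : H) : inner ℂ (S.Zt t x) y = inner ℂ x (S.Zt t y) := by
  rw [← (S.Zt t).inner_map_map, Zt_sq]

lemma W_ZtA (a : K) (t : ℝ) (x : H) : S.W a (S.Zt t x) = S.Zt t (S.W a x) := by
  rw [Zt_apply, Zt_apply, W_xrA, S.WZ]

lemma X_Zt (t : ℝ) (x : H) : S.X (S.Zt t x) = -S.Zt t (S.X x) := by
  rw [Zt_apply, Zt_apply, X_xr, S.XZ, map_neg]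

/-! ### `rot t f = exp (2 i f Z^t)` -/

noncomputable def rotL (t f : ℝ) : H →ₗ[ℂ] H :=
  (Real.cos (2 * f) : ℂ) • LinearMap.id
    + (Complex.I * (Real.sin (2 * f) : ℂ)) • (S.Zt t).toLinearEquiv.toLinearMap

lemma rotL_apply (t f : ℝ) (x : H) : S.rotL t f x
    = (Real.cos (2 * f) : ℂ) • x + (Complex.I * (Real.sin (2 * f) : ℂ)) • S.Zt t x := rfl

lemma rotL_rotL_neg (t f : ℝ) (x : H) : S.rotL t f (S.rotL t (-f) x) = x := by
  simp only [rotL_apply, map_add, map_smul, S.Zt_sq, mul_neg, Real.cos_neg, Real.sin_neg,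
    ofReal_neg]
  have h : (Real.cos (2 * f) : ℂ) * Real.cos (2 * f)
      + (Real.sin (2 * f) : ℂ) * Real.sin (2 * f) = 1 := by
    have := Real.cos_sq_add_sin_sq (2 * f)
    rw [← Complex.ofReal_mul, ← Complex.ofReal_mul, ← Complex.ofReal_add,
      ← pow_two, ← pow_two, this, Complex.ofReal_one]
  have hI := Complex.I_mul_I
  have e : (Real.cos (2 * f) : ℂ) * Real.cos (2 * f) - (Complex.I * (Real.sin (2 * f) : ℂ))
      * (Complex.I * (Real.sin (2 * f) : ℂ)) = 1 := by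
    linear_combination h - (Real.sin (2 * f) : ℂ)^2 * hI
  calc _ = ((Real.cos (2 * f) : ℂ) * Real.cos (2 * f) - (Complex.I * (Real.sin (2 * f) : ℂ))
          * (Complex.I * (Real.sin (2 * f) : ℂ))) • x := by module
    _ = _ := by rw [e, one_smul]

/-- `exp (2 i f Z^t)` -/
noncomputable def rot (t f : ℝ) : H ≃ₗᵢ[ℂ] H :=
  mkU (S.rotL t f) (S.rotL t (-f))
    (fun x => by have := S.rotL_rotL_neg t (-f) x; rwa [neg_neg] at this)
    (fun x => S.rotL_rotL_neg t f x)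
    (fun x y => by
      simp only [rotL_apply, inner_add_left, inner_add_right, inner_smul_left, inner_smul_right,
        S.inner_Zt, map_mul, Complex.conj_ofReal, Complex.conj_I, mul_neg, Real.cos_neg,
        Real.sin_neg, ofReal_neg]
      ring)

lemma rot_apply (t f : ℝ) (x : H) : S.rot t f x
    = (Real.cos (2 * f) : ℂ) • x + (Complex.I * (Real.sin (2 * f) : ℂ)) • S.Zt t x := rfl

lemma W_rot (a : K) (t f : ℝ) (x : H) : S.W a (S.rot t f x) = S.rot t f (S.W a x) := by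
  rw [rot_apply, rot_apply, map_add, map_smul, map_smul, W_ZtA]

lemma rot_quarter (t : ℝ) (x : H) : S.rot t (Real.pi / 4) x = Complex.I • S.Zt t x := by
  rw [rot_apply, show 2 * (Real.pi / 4) = Real.pi / 2 by ring, Real.cos_pi_div_two,
    Real.sin_pi_div_two]
  simp

lemma rot_neg_quarter (t : ℝ) (x : H) :
    S.rot t (-(Real.pi / 4)) x = -(Complex.I • S.Zt t x) := by
  rw [rot_apply, show 2 * (-(Real.pi / 4)) = -(Real.pi / 2) by ring, Real.cos_neg, Real.sin_neg,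
    Real.cos_pi_div_two, Real.sin_pi_div_two]
  simp

/-- the norm of `rot t f x - rot t g x` -/
lemma norm_rot_sub_rot (t f g : ℝ) (x : H) : ‖S.rot t f x - S.rot t g x‖ ≤ 2 * |f - g| * ‖x‖ := by
  have key : ‖S.rot t f x - S.rot t g x‖ ^ 2
      = ((Real.cos (2 * f) - Real.cos (2 * g)) ^ 2 + (Real.sin (2 * f) - Real.sin (2 * g)) ^ 2)
        * ‖x‖ ^ 2 := by
    have e : S.rot t f x - S.rot t g x = ((Real.cos (2 * f) - Real.cos (2 * g) : ℝ) : ℂ) • x
        + (Complex.I * ((Real.sin (2 * f) - Real.sin (2 * g) : ℝ) : ℂ)) • S.Zt t x := by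
      rw [rot_apply, rot_apply]; push_cast; module
    rw [e, @norm_add_sq ℂ H]
    have hz : RCLike.re (inner ℂ (((Real.cos (2 * f) - Real.cos (2 * g) : ℝ) : ℂ) • x)
        ((Complex.I * ((Real.sin (2 * f) - Real.sin (2 * g) : ℝ) : ℂ)) • S.Zt t x) : ℂ) = 0 := by
      have hr : (inner ℂ x (S.Zt t x) : ℂ).im = 0 := by
        have h1 := S.inner_Zt t x x
        have h2 := inner_conj_symm (𝕜 := ℂ) x (S.Zt t x)
        rw [h1] at h2
        exact Complex.conj_eq_iff_im.1 h2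
      rw [inner_smul_left, inner_smul_right, Complex.conj_ofReal]
      simp only [RCLike.re_to_complex, Complex.mul_re, Complex.mul_im, Complex.I_re, Complex.I_im,
        Complex.ofReal_re, Complex.ofReal_im, hr]
      ring
    rw [hz, norm_smul, norm_smul, norm_mul, Complex.norm_I, Complex.norm_real, Complex.norm_real,
      (S.Zt t).norm_map, Real.norm_eq_abs, Real.norm_eq_abs, mul_pow, mul_pow, one_mul, sq_abs,
      sq_abs]
    ring
  have h2 : (Real.cos (2 * f) - Real.cos (2 * g)) ^ 2 + (Real.sin (2 * f) - Real.sin (2 * g)) ^ 2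
      ≤ (2 * |f - g|) ^ 2 := by
    have e1 : (Real.cos (2 * f) - Real.cos (2 * g)) ^ 2
        + (Real.sin (2 * f) - Real.sin (2 * g)) ^ 2 = 2 - 2 * Real.cos (2 * (f - g)) := by
      rw [show 2 * (f - g) = 2 * f - 2 * g by ring, Real.cos_sub]
      nlinarith [Real.sin_sq_add_cos_sq (2 * f), Real.sin_sq_add_cos_sq (2 * g)]
    rw [e1, mul_pow, sq_abs]
    have := Real.one_sub_sq_div_two_le_cos (x := 2 * (f - g))
    nlinarith
  have h3 : ‖S.rot t f x - S.rot t g x‖ ^ 2 ≤ (2 * |f - g| * ‖x‖) ^ 2 := by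
    rw [key, mul_pow (2 * |f - g|)]
    exact mul_le_mul_of_nonneg_right h2 (by positivity)
  exact (sq_le_sq₀ (norm_nonneg _) (by positivity)).1 h3

lemma rot_zero (t : ℝ) (x : H) : S.rot t 0 x = x := by
  rw [rot_apply]; simp

lemma norm_rot_sub (t f : ℝ) (x : H) : ‖S.rot t f x - x‖ ≤ 2 * |f| * ‖x‖ := by
  have := S.norm_rot_sub_rot t f 0 x
  rwa [rot_zero, sub_zero] at this

/-! ### pulses -/

lemma pul_def (t : ℝ) (v : K) (x : H) : S.pul t v x = S.xr t (S.zr v (S.xr (-t) x)) := rfl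

lemma pul_apply (t : ℝ) (v : K) (x : H) : S.pul t v x = (1 / 2 : ℂ) • (S.W (-v) x + S.W v x)
      + (1 / 2 : ℂ) • (S.W (-v) (S.Zt t x) - S.W v (S.Zt t x)) := by
  rw [pul_def, zr_apply]
  simp only [map_add, map_sub, map_smul, W_xrA, xr_xr_neg]
  simp only [← W_xrA, Z_xr, Zt_apply, xr_xr, neg_neg, two_mul]

/-- spectral projections of `Z^t` -/
noncomputable def Pp (t : ℝ) (x : H) : H := (1 / 2 : ℂ) • (x + S.Zt t x)

noncomputable def Pm (t : ℝ) (x : H) : H := (1 / 2 : ℂ) • (x - S.Zt t x)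

lemma pul_eq_P (t : ℝ) (v : K) (x : H) :
    S.pul t v x = S.W (-v) (S.Pp t x) + S.W v (S.Pm t x) := by
  rw [pul_apply, Pp, Pm]
  simp only [map_add, map_sub, map_smul]
  module

lemma Pp_add_Pm (t : ℝ) (x : H) : S.Pp t x + S.Pm t x = x := by
  rw [Pp, Pm]; module

lemma Zt_Pp (t : ℝ) (x : H) : S.Zt t (S.Pp t x) = S.Pp t x := by
  rw [Pp]; simp only [map_add, map_smul, Zt_sq]; module

lemma Zt_Pm (t : ℝ) (x : H) : S.Zt t (S.Pm t x) = -S.Pm t x := by
  rw [Pm]; simp only [map_sub, map_smul, Zt_sq]; module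

lemma Pp_Pp (t : ℝ) (x : H) : S.Pp t (S.Pp t x) = S.Pp t x := by
  rw [Pp, Zt_Pp]; module

lemma Pm_Pm (t : ℝ) (x : H) : S.Pm t (S.Pm t x) = S.Pm t x := by
  rw [Pm, Zt_Pm]; module

lemma Pp_Pm (t : ℝ) (x : H) : S.Pp t (S.Pm t x) = 0 := by
  rw [Pp, Zt_Pm]; module

lemma Pm_Pp (t : ℝ) (x : H) : S.Pm t (S.Pp t x) = 0 := by
  rw [Pm, Zt_Pp]; module

lemma W_Pp (a : K) (t : ℝ) (x : H) : S.W a (S.Pp t x) = S.Pp t (S.W a x) := by
  rw [Pp, Pp, map_smul, map_add, W_ZtA]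

lemma W_Pm (a : K) (t : ℝ) (x : H) : S.W a (S.Pm t x) = S.Pm t (S.W a x) := by
  rw [Pm, Pm, map_smul, map_sub, W_ZtA]

lemma Pp_smul (t : ℝ) (k : ℂ) (x : H) : S.Pp t (k • x) = k • S.Pp t x := by
  rw [Pp, Pp, map_smul]; module

lemma Pm_smul (t : ℝ) (k : ℂ) (x : H) : S.Pm t (k • x) = k • S.Pm t x := by
  rw [Pm, Pm, map_smul]; module

lemma Pp_add (t : ℝ) (x y : H) : S.Pp t (x + y) = S.Pp t x + S.Pp t y := by
  rw [Pp, Pp, Pp, map_add]; module

lemma Pm_add (t : ℝ) (x y : H) : S.Pm t (x + y) = S.Pm t x + S.Pm t y := by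
  rw [Pm, Pm, Pm, map_add]; module

lemma X_Pp (t : ℝ) (x : H) : S.X (S.Pp t x) = S.Pm t (S.X x) := by
  rw [Pp, Pm, map_smul, map_add, X_Zt]; module

lemma X_Pm (t : ℝ) (x : H) : S.X (S.Pm t x) = S.Pp t (S.X x) := by
  rw [Pp, Pm, map_smul, map_sub, X_Zt]; module

lemma inner_Pp_Pm (t : ℝ) (x y : H) : (inner ℂ (S.Pp t x) (S.Pm t y) : ℂ) = 0 := by
  rw [Pp, Pm, inner_smul_left, inner_smul_right, inner_add_left, inner_sub_right, inner_sub_right,
    S.inner_Zt, S.inner_Zt, Zt_sq]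
  ring

lemma inner_Pm_Pp (t : ℝ) (x y : H) : (inner ℂ (S.Pm t x) (S.Pp t y) : ℂ) = 0 := by
  rw [← inner_conj_symm, inner_Pp_Pm, map_zero]

lemma norm_sq_P (t : ℝ) (x : H) : ‖x‖ ^ 2 = ‖S.Pp t x‖ ^ 2 + ‖S.Pm t x‖ ^ 2 := by
  conv_lhs => rw [← S.Pp_add_Pm t x]
  rw [@norm_add_sq ℂ H, inner_Pp_Pm]
  simp

lemma norm_Pp_le (t : ℝ) (x : H) : ‖S.Pp t x‖ ≤ ‖x‖ := by
  refine (sq_le_sq₀ (norm_nonneg _) (norm_nonneg _)).1 ?_
  rw [S.norm_sq_P t x]; nlinarith [sq_nonneg ‖S.Pm t x‖]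

lemma norm_Pm_le (t : ℝ) (x : H) : ‖S.Pm t x‖ ≤ ‖x‖ := by
  refine (sq_le_sq₀ (norm_nonneg _) (norm_nonneg _)).1 ?_
  rw [S.norm_sq_P t x]; nlinarith [sq_nonneg ‖S.Pp t x‖]

lemma pul_zero (t : ℝ) (x : H) : S.pul t 0 x = x := by
  rw [pul_eq_P, neg_zero, W_zero_apply, W_zero_apply, Pp_add_Pm]

lemma pul_time_zero (v : K) : S.pul 0 v = S.zr v := by
  ext x; rw [pul_def, neg_zero, xr_zero, xr_zero]

lemma pul_pul (t : ℝ) (v w : K) (x : H) : S.pul t v (S.pul t w x)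
    = Complex.exp (-(Complex.I * (th v w : ℂ))) • S.pul t (v + w) x := by
  rw [S.pul_eq_P t v, S.pul_eq_P t w, S.pul_eq_P t (v + w)]
  rw [Pp_add, Pm_add, ← W_Pp, ← W_Pp, ← W_Pm, ← W_Pm, Pp_Pp, Pm_Pm, Pp_Pm, Pm_Pp]
  simp only [map_zero, add_zero, zero_add]
  rw [S.WW', S.WW', smul_add, th_neg_left, th_neg_right, neg_neg, ← neg_add]

lemma pul_neg_pul (t : ℝ) (v : K) (x : H) : S.pul t (-v) (S.pul t v x) = x := by
  rw [pul_pul, neg_add_cancel, pul_zero, th_neg_left, th_self]; simp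

lemma pul_pul_neg (t : ℝ) (v : K) (x : H) : S.pul t v (S.pul t (-v) x) = x := by
  have := S.pul_neg_pul t (-v) x
  rwa [neg_neg] at this

lemma pul_inv (t : ℝ) (v : K) : (S.pul t v)⁻¹ = S.pul t (-v) := by
  ext x; exact inv_apply_eq (S.pul_pul_neg t v x)

lemma inner_pul (t : ℝ) (v : K) (x y : H) :
    inner ℂ (S.pul t v x) y = inner ℂ x (S.pul t (-v) y) := by
  rw [← (S.pul t (-v)).inner_map_map, pul_neg_pul]

lemma zr_zr (v w : K) (x : H) : S.zr v (S.zr w x)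
    = Complex.exp (-(Complex.I * (th v w : ℂ))) • S.zr (v + w) x := by
  rw [← pul_time_zero, ← pul_time_zero, ← pul_time_zero, pul_pul]

lemma zr_zero (x : H) : S.zr 0 x = x := by rw [← pul_time_zero, pul_zero]

lemma zr_neg_zr (v : K) (x : H) : S.zr (-v) (S.zr v x) = x := by
  rw [← pul_time_zero, ← pul_time_zero, pul_neg_pul]

lemma zr_zr_neg (v : K) (x : H) : S.zr v (S.zr (-v) x) = x := by
  rw [← pul_time_zero, ← pul_time_zero, pul_pul_neg]

lemma zr_inv (v : K) : (S.zr v)⁻¹ = S.zr (-v) := by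
  rw [← pul_time_zero, ← pul_time_zero, pul_inv]

lemma inner_zr (v : K) (x y : H) : inner ℂ (S.zr v x) y = inner ℂ x (S.zr (-v) y) := by
  rw [← pul_time_zero, ← pul_time_zero, inner_pul]

/-- `zr` gates commute up to a phase -/
lemma zr_comm (v w : K) (x : H) : S.zr v (S.zr w x)
    = Complex.exp (-(2 * Complex.I * (th v w : ℂ))) • S.zr w (S.zr v x) := by
  rw [zr_zr, zr_zr, smul_smul, ← Complex.exp_add, add_comm w v, th_swap w v]
  congr 2
  push_cast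
  ring

lemma X_zr (v : K) (x : H) : S.X (S.zr v x) = S.zr (-v) (S.X x) := by
  rw [← pul_time_zero, ← pul_time_zero, pul_eq_P, pul_eq_P, map_add, ← S.WX, ← S.WX, X_Pp, X_Pm,
    neg_neg, add_comm]

lemma Zt_pul (t : ℝ) (v : K) (x : H) : S.Zt t (S.pul t v x) = S.pul t v (S.Zt t x) := by
  rw [pul_apply, pul_apply]
  simp only [map_add, map_sub, map_smul, W_ZtA]

lemma Z_zr (v : K) (x : H) : S.Z (S.zr v x) = S.zr v (S.Z x) := by
  rw [← Zt_zero, ← Zt_zero, ← pul_time_zero, Zt_pul]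

/-- a pulse in the frame `W b` -/
lemma pul_W (t : ℝ) (v b : K) (x : H) :
    S.pul t v (S.W b x) = S.W b (S.rot t (th v b) (S.pul t v x)) := by
  rw [S.pul_eq_P t v (S.W b x), ← W_Pp, ← W_Pm, S.Wx (-v) b, S.Wx v b, th_neg_left]
  have h1 : S.rot t (th v b) (S.pul t v x)
      = Complex.exp (2 * Complex.I * (th v b : ℂ)) • S.W (-v) (S.Pp t x)
        + Complex.exp (-(2 * Complex.I * (th v b : ℂ))) • S.W v (S.Pm t x) := by
    rw [rot_apply, pul_eq_P, map_add, ← W_ZtA, ← W_ZtA, Zt_Pp, Zt_Pm, map_neg]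
    have e1 : Complex.exp (2 * Complex.I * (th v b : ℂ))
        = (Real.cos (2 * th v b) : ℂ) + Complex.I * (Real.sin (2 * th v b) : ℂ) := by
      rw [show 2 * Complex.I * (th v b : ℂ) = ((2 * th v b : ℝ) : ℂ) * Complex.I by
        push_cast; ring, Complex.exp_mul_I]
      push_cast; ring
    have e2 : Complex.exp (-(2 * Complex.I * (th v b : ℂ)))
        = (Real.cos (2 * th v b) : ℂ) - Complex.I * (Real.sin (2 * th v b) : ℂ) := by
      rw [show -(2 * Complex.I * (th v b : ℂ)) = ((-(2 * th v b) : ℝ) : ℂ) * Complex.I by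
        push_cast; ring, Complex.exp_mul_I, ← Complex.ofReal_cos, ← Complex.ofReal_sin,
        Real.cos_neg, Real.sin_neg]
      push_cast; ring
    rw [e1, e2]
    module
  rw [h1, map_add, map_smul, map_smul]
  congr 3
  push_cast
  ring

lemma zr_W (v b : K) (x : H) :
    S.zr v (S.W b x) = S.W b (S.rot 0 (th v b) (S.zr v x)) := by
  rw [← pul_time_zero, pul_W]

/-- commutator of `Z^{t2}` with a pulse of axis `t1` -/
lemma Zt_pul_comm (t2 t1 : ℝ) (v : K) (x : H) :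
    S.Zt t2 (S.pul t1 v x) - S.pul t1 v (S.Zt t2 x)
      = (-(2 * Complex.I * (Real.sin (2 * (t2 - t1)) : ℂ)))
        • S.X ((1 / 2 : ℂ) • (S.W (-v) x - S.W v x)) := by
  rw [pul_apply, pul_apply]
  simp only [map_add, map_sub, map_smul, ← W_ZtA, Zt_Zt]
  simp only [xr_apply, map_sub, map_smul]
  rw [show 2 * (t1 - t2) = -(2 * (t2 - t1)) by ring, Real.cos_neg, Real.sin_neg, ofReal_neg]
  simp only [S.WX]
  module

/-! ### field vectors -/

lemma norm_xt (t : ℝ) (V : H ≃ₗᵢ[ℂ] H) : ‖S.xt t V‖ = 1 := by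
  rw [xt, (V⁻¹).norm_map, (S.Zt t).norm_map, V.norm_map, S.nOm]

lemma norm_xv (V : H ≃ₗᵢ[ℂ] H) : ‖S.xv V‖ = 1 := by
  rw [xv, (V⁻¹).norm_map, S.Z.norm_map, V.norm_map, S.nOm]

lemma norm_iota (x : H) : ‖S.iota x‖ = ‖x‖ := S.iota.norm_map x

lemma inner_iota (x y : H) : inner ℂ (S.iota x) (S.iota y) = inner ℂ x y :=
  S.iota.inner_map_map x y

lemma th_iota (x y : H) : th (S.iota x) (S.iota y) = (inner ℂ x y : ℂ).im := by
  rw [th, inner_iota]

lemma xt_zero (V : H ≃ₗᵢ[ℂ] H) : S.xt 0 V = S.xv V := by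
  rw [xt, xv, Zt_zero]

/-- `V^* Y V Om`, `Y = i X Z` -/
noncomputable def yv (V : H ≃ₗᵢ[ℂ] H) : H := V⁻¹ (Complex.I • S.X (S.Z (V S.Om)))

lemma xt_eq (t : ℝ) (V : H ≃ₗᵢ[ℂ] H) :
    S.xt t V = (Real.cos (2 * t) : ℂ) • S.xv V - (Real.sin (2 * t) : ℂ) • S.yv V := by
  rw [xt, Zt_apply', map_sub, map_smul, map_smul, xv, yv]

lemma xt_pul_mul (t : ℝ) (v : K) (V : H ≃ₗᵢ[ℂ] H) : S.xt t (S.pul t v * V) = S.xt t V := by
  rw [xt, xt, mulA, Zt_pul, mul_inv_rev, mulA, pul_inv, pul_neg_pul]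

lemma xv_zr_mul (v : K) (V : H ≃ₗᵢ[ℂ] H) : S.xv (S.zr v * V) = S.xv V := by
  rw [← xt_zero, ← xt_zero, ← pul_time_zero, xt_pul_mul]

lemma xt_xr_mul (t b : ℝ) (V : H ≃ₗᵢ[ℂ] H) : S.xt t (S.xr b * V) = S.xt (t - b) V := by
  rw [xt, xt, mulA, mul_inv_rev, mulA, xr_inv, Zt_apply, Zt_apply, Z_xr, xr_xr, xr_xr]
  congr 3
  ring

lemma xv_xr_mul (b : ℝ) (V : H ≃ₗᵢ[ℂ] H) : S.xv (S.xr b * V) = S.xt (-b) V := by
  rw [← xt_zero, xt_xr_mul, zero_sub]

lemma norm_yv (V : H ≃ₗᵢ[ℂ] H) : ‖S.yv V‖ = 1 := by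
  rw [yv, (V⁻¹).norm_map, norm_smul, Complex.norm_I, one_mul, S.X.norm_map, S.Z.norm_map,
    V.norm_map, S.nOm]

/-- `<y(V), x(V)> = -i <V Om, X V Om>`; here in the form of imaginary parts -/
lemma im_inner_yv_xv (V : H ≃ₗᵢ[ℂ] H) :
    (inner ℂ (S.yv V) (S.xv V) : ℂ).im = (inner ℂ (V S.Om) (S.X (V S.Om)) : ℂ).re := by
  rw [yv, xv, (V⁻¹).inner_map_map, inner_smul_left, Complex.conj_I, S.inner_X, S.inner_Z, S.XZ,
    map_neg, S.ZZ, inner_neg_right]
  simp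

/-! ### the word of a pulse -/

lemma ev_ps (t s : ℝ) (w : List Gate) :
    S.ev (Gate.B t :: Gate.C s :: Gate.B (-t) :: w) = S.ps t s (S.ev w) := by
  have h : S.xv (S.xr (-t) * S.ev w) = S.xt t (S.ev w) := by rw [xv_xr_mul, neg_neg]
  change S.xr t * (S.zr ((s : ℂ) • S.iota (S.xv (S.xr (-t) * S.ev w))) * (S.xr (-t) * S.ev w)) = _
  rw [h, ps, pul, mul_assoc, mul_assoc]

end Sys

/-- the four-pulse word (head = last gate) -/
def wl (t1 t2 s1 s2 : ℝ) (w : List Gate) : List Gate :=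
  Gate.B t1 :: Gate.C (-s1) :: Gate.B (-t1) :: Gate.B t2 :: Gate.C (-s2) :: Gate.B (-t2) ::
  Gate.B t1 :: Gate.C s1 :: Gate.B (-t1) :: Gate.B t2 :: Gate.C s2 :: Gate.B (-t2) :: w

lemma plain_cons_B {b : ℝ} {w : List Gate} : Plain (Gate.B b :: w) ↔ Plain w := by
  constructor
  · intro h g hg k; exact h g (List.mem_cons_of_mem _ hg) k
  · intro h g hg k
    rcases List.mem_cons.1 hg with rfl | hg
    · simp
    · exact h g hg k

lemma plain_cons_C {b : ℝ} {w : List Gate} : Plain (Gate.C b :: w) ↔ Plain w := by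
  constructor
  · intro h g hg k; exact h g (List.mem_cons_of_mem _ hg) k
  · intro h g hg k
    rcases List.mem_cons.1 hg with rfl | hg
    · simp
    · exact h g hg k

lemma plain_nil : Plain [] := fun g hg => by simp at hg

lemma plain_wl {t1 t2 s1 s2 : ℝ} {w : List Gate} : Plain (wl t1 t2 s1 s2 w) ↔ Plain w := by
  simp only [wl, plain_cons_B, plain_cons_C]

namespace Sys

variable {H K : Type*} [NormedAddCommGroup H] [InnerProductSpace ℂ H]
  [NormedAddCommGroup K] [InnerProductSpace ℂ K] (S : Sys H K)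

lemma ev_wl (t1 t2 s1 s2 : ℝ) (w : List Gate) :
    S.ev (wl t1 t2 s1 s2 w) = S.wv t1 t2 s1 s2 (S.ev w) := by
  rw [wl, ev_ps, ev_ps, ev_ps, ev_ps, wv]

lemma abs_im_sq_le {x y : H} (hx : ‖x‖ ≤ 1) (hy : ‖y‖ ≤ 1) :
    |((inner ℂ x y : ℂ) ^ 2).im| ≤ 1 := by
  refine (Complex.abs_im_le_norm _).trans ?_
  rw [norm_pow]
  have h := norm_inner_le_norm (𝕜 := ℂ) x y
  have h1 : ‖(inner ℂ x y : ℂ)‖ ≤ 1 := h.trans (by nlinarith [norm_nonneg x, norm_nonneg y])
  exact pow_le_one₀ (norm_nonneg _) h1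

/-- the four-pulse word changes the energy by at most `2 (|s1| + |s2|)` -/
lemma eaux_wl (t1 t2 s1 s2 : ℝ) (w : List Gate) (y : H) (hy : ‖y‖ ≤ 1) :
    |S.eaux y (wl t1 t2 s1 s2 w) - S.eaux y w| ≤ 2 * (|s1| + |s2|) := by
  have h : ∀ (s : ℝ) (u : List Gate), |s * ((inner ℂ (S.xv (S.ev u)) y : ℂ) ^ 2).im| ≤ |s| := by
    intro s u
    rw [abs_mul]
    have := abs_im_sq_le (S.norm_xv (S.ev u)).le hy
    calc _ ≤ |s| * 1 := mul_le_mul_of_nonneg_left this (abs_nonneg _)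
      _ = _ := mul_one _
  simp only [wl, eaux]
  have a1 := h (-s1) (Gate.B (-t1) :: Gate.B t2 :: Gate.C (-s2) :: Gate.B (-t2) ::
    Gate.B t1 :: Gate.C s1 :: Gate.B (-t1) :: Gate.B t2 :: Gate.C s2 :: Gate.B (-t2) :: w)
  have a2 := h (-s2) (Gate.B (-t2) ::
    Gate.B t1 :: Gate.C s1 :: Gate.B (-t1) :: Gate.B t2 :: Gate.C s2 :: Gate.B (-t2) :: w)
  have a3 := h s1 (Gate.B (-t1) :: Gate.B t2 :: Gate.C s2 :: Gate.B (-t2) :: w)
  have a4 := h s2 (Gate.B (-t2) :: w)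
  rw [abs_neg] at a1 a2
  rw [abs_le] at a1 a2 a3 a4 ⊢
  constructor <;> linarith [a1.1, a1.2, a2.1, a2.2, a3.1, a3.2, a4.1, a4.2]

end Sys

end Vale.Agent.P367.A
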