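import Mathlib
import Vale.Agent.P367.NI.Defs

/-! P367, Theorem A: abstract spin-Weyl system, gates, states, niceness. -/

namespace Vale.Agent.P367.A

open Complex Filter Topology Asymptotics

open Vale.Agent.P367.NI (Gate)

/-- one spin 1/2 together with a Weyl system; `H` one-site space, `K` one-particle space. -/
structure Sys (H K : Type*) [NormedAddCommGroup H] [InnerProductSpace ℂ H]
    [NormedAddCommGroup K] [InnerProductSpace ℂ K] where
  X : H ≃ₗᵢ[ℂ] H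
  Z : H ≃ₗᵢ[ℂ] H
  W : K → H ≃ₗᵢ[ℂ] H
  Om : H
  iota : H →ₗᵢ[ℂ] K
  e0 : K
  XX : ∀ x, X (X x) = x
  ZZ : ∀ x, Z (Z x) = x
  XZ : ∀ x, X (Z x) = -Z (X x)
  WW : ∀ (a b : K) (x : H), W a (W b x)
    = Complex.exp (-(Complex.I * ((inner ℂ a b).im : ℂ))) • W (a + b) x
  WX : ∀ (a : K) (x : H), W a (X x) = X (W a x)
  WZ : ∀ (a : K) (x : H), W a (Z x) = Z (W a x)
  XOm : X Om = Om
  nOm : ‖Om‖ = 1
  vac : ∀ a : K, inner ℂ Om (W a Om) = Complex.exp (-((‖a‖ ^ 2 / 2 : ℝ) : ℂ))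
  ne0 : ‖e0‖ = 1
  e0perp : ∀ x, inner ℂ e0 (iota x) = 0

/-- unitary from a linear map and its adjoint inverse -/
noncomputable def mkU {H : Type*} [NormedAddCommGroup H] [InnerProductSpace ℂ H]
    (A B : H →ₗ[ℂ] H) (h1 : ∀ x, B (A x) = x) (h2 : ∀ x, A (B x) = x)
    (h3 : ∀ x y, inner ℂ (A x) y = inner ℂ x (B y)) : H ≃ₗᵢ[ℂ] H where
  toFun := A
  invFun := B
  map_add' := A.map_add
  map_smul' := A.map_smul
  left_inv := h1
  right_inv := h2
  norm_map' x := by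
    have h : inner ℂ (A x) (A x) = inner ℂ x x := by rw [h3, h1]
    rw [inner_self_eq_norm_sq_to_K, inner_self_eq_norm_sq_to_K] at h
    have h' : ‖A x‖ ^ 2 = ‖x‖ ^ 2 := by exact_mod_cast h
    exact (sq_eq_sq₀ (norm_nonneg _) (norm_nonneg _)).1 h'

namespace Sys

variable {H K : Type*} [NormedAddCommGroup H] [InnerProductSpace ℂ H]
  [NormedAddCommGroup K] [InnerProductSpace ℂ K] (S : Sys H K)

lemma inv_apply_eq {U : H ≃ₗᵢ[ℂ] H} {x y : H} (h : U x = y) : U⁻¹ y = x := by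
  rw [← h]; exact U.symm_apply_apply x

lemma W_zero_apply (x : H) : S.W 0 x = x := by
  have h := S.WW 0 0 x
  simp only [inner_zero_left, zero_im, ofReal_zero, mul_zero, neg_zero, Complex.exp_zero,
    one_smul, add_zero] at h
  exact (S.W 0).injective h

lemma W_neg_W (a : K) (x : H) : S.W (-a) (S.W a x) = x := by
  rw [S.WW]
  have : (inner ℂ (-a) a : ℂ).im = 0 := by
    rw [inner_neg_left, inner_self_eq_norm_sq_to_K]
    simp [← ofReal_pow]
  rw [this]
  simp [S.W_zero_apply]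

lemma W_W_neg (a : K) (x : H) : S.W a (S.W (-a) x) = x := by
  have := S.W_neg_W (-a) x
  rwa [neg_neg] at this

lemma W_inv (a : K) : (S.W a)⁻¹ = S.W (-a) := by
  ext x
  apply inv_apply_eq
  exact S.W_W_neg a x

lemma inner_W (a : K) (x y : H) : inner ℂ (S.W a x) y = inner ℂ x (S.W (-a) y) := by
  have h := (S.W a).inner_map_map x (S.W (-a) y)
  rwa [S.W_W_neg] at h

lemma inner_X (x y : H) : inner ℂ (S.X x) y = inner ℂ x (S.X y) := by
  have h := S.X.inner_map_map x (S.X y)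
  rwa [S.XX] at h

lemma inner_Z (x y : H) : inner ℂ (S.Z x) y = inner ℂ x (S.Z y) := by
  have h := S.Z.inner_map_map x (S.Z y)
  rwa [S.ZZ] at h

lemma ZX (x : H) : S.Z (S.X x) = -S.X (S.Z x) := by
  rw [S.XZ, neg_neg]

/-- linear map underlying `exp(-i b X)` -/
noncomputable def xrL (b : ℝ) : H →ₗ[ℂ] H :=
  (Real.cos b : ℂ) • LinearMap.id - (Complex.I * (Real.sin b : ℂ)) • S.X.toLinearEquiv.toLinearMap

lemma xrL_apply (b : ℝ) (x : H) :
    S.xrL b x = (Real.cos b : ℂ) • x - (Complex.I * (Real.sin b : ℂ)) • S.X x := rfl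

lemma xrL_xrL_neg (b : ℝ) (x : H) : S.xrL b (S.xrL (-b) x) = x := by
  simp only [xrL_apply, map_sub, map_smul, S.XX, Real.cos_neg, Real.sin_neg, ofReal_neg]
  have h : (Real.cos b : ℂ) * Real.cos b + (Real.sin b : ℂ) * Real.sin b = 1 := by
    have := Real.cos_sq_add_sin_sq b
    rw [← Complex.ofReal_mul, ← Complex.ofReal_mul, ← Complex.ofReal_add,
      ← pow_two, ← pow_two, this, Complex.ofReal_one]
  have hI := Complex.I_mul_I
  have e : (Real.cos b : ℂ) * Real.cos b - (Complex.I * (Real.sin b : ℂ))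
      * (Complex.I * (Real.sin b : ℂ)) = 1 := by linear_combination h - (Real.sin b : ℂ)^2 * hI
  calc _ = ((Real.cos b : ℂ) * Real.cos b - (Complex.I * (Real.sin b : ℂ))
          * (Complex.I * (Real.sin b : ℂ))) • x := by module
    _ = _ := by rw [e, one_smul]

/-- `exp(-i b X)` -/
noncomputable def xr (b : ℝ) : H ≃ₗᵢ[ℂ] H :=
  mkU (S.xrL b) (S.xrL (-b))
    (fun x => by have := S.xrL_xrL_neg (-b) x; rwa [neg_neg] at this)
    (fun x => S.xrL_xrL_neg b x)
    (fun x y => by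
      simp only [xrL_apply, inner_sub_left, inner_sub_right, inner_smul_left, inner_smul_right,
        S.inner_X, map_mul, Complex.conj_ofReal, Complex.conj_I, Real.cos_neg, Real.sin_neg,
        ofReal_neg]
      ring)

lemma xr_apply (b : ℝ) (x : H) :
    S.xr b x = (Real.cos b : ℂ) • x - (Complex.I * (Real.sin b : ℂ)) • S.X x := rfl

/-- linear map underlying `exp(-i Z phi(v))` -/
noncomputable def zrL (v : K) : H →ₗ[ℂ] H :=
  (1 / 2 : ℂ) • ((S.W (-v)).toLinearEquiv.toLinearMap + (S.W v).toLinearEquiv.toLinearMap)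
  + (1 / 2 : ℂ) • ((S.W (-v)).toLinearEquiv.toLinearMap - (S.W v).toLinearEquiv.toLinearMap)
      ∘ₗ S.Z.toLinearEquiv.toLinearMap

lemma zrL_apply (v : K) (x : H) :
    S.zrL v x = (1 / 2 : ℂ) • (S.W (-v) x + S.W v x)
      + (1 / 2 : ℂ) • (S.W (-v) (S.Z x) - S.W v (S.Z x)) := rfl

lemma zrL_zrL_neg (v : K) (x : H) : S.zrL v (S.zrL (-v) x) = x := by
  simp only [zrL_apply, map_add, map_sub, map_smul, neg_neg, S.WZ, S.ZZ, S.W_neg_W, S.W_W_neg]
  module

/-- `exp(-i Z phi(v))` -/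
noncomputable def zr (v : K) : H ≃ₗᵢ[ℂ] H :=
  mkU (S.zrL v) (S.zrL (-v))
    (fun x => by have := S.zrL_zrL_neg (-v) x; rwa [neg_neg] at this)
    (fun x => S.zrL_zrL_neg v x)
    (fun x y => by
      simp only [zrL_apply, inner_sub_left, inner_sub_right, inner_smul_left, inner_smul_right,
        S.inner_Z, S.inner_W, inner_add_left, inner_add_right, neg_neg, ← S.WZ, map_div₀, map_one,
        Complex.conj_ofNat])

lemma zr_apply (v : K) (x : H) :
    S.zr v x = (1 / 2 : ℂ) • (S.W (-v) x + S.W v x)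
      + (1 / 2 : ℂ) • (S.W (-v) (S.Z x) - S.W v (S.Z x)) := rfl

/-- the field vector `V^* Z V Om` -/
noncomputable def xv (V : H ≃ₗᵢ[ℂ] H) : H := V⁻¹ (S.Z (V S.Om))

/-- `Z^t = exp(-i t X) Z exp(i t X) = cos 2t Z - sin 2t Y` -/
noncomputable def Zt (t : ℝ) : H ≃ₗᵢ[ℂ] H := S.xr t * S.Z * S.xr (-t)

/-- `V^* Z^t V Om` -/
noncomputable def xt (t : ℝ) (V : H ≃ₗᵢ[ℂ] H) : H := V⁻¹ (S.Zt t (V S.Om))

/-- pulse `exp(-i Z^t phi(v))` -/
noncomputable def pul (t : ℝ) (v : K) : H ≃ₗᵢ[ℂ] H := S.xr t * S.zr v * S.xr (-t)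

/-- action of a gate -/
noncomputable def step : Gate → (H ≃ₗᵢ[ℂ] H) → (H ≃ₗᵢ[ℂ] H)
  | Gate.B b, V => S.xr b * V
  | Gate.C g, V => S.zr ((g : ℂ) • S.iota (S.xv V)) * V
  | Gate.G k, V => S.zr ((k : ℂ) • S.e0) * V

/-- evaluation of a word; the head of the list is the last gate -/
noncomputable def ev : List Gate → (H ≃ₗᵢ[ℂ] H)
  | [] => 1
  | g :: w => S.step g (ev w)

/-- `- sum_j g_j Im <x_j, y>^2` over the `C` gates -/
noncomputable def eaux (y : H) : List Gate → ℝ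
  | [] => 0
  | Gate.C g :: w => -(g * ((inner ℂ (S.xv (S.ev w)) y) ^ 2 : ℂ).im) + eaux y w
  | Gate.B _ :: w => eaux y w
  | Gate.G _ :: w => eaux y w

/-- energy of a word -/
noncomputable def energy (w : List Gate) : ℝ := S.eaux (S.xv (S.ev w)) w

/-- `sum_i k_i Im <x_i, y>` over the `G` gates -/
noncomputable def laux (y : H) : List Gate → ℝ
  | [] => 0
  | Gate.G k :: w => k * (inner ℂ (S.xv (S.ev w)) y : ℂ).im + laux y w
  | Gate.B _ :: w => laux y w
  | Gate.C _ :: w => laux y w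

/-- alignment of a word -/
noncomputable def al (w : List Gate) : ℝ := S.laux (S.xv (S.ev w)) w

end Sys

/-- words without label gates -/
def Plain (w : List Gate) : Prop := ∀ g ∈ w, ∀ k, g ≠ Gate.G k

end Vale.Agent.P367.A
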