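import Vale.Agent.P367.A.Skel

/-! P367, Theorem A, block X: the field vector of a simulated state is close to the field vector
of its regular part. -/

namespace Vale.Agent.P367.A

open Complex Filter Topology

namespace Sys

variable {H K : Type*} [NormedAddCommGroup H] [InnerProductSpace ℂ H]
  [NormedAddCommGroup K] [InnerProductSpace ℂ K] (S : Sys H K)

lemma x_W_xr (a : K) (b : ℝ) (x : H) : S.W a (S.xr b x) = S.xr b (S.W a x) := by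
  rw [xr_apply, xr_apply, map_sub, map_smul, map_smul, S.WX]

lemma x_W_Zt (a : K) (t : ℝ) (x : H) : S.W a (S.Zt t x) = S.Zt t (S.W a x) := by
  show S.W a (S.xr t (S.Z (S.xr (-t) x))) = S.xr t (S.Z (S.xr (-t) (S.W a x)))
  rw [x_W_xr, S.WZ, x_W_xr]

/-- comparison of `V⁻¹ U V Ω` and `T⁻¹ U T Ω` -/
lemma x_aux (hN : S.NStmt) {C ε : ℝ} (hC : 0 ≤ C) (hε : 0 < ε) (hε1 : ε ≤ 1)
    {V T : H ≃ₗᵢ[ℂ] H} {θ : ℂ} {σ : ℝ} {a : K} {η e : H} (h : S.St C ε V T θ σ a η e)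
    (U : H ≃ₗᵢ[ℂ] H) (hU : ∀ a x, S.W a (U x) = U (S.W a x)) :
    S.Nice (C * (C * 3)) (T⁻¹ (U (T S.Om))) ∧
      ‖V⁻¹ (U (V S.Om)) - T⁻¹ (U (T S.Om))‖ ≤ (2 * C + C * (C * (C * 3))) * ε := by
  have n1 : S.Nice (C * 3) (T S.Om) := (h.T_nice 3 S.Om hN.om).1
  have n2 : S.Nice (C * 3) (U (T S.Om)) := hN.comm U hU _ _ n1
  have n3 : S.Nice (C * (C * 3)) (T⁻¹ (U (T S.Om))) := (h.T_nice _ _ n2).2
  refine ⟨n3, ?_⟩
  have hη : ‖S.zr (-(((σ / ε : ℝ) : ℂ) • a)) η‖ ≤ C := by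
    rw [LinearIsometryEquiv.norm_map]
    exact h.eta.m0
  have e1 : ‖V S.Om - θ • T S.Om‖ ≤ 2 * C * ε := by
    have h1 : V S.Om - θ • T S.Om = (V S.Om - θ • T S.Om -
        (ε : ℂ) • S.zr (-(((σ / ε : ℝ) : ℂ) • a)) η) +
        (ε : ℂ) • S.zr (-(((σ / ε : ℝ) : ℂ) • a)) η := by abel
    rw [h1]
    refine (norm_add_le _ _).trans ?_
    rw [norm_smul, Complex.norm_real, Real.norm_eq_abs, abs_of_pos hε]
    have h2 := h.i1
    have h3 : C * ε ^ 2 ≤ C * ε := by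
      have : ε ^ 2 ≤ ε := by nlinarith
      exact mul_le_mul_of_nonneg_left this hC
    nlinarith [mul_le_mul_of_nonneg_left hη hε.le]
  have e2 : ‖V⁻¹ (U (V S.Om)) - V⁻¹ (U (θ • T S.Om))‖ ≤ 2 * C * ε := by
    rw [← map_sub, ← map_sub, LinearIsometryEquiv.norm_map, LinearIsometryEquiv.norm_map]
    exact e1
  have e3 : ‖V⁻¹ (U (θ • T S.Om)) - T⁻¹ (U (T S.Om))‖ ≤ C * (C * (C * 3)) * ε := by
    have h1 := h.i2 _ _ n3
    have h2 : T (T⁻¹ (U (T S.Om))) = U (T S.Om) := T.apply_symm_apply _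
    rw [h2, ← map_smul U] at h1
    have h3 : V⁻¹ (V (T⁻¹ (U (T S.Om)))) = T⁻¹ (U (T S.Om)) := V.symm_apply_apply _
    rw [← h3, ← map_sub, LinearIsometryEquiv.norm_map, norm_sub_rev]
    exact h1
  calc ‖V⁻¹ (U (V S.Om)) - T⁻¹ (U (T S.Om))‖
      = ‖(V⁻¹ (U (V S.Om)) - V⁻¹ (U (θ • T S.Om))) +
        (V⁻¹ (U (θ • T S.Om)) - T⁻¹ (U (T S.Om)))‖ := by
        congr 1
        abel
    _ ≤ 2 * C * ε + C * (C * (C * 3)) * ε := (norm_add_le _ _).trans (add_le_add e2 e3)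
    _ = _ := by ring

theorem xStmt (hN : S.NStmt) : S.XStmt := by
  intro C hC
  have hD : 0 ≤ C * (C * (C * 3)) := by positivity
  refine ⟨(2 * C + C * (C * (C * 3))) + C * (C * (C * 3)), by linarith, ?_⟩
  intro ε hε hε1 V T θ σ a η e h
  have hx : ‖S.xv V - S.xv T‖ ≤ (2 * C + C * (C * (C * 3))) * ε :=
    (S.x_aux hN hC hε hε1 h S.Z S.WZ).2
  have hDε : 0 ≤ C * (C * (C * 3)) * ε := mul_nonneg hD hε.le
  refine ⟨fun t => ?_, ?_, fun hL => ?_⟩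
  · have h1 := (S.x_aux hN hC hε hε1 h (S.Zt t) (fun a x => S.x_W_Zt a t x)).2
    have h2 : S.xt t V - S.xt t T =
        V⁻¹ (S.Zt t (V S.Om)) - T⁻¹ (S.Zt t (T S.Om)) := rfl
    rw [h2]
    linarith
  · linarith
  · have n3 : S.Nice (C * (C * 3)) (S.xv T) := (S.x_aux hN hC hε hε1 h S.Z S.WZ).1
    have h1 := hL.perp _ _ n3
    have h2 : (inner ℂ e (S.xv V) : ℂ) =
        inner ℂ e (S.xv V - S.xv T) + inner ℂ e (S.xv T) := by
      rw [← inner_add_right, sub_add_cancel]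
    have h3 : ‖(inner ℂ e (S.xv V - S.xv T) : ℂ)‖ ≤ ‖S.xv V - S.xv T‖ := by
      refine (norm_inner_le_norm _ _).trans ?_
      rw [hL.n, one_mul]
    rw [h2]
    refine (norm_add_le _ _).trans ?_
    linarith

end Sys

end Vale.Agent.P367.A
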