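import Vale.Agent.P367.A.AssA
import Vale.Agent.P367.NI.Pert
import Vale.Agent.P367.NI.EqP

/-! P367, Theorem A, final form: every labelled word is approximated in energy by plain words
`plain γ β p`. -/

namespace Vale.Agent.P367.A

open Complex Filter Topology

open Vale.Agent.P367.NI (Gate HH dg zop Weyl plain)

section bridge

variable {F K : Type} [NormedAddCommGroup F] [InnerProductSpace ℂ F]
  [NormedAddCommGroup K] [InnerProductSpace ℂ K]

/-- Pauli `X` -/
noncomputable def swp (F : Type) [NormedAddCommGroup F] [InnerProductSpace ℂ F] :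
    HH F ≃ₗᵢ[ℂ] HH F where
  toFun x := WithLp.toLp 2 (x.snd, x.fst)
  invFun x := WithLp.toLp 2 (x.snd, x.fst)
  map_add' _ _ := rfl
  map_smul' _ _ := rfl
  left_inv _ := rfl
  right_inv _ := rfl
  norm_map' x := by
    refine (sq_eq_sq₀ (norm_nonneg _) (norm_nonneg _)).1 ?_
    rw [NI.normsq_HH, NI.normsq_HH, add_comm]
    rfl

@[simp] lemma swp_fst (x : HH F) : (swp F x).fst = x.snd := rfl
@[simp] lemma swp_snd (x : HH F) : (swp F x).snd = x.fst := rfl

lemma hh_ext {x y : HH F} (h1 : x.fst = y.fst) (h2 : x.snd = y.snd) : x = y := by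
  apply (WithLp.equiv 2 (F × F)).injective
  exact Prod.ext h1 h2

lemma sqrt_two_inv_sq : (((Real.sqrt 2)⁻¹ : ℝ) : ℂ) * (((Real.sqrt 2)⁻¹ : ℝ) : ℂ) = 1 / 2 := by
  rw [← Complex.ofReal_mul, ← mul_inv, Real.mul_self_sqrt (by norm_num)]
  norm_num

lemma omH_vac (S : Weyl F K) (a : K) :
    inner ℂ S.OmH (dg (S.W a) (S.W a) S.OmH) = Complex.exp (-((‖a‖ ^ 2 / 2 : ℝ) : ℂ)) := by
  rw [NI.inner_HH]
  show inner ℂ ((((Real.sqrt 2)⁻¹ : ℝ) : ℂ) • S.Om) (S.W a ((((Real.sqrt 2)⁻¹ : ℝ) : ℂ) • S.Om)) +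
    inner ℂ ((((Real.sqrt 2)⁻¹ : ℝ) : ℂ) • S.Om) (S.W a ((((Real.sqrt 2)⁻¹ : ℝ) : ℂ) • S.Om)) = _
  rw [map_smul, inner_smul_left, inner_smul_right, Complex.conj_ofReal, S.vac, ← mul_assoc,
    sqrt_two_inv_sq]
  ring

lemma omH_norm (S : Weyl F K) : ‖S.OmH‖ = 1 := by
  have h := omH_vac S 0
  have h1 : dg (S.W 0) (S.W 0) S.OmH = S.OmH := hh_ext (S.W_zero _) (S.W_zero _)
  rw [h1, inner_self_eq_norm_sq_to_K] at h
  have h2 : ‖S.OmH‖ ^ 2 = 1 := by
    have h3 : ((‖S.OmH‖ : ℂ)) ^ 2 = 1 := by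
      rw [norm_zero] at h
      simpa using h
    exact_mod_cast h3
  have h4 := norm_nonneg S.OmH
  nlinarith [h2, h4]

/-- the spin-Weyl system of a Weyl system -/
noncomputable def toSys (S : Weyl F K) : Sys (HH F) K where
  X := swp F
  Z := zop F
  W a := dg (S.W a) (S.W a)
  Om := S.OmH
  iota := S.iota
  e0 := S.e0
  XX _ := rfl
  ZZ x := hh_ext rfl (by simp)
  XZ x := hh_ext (by simp) (by simp)
  WW a b x := hh_ext (S.W_mul a b x.fst) (S.W_mul a b x.snd)
  WX _ _ := rfl
  WZ a x := hh_ext rfl (by simp)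
  XOm := rfl
  nOm := omH_norm S
  vac a := omH_vac S a
  ne0 := S.norm_e0
  e0perp := S.e0_perp

variable (S : Weyl F K)

lemma toSys_xr (b : ℝ) : (toSys S).xr b = NI.xr b := by
  ext x
  refine hh_ext ?_ ?_
  · rw [Sys.xr_apply]
    rfl
  · rw [Sys.xr_apply]
    show (Real.cos b : ℂ) • x.snd - (Complex.I * (Real.sin b : ℂ)) • x.fst =
      -((Complex.I * (Real.sin b : ℂ)) • x.fst) + (Real.cos b : ℂ) • x.snd
    rw [sub_eq_neg_add]

lemma toSys_zr (v : K) : (toSys S).zr v = S.zr v := by
  ext x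
  refine hh_ext ?_ ?_
  · rw [Sys.zr_apply]
    show (1 / 2 : ℂ) • (S.W (-v) x.fst + S.W v x.fst) +
      (1 / 2 : ℂ) • (S.W (-v) x.fst - S.W v x.fst) = S.W (-v) x.fst
    module
  · rw [Sys.zr_apply]
    show (1 / 2 : ℂ) • (S.W (-v) x.snd + S.W v x.snd) +
      (1 / 2 : ℂ) • (S.W (-v) (-x.snd) - S.W v (-x.snd)) = S.W v x.snd
    rw [map_neg, map_neg]
    module

lemma toSys_xv (V : HH F ≃ₗᵢ[ℂ] HH F) : (toSys S).xv V = S.xv V := rfl

lemma toSys_ev (w : List Gate) : (toSys S).ev w = S.ev w := by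
  induction w with
  | nil => rfl
  | cons g w ih =>
    cases g with
    | B b =>
      show (toSys S).xr b * (toSys S).ev w = (S.ev w).trans (NI.xr b)
      rw [ih, toSys_xr]
      rfl
    | C γ =>
      show (toSys S).zr ((γ : ℂ) • S.iota (S.xv ((toSys S).ev w))) * (toSys S).ev w =
        (S.ev w).trans (S.zr ((γ : ℂ) • S.iota (S.xv (S.ev w))))
      rw [ih, toSys_zr]
      rfl
    | G κ =>
      show (toSys S).zr ((κ : ℂ) • S.e0) * (toSys S).ev w = (S.ev w).trans (S.zr ((κ : ℂ) • S.e0))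
      rw [ih, toSys_zr]
      rfl

lemma toSys_eaux (w : List Gate) (y : HH F) : (toSys S).eaux y w = S.eaux y w := by
  induction w with
  | nil => rfl
  | cons g w ih =>
    cases g with
    | B b => exact ih
    | C γ =>
      show -(γ * ((inner ℂ (S.xv ((toSys S).ev w)) y) ^ 2 : ℂ).im) + (toSys S).eaux y w = _
      rw [ih, toSys_ev]
      rfl
    | G κ => exact ih

lemma toSys_energy (w : List Gate) : (toSys S).energy w = S.energy w := by
  show (toSys S).eaux (S.xv ((toSys S).ev w)) w = S.eaux (S.xv (S.ev w)) w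
  rw [toSys_ev, toSys_eaux]

lemma toSys_laux (w : List Gate) (y : HH F) : (toSys S).laux y w = S.laux y w := by
  induction w with
  | nil => rfl
  | cons g w ih =>
    cases g with
    | B b => exact ih
    | C γ => exact ih
    | G κ =>
      show κ * (inner ℂ (S.xv ((toSys S).ev w)) y : ℂ).im + (toSys S).laux y w = _
      rw [ih, toSys_ev]
      rfl

lemma toSys_al (w : List Gate) : (toSys S).al w = S.al w := by
  show (toSys S).laux (S.xv ((toSys S).ev w)) w = S.laux (S.xv (S.ev w)) w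
  rw [toSys_ev, toSys_laux]

/-! ### Plain words -/

lemma plain_congr {γ γ' β β' : ℕ → ℝ} : ∀ {p : ℕ}, (∀ k < p, γ k = γ' k) →
    (∀ k < p, β k = β' k) → plain γ β p = plain γ' β' p := by
  intro p
  induction p with
  | zero => intro _ _; rfl
  | succ p ih =>
    intro h1 h2
    rw [plain, plain, h1 p (Nat.lt_succ_self p), h2 p (Nat.lt_succ_self p),
      ih (fun k hk => h1 k (Nat.lt_succ_of_lt hk)) (fun k hk => h2 k (Nat.lt_succ_of_lt hk))]

/-- every word in `B`, `C` gates is equivalent to a word `plain γ β p` -/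
lemma exists_plain : ∀ r : List Gate, Plain r → ∃ γ β : ℕ → ℝ,
    S.ev (plain γ β r.length) = S.ev r ∧
      ∀ y, S.eaux y (plain γ β r.length) = S.eaux y r := by
  intro r
  induction r with
  | nil => intro _; exact ⟨fun _ => 0, fun _ => 0, rfl, fun _ => rfl⟩
  | cons g r ih =>
    intro hr
    obtain ⟨γ, β, h1, h2⟩ := ih fun g' hg' => hr g' (List.mem_cons_of_mem _ hg')
    have key : ∀ c b : ℝ,
        plain (Function.update γ r.length c) (Function.update β r.length b) (r.length + 1) =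
          Gate.B b :: Gate.C c :: plain γ β r.length := by
      intro c b
      rw [plain, Function.update_self, Function.update_self]
      congr 2
      refine plain_congr ?_ ?_ <;>
      · intro k hk
        rw [Function.update_of_ne (by omega)]
    have hz : S.zr (((0 : ℝ) : ℂ) • S.iota (S.xv (S.ev r))) = LinearIsometryEquiv.refl ℂ (HH F) := by
      rw [Complex.ofReal_zero, zero_smul]
      exact NI.zr_zero
    cases g with
    | B b =>
      refine ⟨Function.update γ r.length 0, Function.update β r.length b, ?_, fun y => ?_⟩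
      · rw [List.length_cons, key]
        show ((S.ev (plain γ β r.length)).trans (S.zr (((0 : ℝ) : ℂ) •
          S.iota (S.xv (S.ev (plain γ β r.length)))))).trans (NI.xr b) = (S.ev r).trans (NI.xr b)
        rw [h1, hz]
        rfl
      · rw [List.length_cons, key]
        show -(0 * ((inner ℂ (S.xv (S.ev (plain γ β r.length))) y) ^ 2 : ℂ).im) +
          S.eaux y (plain γ β r.length) = S.eaux y r
        rw [h2, zero_mul, neg_zero, zero_add]
    | C c =>
      refine ⟨Function.update γ r.length c, Function.update β r.length 0, ?_, fun y => ?_⟩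
      · rw [List.length_cons, key]
        show ((S.ev (plain γ β r.length)).trans (S.zr ((c : ℂ) •
          S.iota (S.xv (S.ev (plain γ β r.length)))))).trans (NI.xr 0) =
          (S.ev r).trans (S.zr ((c : ℂ) • S.iota (S.xv (S.ev r))))
        rw [h1, NI.xr_zero]
        rfl
      · rw [List.length_cons, key]
        show -(c * ((inner ℂ (S.xv (S.ev (plain γ β r.length))) y) ^ 2 : ℂ).im) +
          S.eaux y (plain γ β r.length) = -(c * ((inner ℂ (S.xv (S.ev r)) y) ^ 2 : ℂ).im) + S.eaux y r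
        rw [h1, h2]
    | G k => exact absurd rfl (hr (Gate.G k) List.mem_cons_self k)

lemma exists_plain_energy (r : List Gate) (hr : Plain r) :
    ∃ (p : ℕ) (γ β : ℕ → ℝ), S.energy (plain γ β p) = S.energy r := by
  obtain ⟨γ, β, h1, h2⟩ := exists_plain S r hr
  refine ⟨r.length, γ, β, ?_⟩
  show S.eaux (S.xv (S.ev (plain γ β r.length))) (plain γ β r.length) =
    S.eaux (S.xv (S.ev r)) r
  rw [h1, h2]

/-- **Theorem A**, final form, from the statement for admissible words -/
theorem final_of (hA : (toSys S).AStmt) (W : List Gate) {d : ℝ} (hd : 0 < d) :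
    ∃ (p : ℕ) (γ β : ℕ → ℝ), |S.energy (plain γ β p) - S.energy W| < d := by
  obtain ⟨u, hu1, hu2, hu3⟩ := NI.perturb S W (half_pos hd)
  have hadm : (toSys S).Adm (u ++ [Gate.B (Real.pi / 4)]) 1 := by
    constructor
    · intro b hb
      rcases List.mem_append.1 hb with h | h
      · exact hu1 b h
      · have : b = Real.pi / 4 := by
          have h' := List.mem_singleton.1 h
          injection h'
        rw [this, abs_of_pos (by positivity)]
        linarith [Real.pi_pos]
    · exact ⟨u, _, rfl⟩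
    · intro u' hne hsuf
      rw [toSys_al]
      obtain ⟨v, rfl, hv⟩ : ∃ v, u' = v ++ [Gate.B (Real.pi / 4)] ∧ v <:+ u := by
        obtain ⟨s, hs⟩ := hsuf
        obtain ⟨v, g, rfl⟩ : ∃ v g, u' = v ++ [g] :=
          ⟨u'.dropLast, u'.getLast hne, (List.dropLast_append_getLast hne).symm⟩
        rw [← List.append_assoc] at hs
        have h1 := List.append_inj' hs rfl
        exact ⟨v, by rw [h1.2], ⟨s, h1.1⟩⟩
      have := hu2 v hv
      rwa [List.append_assoc]
  obtain ⟨r, hr, hr2⟩ := hA _ _ hadm _ (half_pos hd)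
  obtain ⟨p, γ, β, hp⟩ := exists_plain_energy S r hr
  refine ⟨p, γ, β, ?_⟩
  rw [toSys_energy, toSys_energy, List.append_assoc] at hr2
  rw [hp]
  calc |S.energy r - S.energy W| ≤ |S.energy r - S.energy (u ++ ([Gate.B (Real.pi / 4)] ++
        [Gate.G 1]))| + |S.energy (u ++ ([Gate.B (Real.pi / 4)] ++ [Gate.G 1])) - S.energy W| :=
        abs_sub_le _ _ _
    _ < d / 2 + d / 2 := add_lt_add hr2 hu3
    _ = d := add_halves d

end bridge

end Vale.Agent.P367.A
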