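import Vale.Agent.P367.A.Final
import Vale.Agent.P367.NI.M1

/-! P367, Theorem A: the energy of every labelled word is approximated by infinite-size QAOA
values. -/

namespace Vale.Agent.P367.A

open Filter Topology

open Vale.Agent.P367.NI (Gate Weyl plain)

open Vale.Agent.P367.Gap (vLim)

variable {F K : Type} [NormedAddCommGroup F] [InnerProductSpace ℂ F]
  [NormedAddCommGroup K] [InnerProductSpace ℂ K]

/-- **Theorem A**, in terms of the infinite-size QAOA values, from the simulation statement for
admissible words -/
theorem final_vLim (S : Weyl F K) (hA : (toSys S).AStmt) (W : List Gate) {d : ℝ} (hd : 0 < d) :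
    ∃ (p : ℕ) (γ β : Fin p → ℝ), |vLim p γ β - S.energy W| < d := by
  obtain ⟨p, γ, β, h⟩ := final_of S hA W hd
  refine ⟨p, fun k => γ k, fun k => β k, ?_⟩
  rwa [← S.energy_plain_eq_vLim γ β p]

end Vale.Agent.P367.A
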