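import Vale.Agent.P367.A.Defs

/-! P367, Theorem A: exact statements of all blocks (Prop-definitions, no `sorry`).
Every block file proves `theorem xxx : S.XxxStmt` (taking the blocks it uses as hypotheses,
or importing their files when they are on main). -/

namespace Vale.Agent.P367.A

open Complex Filter Topology

open Vale.Agent.P367.NI (Gate)

namespace Sys

variable {H K : Type*} [NormedAddCommGroup H] [InnerProductSpace ℂ H]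
  [NormedAddCommGroup K] [InnerProductSpace ℂ K] (S : Sys H K)

/-! ## Niceness, frames -/

/-- nice vectors: two Weyl differences are bounded -/
structure Nice (c : ℝ) (x : H) : Prop where
  m0 : ‖x‖ ≤ c
  m1 : ∀ a : K, ‖S.W a x - x‖ ≤ c * ‖a‖
  m2 : ∀ a b : K, ‖S.W a (S.W b x - x) - (S.W b x - x)‖ ≤ c * (‖a‖ * ‖b‖)

/-- `z = W b x + W (-b) y` with `x`, `y` nice -/
def Frm (b : K) (c : ℝ) (z : H) : Prop :=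
  ∃ x y, S.Nice c x ∧ S.Nice c y ∧ z = S.W b x + S.W (-b) y

/-- size of a pulse vector relative to the frame `b` -/
noncomputable def mu (b v : K) : ℝ := ‖v‖ + |(inner ℂ v b : ℂ).im|

/-! ## Block N (niceness calculus) -/

structure NStmt : Prop where
  om : S.Nice 3 S.Om
  /-- operators commuting with all `W a` -/
  comm : ∀ (U : H ≃ₗᵢ[ℂ] H), (∀ a x, S.W a (U x) = U (S.W a x)) →
    ∀ c x, S.Nice c x → S.Nice c (U x)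
  smul : ∀ c x (k : ℂ), S.Nice c x → S.Nice (‖k‖ * c) (k • x)
  add : ∀ c d x y, S.Nice c x → S.Nice d y → S.Nice (c + d) (x + y)
  weyl : ∀ c x b, S.Nice c x → S.Nice ((1 + 2 * ‖b‖) ^ 2 * c) (S.W b x)
  zr : ∀ c x v, S.Nice c x → S.Nice (2 * (1 + 2 * ‖v‖) ^ 2 * c) (S.zr v x)
  pul : ∀ c x t v, S.Nice c x → S.Nice (2 * (1 + 2 * ‖v‖) ^ 2 * c) (S.pul t v x)
  /-- one pulse on a nice vector -/
  p1 : ∀ c x t v, S.Nice c x → ‖S.pul t v x - x‖ ≤ 2 * c * ‖v‖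
  /-- two pulses on a nice vector -/
  p2 : ∀ c x t v t' v', S.Nice c x →
    ‖S.pul t' v' (S.pul t v x - x) - (S.pul t v x - x)‖ ≤ 4 * c * (‖v'‖ * ‖v‖)

/-! ## Block O (large phases) -/

structure OStmt : Prop where
  inn : ∀ c d x y b b', S.Nice c x → S.Nice d y → b ≠ b' →
    ‖(inner ℂ (S.W b x) (S.W b' y) : ℂ)‖ ≤ 2 * c * d / ‖b - b'‖
  /-- only the norm and the first difference are used -/
  inn1 : ∀ c c1 d d1 x y b b', (∀ a : K, ‖S.W a x - x‖ ≤ c1 * ‖a‖) → ‖x‖ ≤ c →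
    (∀ a : K, ‖S.W a y - y‖ ≤ d1 * ‖a‖) → ‖y‖ ≤ d → b ≠ b' →
    ‖(inner ℂ (S.W b x) (S.W b' y) : ℂ)‖ ≤ (c * d1 + c1 * d) / ‖b - b'‖
  frm : ∀ c d z z' b b' R, 0 < R → S.Frm b c z → S.Frm b' d z' → R ≤ ‖b - b'‖ → R ≤ ‖b + b'‖ →
    ‖(inner ℂ z z' : ℂ)‖ ≤ 8 * c * d / R

/-! ## Block P (pulses on frames, four-pulse words) -/

/-- pulses on a frame -/
structure PStmt : Prop where
  p0 : ∀ c z b t v, S.Frm b c z → ‖v‖ ≤ 1 → S.Frm b (18 * c) (S.pul t v z)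
  p1 : ∀ c z b t v, S.Frm b c z → ‖S.pul t v z - z‖ ≤ 4 * c * mu b v
  p2 : ∃ C, 0 ≤ C ∧ ∀ c z b t v t' v', S.Frm b c z → ‖v‖ ≤ 1 →
    ‖S.pul t' v' (S.pul t v z - z) - (S.pul t v z - z)‖ ≤ C * c * (mu b v' * mu b v)
  /-- difference operator `W (-v') - W v'` -/
  d0 : ∀ c z b v, S.Frm b c z → ‖v‖ ≤ 1 → S.Frm b (18 * c) (S.W (-v) z - S.W v z)
  d1 : ∀ c z b v, S.Frm b c z → ‖S.W (-v) z - S.W v z‖ ≤ 8 * c * mu b v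
  d2 : ∃ C, 0 ≤ C ∧ ∀ c z b t v v', S.Frm b c z → ‖v‖ ≤ 1 →
    ‖S.W (-v') (S.pul t v z - z) - S.W v' (S.pul t v z - z)‖ ≤ C * c * (mu b v' * mu b v)

/-- small phases: the group commutator word is trivial to second order -/
def C1Stmt : Prop := ∀ M : ℝ, 0 ≤ M → ∃ C ε₀ : ℝ, 0 ≤ C ∧ 0 < ε₀ ∧ ∀ ε, 0 < ε → ε ≤ ε₀ →
  ∀ (b : K) (c : ℝ) (z : H) (t1 t2 : ℝ) (v1 v2 v3 v4 : K), S.Frm b c z →
    mu b v1 ≤ M * ε → mu b v2 ≤ M * ε → mu b v3 ≤ M * ε → mu b v4 ≤ M * ε →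
    mu b (v3 - v1) ≤ M * ε ^ 2 → mu b (v4 - v2) ≤ M * ε ^ 2 →
    ‖S.pul t1 (-v4) (S.pul t2 (-v3) (S.pul t1 v2 (S.pul t2 v1 z))) - z‖ ≤ C * c * ε ^ 2

/-- phases `± π/2`: the word is the rotation `xr (4 (t1 - t2))` to first order -/
def C2Stmt : Prop := ∀ M : ℝ, 0 ≤ M → ∃ C ε₀ : ℝ, 0 ≤ C ∧ 0 < ε₀ ∧ ∀ ε, 0 < ε → ε ≤ ε₀ →
  ∀ (b : K) (c : ℝ) (z : H) (t1 t2 : ℝ) (v1 v2 v3 v4 : K), S.Frm b c z →
    ‖v1‖ ≤ M * ε → ‖v2‖ ≤ M * ε → ‖v3‖ ≤ M * ε → ‖v4‖ ≤ M * ε →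
    |2 * (inner ℂ v1 b : ℂ).im - Real.pi / 2| ≤ M * ε →
    |2 * (inner ℂ v2 b : ℂ).im - Real.pi / 2| ≤ M * ε →
    |2 * (inner ℂ v3 b : ℂ).im - Real.pi / 2| ≤ M * ε →
    |2 * (inner ℂ v4 b : ℂ).im - Real.pi / 2| ≤ M * ε →
    ‖S.pul t1 (-v4) (S.pul t2 (-v3) (S.pul t1 v2 (S.pul t2 v1 z))) - S.xr (4 * (t1 - t2)) z‖
      ≤ C * c * ε

/-! ## Block WW: the four-pulse word at a state -/

/-- one pulse gate `B t, C s, B (-t)` (time order from right to left) acting on a state -/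
noncomputable def ps (t s : ℝ) (V : H ≃ₗᵢ[ℂ] H) : H ≃ₗᵢ[ℂ] H :=
  S.pul t ((s : ℂ) • S.iota (S.xt t V)) * V

/-- the four-pulse word acting on a state -/
noncomputable def wv (t1 t2 s1 s2 : ℝ) (V : H ≃ₗᵢ[ℂ] H) : H ≃ₗᵢ[ℂ] H :=
  S.ps t1 (-s1) (S.ps t2 (-s2) (S.ps t1 s1 (S.ps t2 s2 V)))

/-- twice the alignment of the pulse direction with `c` -/
noncomputable def alp (t : ℝ) (V : H ≃ₗᵢ[ℂ] H) (c : K) : ℝ :=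
  2 * (inner ℂ (S.iota (S.xt t V)) c : ℂ).im

/-- context of a four-pulse word: `V Om = U_b ψ + ε φ + O(ε²)`, `b = (s'/ε) x(V)`, `ψ` nice,
`φ` in the frame `c/ε`; all alignments bounded below. -/
structure Ctx (M δ ε s' : ℝ) (V : H ≃ₗᵢ[ℂ] H) (c : K) (t1 t2 : ℝ) : Prop where
  s'_le : |s'| ≤ M
  s'_ge : s' = 0 ∨ δ ≤ |s'|
  c_le : ‖c‖ ≤ M
  split : ∃ ψ φ : H, S.Nice M ψ ∧ S.Frm (((1 / ε : ℝ) : ℂ) • c) M φ ∧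
    ‖V S.Om - S.zr (-(((s' / ε : ℝ) : ℂ) • S.iota (S.xv V))) ψ - (ε : ℂ) • φ‖ ≤ M * ε ^ 2
  al0 : δ ≤ |(inner ℂ (S.iota (S.xv V)) c : ℂ).im|
  al1 : δ ≤ |S.alp t1 V c|
  al2 : δ ≤ |S.alp t2 V c|

def WWStmt : Prop := ∀ M δ : ℝ, 0 ≤ M → 0 < δ → ∃ C ε₀ : ℝ, 0 ≤ C ∧ 0 < ε₀ ∧
  ∀ ε, 0 < ε → ε ≤ ε₀ → ∀ (s' : ℝ) (V : H ≃ₗᵢ[ℂ] H) (c : K) (t1 t2 : ℝ),
    S.Ctx M δ ε s' V c t1 t2 → ∀ s1 s2 : ℝ,
      s1 = ε * (Real.pi / 2 / S.alp t1 V c) → s2 = ε * (Real.pi / 2 / S.alp t2 V c) →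
      (∀ c0 z, S.Frm (((s' / ε : ℝ) : ℂ) • S.iota (S.xv V)) c0 z →
        ‖(S.wv t1 t2 s1 s2 V * V⁻¹) z - z‖ ≤ C * c0 * ε ^ 2) ∧
      (∀ c0 z, S.Frm (((1 / ε : ℝ) : ℂ) • c) c0 z →
        ‖(S.wv t1 t2 s1 s2 V * V⁻¹) z - S.xr (4 * (t1 - t2)) z‖ ≤ C * c0 * ε)

/-! ## Invariants of the simulation -/

/-- state of the simulation at a fixed `ε`: `V` plain state, `T` its regular part (up to the phase
`θ`), tagged branch `ε U_{σ a/ε} η`, label vector `e`. -/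
structure St (C ε : ℝ) (V T : H ≃ₗᵢ[ℂ] H) (θ : ℂ) (σ : ℝ) (a : K) (η e : H) : Prop where
  th : ‖θ‖ = 1
  sg : σ = 1 ∨ σ = -1
  a_le : ‖a‖ ≤ C
  eta : S.Nice C η
  T_nice : ∀ c x, S.Nice c x → S.Nice (C * c) (T x) ∧ S.Nice (C * c) (T⁻¹ x)
  i1 : ‖V S.Om - θ • T S.Om - (ε : ℂ) • S.zr (-(((σ / ε : ℝ) : ℂ) • a)) η‖ ≤ C * ε ^ 2
  i2 : ∀ c x, S.Nice c x → ‖V x - θ • T x‖ ≤ C * c * ε
  i6 : ‖V⁻¹ (S.Z (S.zr (-(((σ / ε : ℝ) : ℂ) • a)) η)) - (σ : ℂ) • e‖ ≤ C * ε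

/-- the label vector is a unit vector almost orthogonal to nice vectors -/
structure Lv (C ε : ℝ) (e : H) : Prop where
  n : ‖e‖ = 1
  perp : ∀ c x, S.Nice c x → ‖(inner ℂ e x : ℂ)‖ ≤ C * c * ε

/-! ## Block K (kick) -/

/-- state after `C τ` -/
noncomputable def k1 (τ : ℝ) : H ≃ₗᵢ[ℂ] H := S.zr ((τ : ℂ) • S.iota (S.Z S.Om))

/-- state after `C τ, B ε` -/
noncomputable def k2 (ε τ : ℝ) : H ≃ₗᵢ[ℂ] H := S.xr ε * S.k1 τ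

/-- state after the kick `C τ, B ε, C (-τ)` -/
noncomputable def k3 (ε τ : ℝ) : H ≃ₗᵢ[ℂ] H :=
  S.zr (((-τ : ℝ) : ℂ) • S.iota (S.xv (S.k2 ε τ))) * S.k2 ε τ

def KStmt : Prop := ∀ κ : ℝ, κ ≠ 0 → ∃ C ε₀ : ℝ, 0 ≤ C ∧ 0 < ε₀ ∧ ∀ ε, 0 < ε → ε ≤ ε₀ →
  ∀ τ, τ = -κ / 2 / ε → ∃ θ η e,
    S.St C ε (S.k3 ε τ) (S.zr (-((τ : ℂ) • S.iota (S.xv (S.k2 ε τ) - S.Z S.Om)))) θ 1
      (((-κ / 2 : ℝ) : ℂ) • S.iota (S.xv (S.k2 ε τ) + S.Z S.Om)) η e ∧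
    S.Lv C ε e ∧
    ‖-((τ : ℂ) • (S.xv (S.k2 ε τ) - S.Z S.Om)) - (κ : ℂ) • e‖ ≤ C * ε ∧
    ‖S.xv (S.k2 ε τ) - S.Z S.Om‖ ≤ C * ε

/-! ## Block S (steps) -/

def SCStmt : Prop := ∀ C γ : ℝ, 0 ≤ C → ∃ C' ε₀ : ℝ, C ≤ C' ∧ 0 < ε₀ ∧ ∀ ε, 0 < ε → ε ≤ ε₀ →
  ∀ V T θ σ a η e, S.St C ε V T θ σ a η e → ∃ η',
    S.St C' ε (S.zr ((γ : ℂ) • S.iota (S.xv V)) * V) (S.zr ((γ : ℂ) • S.iota (S.xv V)) * T)
      θ σ a η' e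

def SBStmt : Prop := ∀ C b δ : ℝ, 0 ≤ C → |b| ≤ Real.pi → 0 < δ →
  ∃ C' ε₀ : ℝ, C ≤ C' ∧ 0 < ε₀ ∧ ∀ ε, 0 < ε → ε ≤ ε₀ →
  ∀ V T θ σ a η e, S.St C ε V T θ σ a η e →
    δ ≤ |(inner ℂ (S.iota (S.xv (S.xr b * V))) a : ℂ).im| →
    ∃ t1 t2 s1 s2 : ℝ, |s1| ≤ C' * ε ∧ |s2| ≤ C' * ε ∧
      S.St C' ε (S.wv t1 t2 s1 s2 (S.xr b * V)) (S.xr b * T) θ σ a η e

def SGStmt : Prop := ∀ C κ δ : ℝ, 0 ≤ C → κ ≠ 0 → 0 < δ →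
  ∃ C' ε₀ : ℝ, C ≤ C' ∧ 0 < ε₀ ∧ ∀ ε, 0 < ε → ε ≤ ε₀ →
  ∀ V T θ σ a η e, S.St C ε V T θ σ a η e →
    δ ≤ |(inner ℂ (S.iota (S.xv V)) a : ℂ).im| →
    ∃ t1 t2 s1 s2 τ : ℝ, |s1| ≤ C' * ε ∧ |s2| ≤ C' * ε ∧ τ = -σ * κ / (2 * ε) ∧
      ∀ V1 V2 V3 : H ≃ₗᵢ[ℂ] H, V1 = S.zr (((-τ : ℝ) : ℂ) • S.iota (S.xv V)) * V →
        V2 = S.wv t1 t2 s1 s2 V1 → V3 = S.zr ((τ : ℂ) • S.iota (S.xv V2)) * V2 →
        ‖(τ : ℂ) • (S.xv V2 - S.xv V) - (κ : ℂ) • e‖ ≤ C' * ε ∧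
        ‖S.xv V2 - S.xv V‖ ≤ C' * ε ∧
        ∃ θ' η', S.St C' ε V3 (S.zr ((τ : ℂ) • S.iota (S.xv V2 - S.xv V)) * T) θ' (-σ)
          (a - ((κ / 2 : ℝ) : ℂ) • S.iota (S.xv V + S.xv V2)) η' e

/-! ## Block X: field vector of a simulated state -/

def XStmt : Prop := ∀ C : ℝ, 0 ≤ C → ∃ C' : ℝ, C ≤ C' ∧ ∀ ε, 0 < ε → ε ≤ 1 →
  ∀ V T θ σ a η e, S.St C ε V T θ σ a η e →
    (∀ t, ‖S.xt t V - S.xt t T‖ ≤ C' * ε) ∧ ‖S.xv V - S.xv T‖ ≤ C' * ε ∧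
    (S.Lv C ε e → ‖(inner ℂ e (S.xv V) : ℂ)‖ ≤ C' * ε)

/-! ## Block G (Gram continuity) -/

/-- word with prescribed phase vectors `v`, indexed by the length of the tail -/
noncomputable def lw (v : ℕ → K) : List Gate → (H ≃ₗᵢ[ℂ] H)
  | [] => 1
  | Gate.B b :: u => S.xr b * lw v u
  | Gate.C _ :: u => S.zr (v u.length) * lw v u
  | Gate.G _ :: u => S.zr (v u.length) * lw v u

/-- consistency of field vectors `x` and phase vectors `v` with a word, label direction `e`,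
tolerance `d` -/
def Good (d : ℝ) (e : K) (x : ℕ → H) (v : ℕ → K) : List Gate → Prop
  | [] => True
  | Gate.B _ :: u => Good d e x v u ∧ ‖x u.length - S.xv (S.lw v u)‖ ≤ d ∧
      ‖(inner ℂ e (S.iota (x u.length)) : ℂ)‖ ≤ d
  | Gate.C γ :: u => Good d e x v u ∧ ‖x u.length - S.xv (S.lw v u)‖ ≤ d ∧
      ‖(inner ℂ e (S.iota (x u.length)) : ℂ)‖ ≤ d ∧
      v u.length = (γ : ℂ) • S.iota (x u.length)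
  | Gate.G κ :: u => Good d e x v u ∧ ‖x u.length - S.xv (S.lw v u)‖ ≤ d ∧
      ‖(inner ℂ e (S.iota (x u.length)) : ℂ)‖ ≤ d ∧
      ‖v u.length - (κ : ℂ) • e‖ ≤ d

def GStmt : Prop := ∀ (w : List Gate) (x₀ : ℕ → H) (v₀ : ℕ → K), S.Good 0 S.e0 x₀ v₀ w →
  ∀ δ > 0, ∃ d > 0, ∀ (e : K) (x : ℕ → H) (v : ℕ → K), ‖e‖ = 1 → S.Good d e x v w →
    (∀ i < w.length, ∀ j < w.length,
      ‖(inner ℂ (x i) (x j) : ℂ) - inner ℂ (x₀ i) (x₀ j)‖ < δ) ∧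
    (∀ i < w.length,
      ‖(inner ℂ (x i) (S.xv (S.lw v w)) : ℂ) - inner ℂ (x₀ i) (S.xv (S.lw v₀ w))‖ < δ)

/-! ## Block F (assembly) -/

/-- `sum κ_k x_k` over the label gates -/
noncomputable def aSum (x : ℕ → H) : List Gate → H
  | [] => 0
  | Gate.G κ :: u => (κ : ℂ) • x u.length + aSum x u
  | Gate.B _ :: u => aSum x u
  | Gate.C _ :: u => aSum x u

/-- `- sum γ_k Im <x_k, y>²` over the `C` gates -/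
noncomputable def eSum (x : ℕ → H) (y : H) : List Gate → ℝ
  | [] => 0
  | Gate.C γ :: u => -(γ * ((inner ℂ (x u.length) y) ^ 2 : ℂ).im) + eSum x y u
  | Gate.B _ :: u => eSum x y u
  | Gate.G _ :: u => eSum x y u

/-- master induction: simulation of a labelled word `w` -/
def Sim (C ε : ℝ) (w : List Gate) : Prop :=
  ∃ (r : List Gate) (θ : ℂ) (σ : ℝ) (a : K) (η e : H) (x : ℕ → H) (v : ℕ → K),
    Plain r ∧ S.St C ε (S.ev r) (S.lw v w) θ σ a η e ∧ S.Lv C ε e ∧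
    S.Good (C * ε) (S.iota e) x v w ∧
    ‖a + S.iota (aSum x w)‖ ≤ C * ε ∧
    ∀ y, ‖y‖ ≤ 1 → |S.eaux y r - eSum x y w| ≤ C * ε + C * ‖(inner ℂ e y : ℂ)‖

/-- admissible labelled words: `u ++ [G κ]`, `u` starting (in time) with `B b`, all `B` angles
bounded by `π`, alignment nonzero from the first `B` on -/
structure Adm (u : List Gate) (κ : ℝ) : Prop where
  b_le : ∀ b, Gate.B b ∈ u → |b| ≤ Real.pi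
  first : ∃ u' b, u = u' ++ [Gate.B b]
  al : ∀ u', u' ≠ [] → u' <:+ u → S.al (u' ++ [Gate.G κ]) ≠ 0

def SimStmt : Prop := ∀ u κ, S.Adm u κ →
  ∃ C ε₀ : ℝ, 0 ≤ C ∧ 0 < ε₀ ∧ ∀ ε, 0 < ε → ε ≤ ε₀ → S.Sim C ε (u ++ [Gate.G κ])

/-- THEOREM A -/
def AStmt : Prop := ∀ u κ, S.Adm u κ → ∀ δ > 0,
  ∃ r, Plain r ∧ |S.energy r - S.energy (u ++ [Gate.G κ])| < δ

end Sys

end Vale.Agent.P367.A
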