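import Mathlib
import Vale.Agent.P367.A.Skel

/-! P367, Theorem A, block G: vacuum expectations of words are continuous functions of the Gram
matrix of the one-particle vectors; hence the Gram matrix of the field vectors of a simulated
labelled word converges to that of the labelled word. -/

namespace Vale.Agent.P367.A

open Complex Filter Topology

open Vale.Agent.P367.NI (Gate)

/-- pairs (family, limit) of one-particle vectors whose mutual inner products converge -/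
def Cpt {K : Type*} [NormedAddCommGroup K] [InnerProductSpace ℂ K] {α : Type*} (l : Filter α)
    (C : Submodule ℂ ((α → K) × K)) : Prop :=
  ∀ p ∈ C, ∀ q ∈ C, Tendsto (fun n => (inner ℂ (p.1 n) (q.1 n) : ℂ)) l (𝓝 (inner ℂ p.2 q.2))

lemma cpt_span {K : Type*} [NormedAddCommGroup K] [InnerProductSpace ℂ K] {α : Type*}
    {l : Filter α} {G : Set ((α → K) × K)}
    (h : ∀ p ∈ G, ∀ q ∈ G,
      Tendsto (fun n => (inner ℂ (p.1 n) (q.1 n) : ℂ)) l (𝓝 (inner ℂ p.2 q.2))) :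
    Cpt l (Submodule.span ℂ G) := by
  intro p hp q hq
  induction hp using Submodule.span_induction with
  | mem p hp =>
    induction hq using Submodule.span_induction with
    | mem q hq => exact h p hp q hq
    | zero => simp [tendsto_const_nhds]
    | add x y _ _ hx hy =>
      simp only [Prod.fst_add, Pi.add_apply, Prod.snd_add, inner_add_right]
      exact hx.add hy
    | smul a x _ hx =>
      simp only [Prod.smul_fst, Pi.smul_apply, Prod.smul_snd, inner_smul_right]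
      exact hx.const_mul a
  | zero => simp [tendsto_const_nhds]
  | add x y _ _ hx hy =>
    simp only [Prod.fst_add, Pi.add_apply, Prod.snd_add, inner_add_left]
    exact hx.add hy
  | smul a x _ hx =>
    simp only [Prod.smul_fst, Pi.smul_apply, Prod.smul_snd, inner_smul_left]
    exact hx.const_mul _

lemma Cpt.tendsto_normsq {K : Type*} [NormedAddCommGroup K] [InnerProductSpace ℂ K] {α : Type*}
    {l : Filter α} {C : Submodule ℂ ((α → K) × K)} (hC : Cpt l C) {p : (α → K) × K} (hp : p ∈ C) :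
    Tendsto (fun n => ‖p.1 n‖ ^ 2) l (𝓝 (‖p.2‖ ^ 2)) := by
  have h := hC p hp p hp
  have h2 : Tendsto (fun n => (inner ℂ (p.1 n) (p.1 n) : ℂ).re) l (𝓝 (inner ℂ p.2 p.2 : ℂ).re) :=
    (Complex.continuous_re.tendsto _).comp h
  have e : ∀ v : K, (inner ℂ v v : ℂ).re = ‖v‖ ^ 2 := fun v => by
    rw [inner_self_eq_norm_sq_to_K]; simp [← ofReal_pow]
  simpa only [e] using h2

namespace Sys

variable {H K : Type*} [NormedAddCommGroup H] [InnerProductSpace ℂ H]
  [NormedAddCommGroup K] [InnerProductSpace ℂ K] (S : Sys H K)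
  {α : Type*} {l : Filter α} {C : Submodule ℂ ((α → K) × K)}

/-- families of vectors built from Weyl operators at admissible pairs -/
inductive AV (l : Filter α) (C : Submodule ℂ ((α → K) × K)) : (α → H) → H → Prop
  | zero : AV l C (fun _ => 0) 0
  | add {x y : α → H} {x' y' : H} : AV l C x x' → AV l C y y' →
      AV l C (fun n => x n + y n) (x' + y')
  | term (c : α → ℂ) (c' : ℂ) (hc : Tendsto c l (𝓝 c')) (p : (α → K) × K) (hp : p ∈ C) :
      AV l C (fun n => c n • S.W (p.1 n) S.Om) (c' • S.W p.2 S.Om)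
  | termZ (c : α → ℂ) (c' : ℂ) (hc : Tendsto c l (𝓝 c')) (p : (α → K) × K) (hp : p ∈ C) :
      AV l C (fun n => c n • S.Z (S.W (p.1 n) S.Om)) (c' • S.Z (S.W p.2 S.Om))

variable {S}

lemma AV.congr {x y : α → H} {x' y' : H} (h : S.AV l C x x') (h1 : ∀ n, x n = y n)
    (h2 : x' = y') : S.AV l C y y' := by
  have : x = y := funext h1
  subst this; subst h2; exact h

lemma AV.smul {x : α → H} {x' : H} (h : S.AV l C x x') (c : α → ℂ) (c' : ℂ)
    (hc : Tendsto c l (𝓝 c')) : S.AV l C (fun n => c n • x n) (c' • x') := by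
  induction h with
  | zero => exact AV.zero.congr (fun n => (smul_zero _).symm) (smul_zero _).symm
  | add _ _ h1 h2 => exact (h1.add h2).congr (fun n => (smul_add _ _ _).symm) (smul_add _ _ _).symm
  | term d d' hd p hp =>
    exact (AV.term (fun n => c n * d n) (c' * d') (hc.mul hd) p hp).congr
      (fun n => mul_smul _ _ _) (mul_smul _ _ _)
  | termZ d d' hd p hp =>
    exact (AV.termZ (fun n => c n * d n) (c' * d') (hc.mul hd) p hp).congr
      (fun n => mul_smul _ _ _) (mul_smul _ _ _)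

lemma AV.csmul {x : α → H} {x' : H} (h : S.AV l C x x') (c : ℂ) :
    S.AV l C (fun n => c • x n) (c • x') := h.smul (fun _ => c) c tendsto_const_nhds

lemma AV.sub {x y : α → H} {x' y' : H} (h : S.AV l C x x') (h2 : S.AV l C y y') :
    S.AV l C (fun n => x n - y n) (x' - y') :=
  (h.add (h2.csmul (-1))).congr (fun n => by simp [sub_eq_add_neg]) (by simp [sub_eq_add_neg])

lemma AV.mono {C' : Submodule ℂ ((α → K) × K)} (hC : C ≤ C') {x : α → H} {x' : H}
    (h : S.AV l C x x') : S.AV l C' x x' := by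
  induction h with
  | zero => exact AV.zero
  | add _ _ h1 h2 => exact h1.add h2
  | term d d' hd p hp => exact AV.term d d' hd p (hC hp)
  | termZ d d' hd p hp => exact AV.termZ d d' hd p (hC hp)

lemma AV.om : S.AV l C (fun _ => S.Om) S.Om :=
  (AV.term (S := S) (fun _ => 1) 1 tendsto_const_nhds (0 : (α → K) × K) C.zero_mem).congr
    (fun n => by simp [S.W_zero_apply]) (by simp [S.W_zero_apply])

lemma AV.mapZ {x : α → H} {x' : H} (h : S.AV l C x x') :
    S.AV l C (fun n => S.Z (x n)) (S.Z x') := by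
  induction h with
  | zero => exact AV.zero.congr (fun n => (map_zero _).symm) (map_zero _).symm
  | add _ _ h1 h2 => exact (h1.add h2).congr (fun n => (map_add _ _ _).symm) (map_add _ _ _).symm
  | term d d' hd p hp =>
    exact (AV.termZ d d' hd p hp).congr (fun n => (map_smul _ _ _).symm) (map_smul _ _ _).symm
  | termZ d d' hd p hp =>
    exact (AV.term d d' hd p hp).congr (fun n => by rw [map_smul, S.ZZ]) (by rw [map_smul, S.ZZ])

lemma AV.mapX {x : α → H} {x' : H} (h : S.AV l C x x') :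
    S.AV l C (fun n => S.X (x n)) (S.X x') := by
  induction h with
  | zero => exact AV.zero.congr (fun n => (map_zero _).symm) (map_zero _).symm
  | add _ _ h1 h2 => exact (h1.add h2).congr (fun n => (map_add _ _ _).symm) (map_add _ _ _).symm
  | term d d' hd p hp =>
    exact (AV.term d d' hd p hp).congr (fun n => by rw [map_smul, ← S.WX, S.XOm])
      (by rw [map_smul, ← S.WX, S.XOm])
  | termZ d d' hd p hp =>
    exact ((AV.termZ d d' hd p hp).csmul (-1)).congr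
      (fun n => by rw [map_smul, S.XZ, ← S.WX, S.XOm]; simp)
      (by rw [map_smul, S.XZ, ← S.WX, S.XOm]; simp)

lemma tendsto_phase {p q : (α → K) × K} (hC : Cpt l C) (hp : p ∈ C) (hq : q ∈ C) :
    Tendsto (fun n => Complex.exp (-(Complex.I * ((inner ℂ (p.1 n) (q.1 n) : ℂ).im : ℂ)))) l
      (𝓝 (Complex.exp (-(Complex.I * ((inner ℂ p.2 q.2 : ℂ).im : ℂ))))) := by
  have h1 := hC p hp q hq
  have h2 : Continuous fun z : ℂ => Complex.exp (-(Complex.I * ((z.im : ℝ) : ℂ))) := by fun_prop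
  exact (h2.tendsto _).comp h1

lemma AV.mapW (hC : Cpt l C) {x : α → H} {x' : H} (h : S.AV l C x x') {b : (α → K) × K}
    (hb : b ∈ C) : S.AV l C (fun n => S.W (b.1 n) (x n)) (S.W b.2 x') := by
  induction h with
  | zero => exact AV.zero.congr (fun n => (map_zero _).symm) (map_zero _).symm
  | add _ _ h1 h2 => exact (h1.add h2).congr (fun n => (map_add _ _ _).symm) (map_add _ _ _).symm
  | term d d' hd p hp =>
    exact ((AV.term d d' hd (b + p) (C.add_mem hb hp)).smul _ _ (tendsto_phase hC hb hp)).congr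
      (fun n => by rw [map_smul, S.WW, smul_comm]; rfl) (by rw [map_smul, S.WW, smul_comm]; rfl)
  | termZ d d' hd p hp =>
    exact ((AV.termZ d d' hd (b + p) (C.add_mem hb hp)).smul _ _ (tendsto_phase hC hb hp)).congr
      (fun n => by rw [map_smul, S.WZ, S.WW, map_smul, smul_comm]; rfl)
      (by rw [map_smul, S.WZ, S.WW, map_smul, smul_comm]; rfl)

lemma AV.mapxr (b : ℝ) {x : α → H} {x' : H} (h : S.AV l C x x') :
    S.AV l C (fun n => S.xr b (x n)) (S.xr b x') :=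
  ((h.csmul _).sub (h.mapX.csmul _)).congr (fun n => (S.xr_apply b (x n)).symm)
    (S.xr_apply b x').symm

lemma AV.mapzr (hC : Cpt l C) {x : α → H} {x' : H} (h : S.AV l C x x') {b : (α → K) × K}
    (hb : b ∈ C) : S.AV l C (fun n => S.zr (b.1 n) (x n)) (S.zr b.2 x') :=
  ((((h.mapW hC (C.neg_mem hb)).add (h.mapW hC hb)).csmul _).add
    (((h.mapZ.mapW hC (C.neg_mem hb)).sub (h.mapZ.mapW hC hb)).csmul _)).congr
    (fun n => (S.zr_apply (b.1 n) (x n)).symm) (S.zr_apply b.2 x').symm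

lemma inner_OmW (a b : K) : inner ℂ (S.W a S.Om) (S.W b S.Om)
    = Complex.exp (-(Complex.I * ((inner ℂ (-a) b : ℂ).im : ℂ)))
      * Complex.exp (-((‖-a + b‖ ^ 2 / 2 : ℝ) : ℂ)) := by
  rw [S.inner_W, S.WW, inner_smul_right, S.vac]

lemma inner_OmZW (a b : K) : inner ℂ (S.W a S.Om) (S.Z (S.W b S.Om)) = 0 := by
  have h : inner ℂ (S.W a S.Om) (S.Z (S.W b S.Om)) = -inner ℂ (S.W a S.Om) (S.Z (S.W b S.Om)) := by
    calc inner ℂ (S.W a S.Om) (S.Z (S.W b S.Om))
        = inner ℂ (S.X (S.W a S.Om)) (S.X (S.Z (S.W b S.Om))) := (S.X.inner_map_map _ _).symm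
      _ = _ := by rw [S.XZ, ← S.WX, ← S.WX, S.XOm, inner_neg_right]
  linear_combination (1 / 2 : ℂ) * h

lemma inner_OmZZW (a b : K) : inner ℂ (S.Z (S.W a S.Om)) (S.Z (S.W b S.Om))
    = inner ℂ (S.W a S.Om) (S.W b S.Om) := S.Z.inner_map_map _ _

lemma inner_OmZW' (a b : K) : inner ℂ (S.Z (S.W a S.Om)) (S.W b S.Om) = 0 := by
  rw [S.inner_Z, inner_OmZW]

lemma tendsto_inner_OmW (hC : Cpt l C) {p q : (α → K) × K} (hp : p ∈ C) (hq : q ∈ C) :
    Tendsto (fun n => inner ℂ (S.W (p.1 n) S.Om) (S.W (q.1 n) S.Om)) l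
      (𝓝 (inner ℂ (S.W p.2 S.Om) (S.W q.2 S.Om))) := by
  have h0 : Tendsto (fun n => Complex.exp (-(Complex.I * ((inner ℂ (-(p.1 n)) (q.1 n) : ℂ).im : ℂ))))
      l (𝓝 (Complex.exp (-(Complex.I * ((inner ℂ (-p.2) q.2 : ℂ).im : ℂ))))) :=
    tendsto_phase hC (p := -p) (q := q) (C.neg_mem hp) hq
  have h1 : Tendsto (fun n => ‖-p.1 n + q.1 n‖ ^ 2) l (𝓝 (‖-p.2 + q.2‖ ^ 2)) :=
    hC.tendsto_normsq (C.add_mem (C.neg_mem hp) hq)
  have h2 : Continuous fun z : ℝ => Complex.exp (-((z / 2 : ℝ) : ℂ)) := by fun_prop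
  have h3 : Tendsto (fun n => Complex.exp (-((‖-p.1 n + q.1 n‖ ^ 2 / 2 : ℝ) : ℂ))) l
      (𝓝 (Complex.exp (-((‖-p.2 + q.2‖ ^ 2 / 2 : ℝ) : ℂ)))) := (h2.tendsto _).comp h1
  have h4 := h0.mul h3
  simp only [inner_OmW]
  exact h4

/-- (G1) inner products of admissible families converge -/
lemma AV.tendsto_inner (hC : Cpt l C) {x y : α → H} {x' y' : H} (hx : S.AV l C x x')
    (hy : S.AV l C y y') : Tendsto (fun n => (inner ℂ (x n) (y n) : ℂ)) l (𝓝 (inner ℂ x' y')) := by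
  induction hx with
  | zero => simp [tendsto_const_nhds]
  | add _ _ h1 h2 =>
    simp only [inner_add_left]
    exact h1.add h2
  | term c c' hc p hp =>
    simp only [inner_smul_left]
    refine Tendsto.mul ((Complex.continuous_conj.tendsto _).comp hc) ?_
    induction hy with
    | zero => simp [tendsto_const_nhds]
    | add _ _ h1 h2 =>
      simp only [inner_add_right]
      exact h1.add h2
    | term d d' hd q hq =>
      simp only [inner_smul_right]
      exact hd.mul (tendsto_inner_OmW hC hp hq)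
    | termZ d d' hd q hq => simp [inner_smul_right, inner_OmZW, tendsto_const_nhds]
  | termZ c c' hc p hp =>
    simp only [inner_smul_left]
    refine Tendsto.mul ((Complex.continuous_conj.tendsto _).comp hc) ?_
    induction hy with
    | zero => simp [tendsto_const_nhds]
    | add _ _ h1 h2 =>
      simp only [inner_add_right]
      exact h1.add h2
    | term d d' hd q hq => simp [inner_smul_right, inner_OmZW', tendsto_const_nhds]
    | termZ d d' hd q hq =>
      simp only [inner_smul_right, inner_OmZZW]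
      exact hd.mul (tendsto_inner_OmW hC hp hq)

/-- operators preserving admissible families -/
def AO (S : Sys H K) (l : Filter α) (C : Submodule ℂ ((α → K) × K)) (V : α → H ≃ₗᵢ[ℂ] H)
    (V' : H ≃ₗᵢ[ℂ] H) : Prop :=
  (∀ x x', S.AV l C x x' → S.AV l C (fun n => V n (x n)) (V' x')) ∧
  (∀ x x', S.AV l C x x' → S.AV l C (fun n => (V n)⁻¹ (x n)) (V'⁻¹ x'))

lemma AO.one : S.AO l C (fun _ => 1) 1 :=
  ⟨fun _ _ h => h.congr (fun _ => rfl) rfl, fun _ _ h => h.congr (fun _ => rfl) rfl⟩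

lemma AO.mul {V U : α → H ≃ₗᵢ[ℂ] H} {V' U' : H ≃ₗᵢ[ℂ] H} (h1 : S.AO l C V V')
    (h2 : S.AO l C U U') : S.AO l C (fun n => V n * U n) (V' * U') :=
  ⟨fun _ _ h => (h1.1 _ _ (h2.1 _ _ h)).congr (fun _ => rfl) rfl,
    fun _ _ h => (h2.2 _ _ (h1.2 _ _ h)).congr (fun _ => by rw [mul_inv_rev]; rfl)
      (by rw [mul_inv_rev]; rfl)⟩

lemma xr_inv_apply (b : ℝ) (x : H) : (S.xr b)⁻¹ x = S.xr (-b) x := rfl

lemma zr_inv_apply (v : K) (x : H) : (S.zr v)⁻¹ x = S.zr (-v) x := rfl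

lemma AO.xr (b : ℝ) : S.AO l C (fun _ => S.xr b) (S.xr b) :=
  ⟨fun _ _ h => h.mapxr b, fun _ _ h => h.mapxr (-b)⟩

lemma AO.zr (hC : Cpt l C) {b : (α → K) × K} (hb : b ∈ C) :
    S.AO l C (fun n => S.zr (b.1 n)) (S.zr b.2) :=
  ⟨fun _ _ h => h.mapzr hC hb, fun x x' h =>
    (AV.mapzr (b := -b) hC h (C.neg_mem hb)).congr (fun n => (zr_inv_apply (b.1 n) (x n)).symm)
      (zr_inv_apply b.2 x').symm⟩

lemma AO.xv {V : α → H ≃ₗᵢ[ℂ] H} {V' : H ≃ₗᵢ[ℂ] H} (h : S.AO l C V V') :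
    S.AV l C (fun n => S.xv (V n)) (S.xv V') :=
  h.2 _ _ (h.1 _ _ AV.om).mapZ

lemma xv_eq (V : H ≃ₗᵢ[ℂ] H) : S.xv V = V⁻¹ (S.Z (V S.Om)) := rfl

end Sys

/-! ### Perturbations -/

lemma tendsto_inner_pert {E : Type*} [NormedAddCommGroup E] [InnerProductSpace ℂ E] {α : Type*}
    {l : Filter α} {a b a' b' : α → E} {A B : ℝ} {L : ℂ}
    (ha : Tendsto (fun n => ‖a n‖) l (𝓝 A)) (hb : Tendsto (fun n => ‖b n‖) l (𝓝 B))
    (h : Tendsto (fun n => (inner ℂ (a n) (b n) : ℂ)) l (𝓝 L))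
    (ha' : Tendsto (fun n => ‖a' n - a n‖) l (𝓝 0))
    (hb' : Tendsto (fun n => ‖b' n - b n‖) l (𝓝 0)) :
    Tendsto (fun n => (inner ℂ (a' n) (b' n) : ℂ)) l (𝓝 L) := by
  have e : ∀ n, (inner ℂ (a' n) (b' n) : ℂ) = inner ℂ (a n) (b n)
      + (inner ℂ (a n) (b' n - b n) + inner ℂ (a' n - a n) (b n)
        + inner ℂ (a' n - a n) (b' n - b n)) := by
    intro n
    simp only [inner_sub_left, inner_sub_right]
    ring
  have h1 : Tendsto (fun n => (inner ℂ (a n) (b' n - b n) : ℂ)) l (𝓝 0) := by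
    refine squeeze_zero_norm (fun n => norm_inner_le_norm _ _) ?_
    simpa using ha.mul hb'
  have h2 : Tendsto (fun n => (inner ℂ (a' n - a n) (b n) : ℂ)) l (𝓝 0) := by
    refine squeeze_zero_norm (fun n => norm_inner_le_norm _ _) ?_
    simpa using ha'.mul hb
  have h3 : Tendsto (fun n => (inner ℂ (a' n - a n) (b' n - b n) : ℂ)) l (𝓝 0) := by
    refine squeeze_zero_norm (fun n => norm_inner_le_norm _ _) ?_
    simpa using ha'.mul hb'
  simp only [e]
  simpa using h.add ((h1.add h2).add h3)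

lemma tendsto_norm_of_inner {E : Type*} [NormedAddCommGroup E] [InnerProductSpace ℂ E] {α : Type*}
    {l : Filter α} {a : α → E} {A : E}
    (h : Tendsto (fun n => (inner ℂ (a n) (a n) : ℂ)) l (𝓝 (inner ℂ A A))) :
    Tendsto (fun n => ‖a n‖) l (𝓝 ‖A‖) := by
  have h2 : Tendsto (fun n => (inner ℂ (a n) (a n) : ℂ).re) l (𝓝 (inner ℂ A A : ℂ).re) :=
    (Complex.continuous_re.tendsto _).comp h
  have e : ∀ v : E, (inner ℂ v v : ℂ).re = ‖v‖ ^ 2 := fun v => by
    rw [inner_self_eq_norm_sq_to_K]; simp [← ofReal_pow]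
  simp only [e] at h2
  have h3 := (Real.continuous_sqrt.tendsto _).comp h2
  have e2 : ∀ v : E, √(‖v‖ ^ 2) = ‖v‖ := fun v => Real.sqrt_sq (norm_nonneg _)
  simpa only [Function.comp_def, e2] using h3

/-- null families -/
def NullP {K : Type*} [NormedAddCommGroup K] [InnerProductSpace ℂ K] {α : Type*} (l : Filter α) :
    Submodule ℂ ((α → K) × K) where
  carrier := {p | Tendsto (fun n => ‖p.1 n‖) l (𝓝 0) ∧ p.2 = 0}
  add_mem' {p q} hp hq := by
    refine ⟨?_, by simp [hp.2, hq.2]⟩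
    refine squeeze_zero (fun n => norm_nonneg _) (fun n => norm_add_le (p.1 n) (q.1 n)) ?_
    simpa using hp.1.add hq.1
  zero_mem' := ⟨by simp [tendsto_const_nhds], rfl⟩
  smul_mem' c p hp := by
    refine ⟨?_, by simp [hp.2]⟩
    simp only [Prod.smul_fst, Pi.smul_apply, norm_smul]
    simpa using hp.1.const_mul ‖c‖

lemma Cpt.sup_null {K : Type*} [NormedAddCommGroup K] [InnerProductSpace ℂ K] {α : Type*}
    {l : Filter α} {C : Submodule ℂ ((α → K) × K)} (hC : Cpt l C) : Cpt l (C ⊔ NullP l) := by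
  intro p hp q hq
  obtain ⟨a, ha, n, hn, rfl⟩ := Submodule.mem_sup.1 hp
  obtain ⟨b, hb, m, hm, rfl⟩ := Submodule.mem_sup.1 hq
  have e1 : (a + n).2 = a.2 := by rw [Prod.snd_add, hn.2, add_zero]
  have e2 : (b + m).2 = b.2 := by rw [Prod.snd_add, hm.2, add_zero]
  rw [e1, e2]
  refine tendsto_inner_pert (tendsto_norm_of_inner (hC a ha a ha))
    (tendsto_norm_of_inner (hC b hb b hb)) (hC a ha b hb) ?_ ?_
  · simpa using hn.1
  · simpa using hm.1

/-! ### The main induction -/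

namespace Sys

variable {H K : Type*} [NormedAddCommGroup H] [InnerProductSpace ℂ H]
  [NormedAddCommGroup K] [InnerProductSpace ℂ K] (S : Sys H K)
  {α : Type*} {l : Filter α}

/-- pairs generated by the field vectors before time `k` and by the label vector -/
noncomputable def Cw (l : Filter α) (e : α → K) (x : α → ℕ → H) (x₀ : ℕ → H) (k : ℕ) :
    Submodule ℂ ((α → K) × K) :=
  Submodule.span ℂ ({p | ∃ i < k, p = ((fun n => S.iota (x n i)), S.iota (x₀ i))} ∪ {(e, S.e0)})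
    ⊔ NullP l

lemma Cw_mono {l : Filter α} {e : α → K} {x : α → ℕ → H} {x₀ : ℕ → H} {k m : ℕ} (h : k ≤ m) :
    S.Cw l e x x₀ k ≤ S.Cw l e x x₀ m := by
  refine sup_le_sup_right (Submodule.span_mono ?_) _
  refine Set.union_subset_union_left _ ?_
  rintro p ⟨i, hi, rfl⟩
  exact ⟨i, lt_of_lt_of_le hi h, rfl⟩

lemma Cw_e {e : α → K} {x : α → ℕ → H} {x₀ : ℕ → H} {k : ℕ} : (e, S.e0) ∈ S.Cw l e x x₀ k :=
  Submodule.mem_sup_left (Submodule.subset_span (Or.inr rfl))

lemma Cw_x {e : α → K} {x : α → ℕ → H} {x₀ : ℕ → H} {k i : ℕ} (hi : i < k) :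
    ((fun n => S.iota (x n i)), S.iota (x₀ i)) ∈ S.Cw l e x x₀ k :=
  Submodule.mem_sup_left (Submodule.subset_span (Or.inl ⟨i, hi, rfl⟩))

lemma Cw_null {e : α → K} {x : α → ℕ → H} {x₀ : ℕ → H} {k : ℕ} {f : α → K}
    (hf : Tendsto (fun n => ‖f n‖) l (𝓝 0)) : (f, 0) ∈ S.Cw l e x x₀ k :=
  Submodule.mem_sup_right ⟨hf, rfl⟩

variable {S}

/-- the state of the induction -/
structure Ind (S : Sys H K) (l : Filter α) (e : α → K) (x : α → ℕ → H) (v : α → ℕ → K)
    (x₀ : ℕ → H) (v₀ : ℕ → K) (w : List Gate) : Prop where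
  cpt : Cpt l (S.Cw l e x x₀ w.length)
  ops : ∀ C, S.Cw l e x x₀ w.length ≤ C → Cpt l C →
    S.AO l C (fun n => S.lw (v n) w) (S.lw v₀ w)
  app : ∀ i < w.length, ∃ y, S.AV l (S.Cw l e x x₀ w.length) y (x₀ i) ∧
    Tendsto (fun n => ‖x n i - y n‖) l (𝓝 0)
  perp : ∀ i < w.length, Tendsto (fun n => (inner ℂ (e n) (S.iota (x n i)) : ℂ)) l (𝓝 0)

lemma Ind.inner_xx {e : α → K} {x : α → ℕ → H} {v : α → ℕ → K} {x₀ : ℕ → H} {v₀ : ℕ → K}
    {w : List Gate} (h : S.Ind l e x v x₀ v₀ w) {f g : α → H} {f₀ g₀ : H}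
    (hf : ∃ y, S.AV l (S.Cw l e x x₀ w.length) y f₀ ∧ Tendsto (fun n => ‖f n - y n‖) l (𝓝 0))
    (hg : ∃ y, S.AV l (S.Cw l e x x₀ w.length) y g₀ ∧ Tendsto (fun n => ‖g n - y n‖) l (𝓝 0)) :
    Tendsto (fun n => (inner ℂ (f n) (g n) : ℂ)) l (𝓝 (inner ℂ f₀ g₀)) := by
  obtain ⟨y, hy, hy'⟩ := hf
  obtain ⟨z, hz, hz'⟩ := hg
  exact tendsto_inner_pert (tendsto_norm_of_inner (hy.tendsto_inner h.cpt hy))
    (tendsto_norm_of_inner (hz.tendsto_inner h.cpt hz)) (hy.tendsto_inner h.cpt hz) hy' hz'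

/-- compatibility at the next time -/
lemma Ind.cpt_succ {e : α → K} {x : α → ℕ → H} {v : α → ℕ → K} {x₀ : ℕ → H} {v₀ : ℕ → K}
    {w : List Gate} (h : S.Ind l e x v x₀ v₀ w) (he : ∀ n, ‖e n‖ = 1)
    (happ : ∃ y, S.AV l (S.Cw l e x x₀ w.length) y (x₀ w.length) ∧
      Tendsto (fun n => ‖x n w.length - y n‖) l (𝓝 0))
    (hperp : Tendsto (fun n => (inner ℂ (e n) (S.iota (x n w.length)) : ℂ)) l (𝓝 0)) :
    Cpt l (S.Cw l e x x₀ (w.length + 1)) := by
  refine Cpt.sup_null (cpt_span ?_)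
  have happ' : ∀ i < w.length + 1, ∃ y, S.AV l (S.Cw l e x x₀ w.length) y (x₀ i) ∧
      Tendsto (fun n => ‖x n i - y n‖) l (𝓝 0) := by
    intro i hi
    rcases Nat.lt_succ_iff_lt_or_eq.1 hi with hi | rfl
    · exact h.app i hi
    · exact happ
  have hperp' : ∀ i < w.length + 1,
      Tendsto (fun n => (inner ℂ (e n) (S.iota (x n i)) : ℂ)) l (𝓝 0) := by
    intro i hi
    rcases Nat.lt_succ_iff_lt_or_eq.1 hi with hi | rfl
    · exact h.perp i hi
    · exact hperp
  rintro p (⟨i, hi, rfl⟩ | rfl) q (⟨j, hj, rfl⟩ | rfl)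
  · simp only [LinearIsometry.inner_map_map]
    exact h.inner_xx (happ' i hi) (happ' j hj)
  · have h1 := (Complex.continuous_conj.tendsto _).comp (hperp' i hi)
    simp only [Function.comp_def, inner_conj_symm, map_zero] at h1
    have h2 : (inner ℂ (S.iota (x₀ i)) S.e0 : ℂ) = 0 := by
      rw [← inner_conj_symm, S.e0perp, map_zero]
    simpa only [h2] using h1
  · have h1 := hperp' j hj
    simpa only [S.e0perp] using h1
  · have e1 : ∀ n, (inner ℂ (e n) (e n) : ℂ) = 1 := fun n => by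
      rw [inner_self_eq_norm_sq_to_K, he n]; simp
    have e2 : (inner ℂ S.e0 S.e0 : ℂ) = 1 := by
      rw [inner_self_eq_norm_sq_to_K, S.ne0]; simp
    simp only [e1, e2]
    exact tendsto_const_nhds

lemma Ind.nil {e : α → K} {x : α → ℕ → H} {v : α → ℕ → K} {x₀ : ℕ → H} {v₀ : ℕ → K}
    (he : ∀ n, ‖e n‖ = 1) : S.Ind l e x v x₀ v₀ [] where
  cpt := by
    refine Cpt.sup_null (cpt_span ?_)
    rintro p (⟨i, hi, rfl⟩ | rfl) q (⟨j, hj, rfl⟩ | rfl)
    · exact absurd hi (Nat.not_lt_zero i)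
    · exact absurd hi (Nat.not_lt_zero i)
    · exact absurd hj (Nat.not_lt_zero j)
    · have e1 : ∀ n, (inner ℂ (e n) (e n) : ℂ) = 1 := fun n => by
        rw [inner_self_eq_norm_sq_to_K, he n]; simp
      have e2 : (inner ℂ S.e0 S.e0 : ℂ) = 1 := by
        rw [inner_self_eq_norm_sq_to_K, S.ne0]; simp
      simp only [e1, e2]
      exact tendsto_const_nhds
  ops := fun C _ _ => AO.one
  app := fun i hi => absurd hi (Nat.not_lt_zero i)
  perp := fun i hi => absurd hi (Nat.not_lt_zero i)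

lemma Ind.app_self {e : α → K} {x : α → ℕ → H} {v : α → ℕ → K} {x₀ : ℕ → H} {v₀ : ℕ → K}
    {w : List Gate} (h : S.Ind l e x v x₀ v₀ w) {d : α → ℝ} (hd : Tendsto d l (𝓝 0))
    (hx : ∀ n, ‖x n w.length - S.xv (S.lw (v n) w)‖ ≤ d n)
    (hx0 : ‖x₀ w.length - S.xv (S.lw v₀ w)‖ ≤ 0) :
    ∃ y, S.AV l (S.Cw l e x x₀ w.length) y (x₀ w.length) ∧
      Tendsto (fun n => ‖x n w.length - y n‖) l (𝓝 0) := by
  refine ⟨fun n => S.xv (S.lw (v n) w), ?_, squeeze_zero (fun n => norm_nonneg _) hx hd⟩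
  have e : x₀ w.length = S.xv (S.lw v₀ w) := by
    have := le_antisymm hx0 (norm_nonneg _)
    exact sub_eq_zero.1 (norm_eq_zero.1 this)
  rw [e]
  exact AO.xv (h.ops _ le_rfl h.cpt)

/-- one more gate -/
lemma Ind.succ {e : α → K} {x : α → ℕ → H} {v : α → ℕ → K} {x₀ : ℕ → H} {v₀ : ℕ → K}
    {w : List Gate} {g : Gate} (h : S.Ind l e x v x₀ v₀ w) (he : ∀ n, ‖e n‖ = 1) {d : α → ℝ}
    (hd : Tendsto d l (𝓝 0))
    (hx : ∀ n, ‖x n w.length - S.xv (S.lw (v n) w)‖ ≤ d n)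
    (hx0 : ‖x₀ w.length - S.xv (S.lw v₀ w)‖ ≤ 0)
    (hp : ∀ n, ‖(inner ℂ (e n) (S.iota (x n w.length)) : ℂ)‖ ≤ d n)
    (hg : ∀ C, S.Cw l e x x₀ (w.length + 1) ≤ C → Cpt l C →
      S.AO l C (fun n => S.lw (v n) w) (S.lw v₀ w) →
      S.AO l C (fun n => S.lw (v n) (g :: w)) (S.lw v₀ (g :: w))) :
    S.Ind l e x v x₀ v₀ (g :: w) := by
  have hperp : Tendsto (fun n => (inner ℂ (e n) (S.iota (x n w.length)) : ℂ)) l (𝓝 0) :=
    squeeze_zero_norm hp hd
  have happ := h.app_self hd hx hx0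
  have hlen : (g :: w).length = w.length + 1 := rfl
  have hle : S.Cw l e x x₀ w.length ≤ S.Cw l e x x₀ (w.length + 1) := Cw_mono S (Nat.le_succ _)
  refine ⟨?_, ?_, ?_, ?_⟩
  · rw [hlen]
    exact h.cpt_succ he happ hperp
  · intro C hC hcpt
    rw [hlen] at hC
    exact hg C hC hcpt (h.ops C (hle.trans hC) hcpt)
  · intro i hi
    rw [hlen] at hi ⊢
    rcases Nat.lt_succ_iff_lt_or_eq.1 hi with hi | rfl
    · obtain ⟨y, hy, hy'⟩ := h.app i hi
      exact ⟨y, hy.mono hle, hy'⟩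
    · obtain ⟨y, hy, hy'⟩ := happ
      exact ⟨y, hy.mono hle, hy'⟩
  · intro i hi
    rw [hlen] at hi
    rcases Nat.lt_succ_iff_lt_or_eq.1 hi with hi | rfl
    · exact h.perp i hi
    · exact hperp

lemma Ind.of_good {e : α → K} {x : α → ℕ → H} {v : α → ℕ → K} {x₀ : ℕ → H} {v₀ : ℕ → K}
    (he : ∀ n, ‖e n‖ = 1) {d : α → ℝ} (hd : Tendsto d l (𝓝 0)) : ∀ w : List Gate,
    (∀ n, S.Good (d n) (e n) (x n) (v n) w) → S.Good 0 S.e0 x₀ v₀ w →
    S.Ind l e x v x₀ v₀ w
  | [], _, _ => Ind.nil he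
  | Gate.B b :: w, h, h0 => by
    refine (Ind.of_good he hd w (fun n => (h n).1) h0.1).succ he hd (fun n => (h n).2.1) h0.2.1
      (fun n => (h n).2.2) ?_
    intro C hC hcpt hw
    exact (AO.xr b).mul hw
  | Gate.C γ :: w, h, h0 => by
    refine (Ind.of_good he hd w (fun n => (h n).1) h0.1).succ he hd (fun n => (h n).2.1) h0.2.1
      (fun n => (h n).2.2.1) ?_
    intro C hC hcpt hw
    have hm : ((fun n => v n w.length), v₀ w.length) ∈ C := by
      have e1 : ((fun n => v n w.length), v₀ w.length)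
          = (γ : ℂ) • ((fun n => S.iota (x n w.length)), S.iota (x₀ w.length)) := by
        refine Prod.ext (funext fun n => (h n).2.2.2) h0.2.2.2
      rw [e1]
      exact C.smul_mem _ (hC (Cw_x S (Nat.lt_succ_self _)))
    exact (AO.zr hcpt hm).mul hw
  | Gate.G κ :: w, h, h0 => by
    refine (Ind.of_good he hd w (fun n => (h n).1) h0.1).succ he hd (fun n => (h n).2.1) h0.2.1
      (fun n => (h n).2.2.1) ?_
    intro C hC hcpt hw
    have hm : ((fun n => v n w.length), v₀ w.length) ∈ C := by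
      have e0 : v₀ w.length = (κ : ℂ) • S.e0 := by
        have := le_antisymm h0.2.2.2 (norm_nonneg _)
        exact sub_eq_zero.1 (norm_eq_zero.1 this)
      have e1 : ((fun n => v n w.length), v₀ w.length)
          = (κ : ℂ) • (e, S.e0) + ((fun n => v n w.length - (κ : ℂ) • e n), 0) := by
        refine Prod.ext (funext fun n => ?_) ?_
        · simp
        · simp [e0]
      rw [e1]
      refine C.add_mem (C.smul_mem _ (hC (Cw_e S))) (hC (Cw_null S ?_))
      exact squeeze_zero (fun n => norm_nonneg _) (fun n => (h n).2.2.2) hd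
    exact (AO.zr hcpt hm).mul hw

/-- limit of the Gram matrix -/
lemma tendsto_gram {e : α → K} {x : α → ℕ → H} {v : α → ℕ → K} {x₀ : ℕ → H} {v₀ : ℕ → K}
    (he : ∀ n, ‖e n‖ = 1) {d : α → ℝ} (hd : Tendsto d l (𝓝 0)) {w : List Gate}
    (h : ∀ n, S.Good (d n) (e n) (x n) (v n) w) (h0 : S.Good 0 S.e0 x₀ v₀ w) :
    (∀ i < w.length, ∀ j < w.length,
      Tendsto (fun n => (inner ℂ (x n i) (x n j) : ℂ)) l (𝓝 (inner ℂ (x₀ i) (x₀ j)))) ∧
    (∀ i < w.length, Tendsto (fun n => (inner ℂ (x n i) (S.xv (S.lw (v n) w)) : ℂ)) l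
      (𝓝 (inner ℂ (x₀ i) (S.xv (S.lw v₀ w))))) := by
  have hI := Ind.of_good he hd w h h0
  refine ⟨fun i hi j hj => hI.inner_xx (hI.app i hi) (hI.app j hj), fun i hi => ?_⟩
  refine hI.inner_xx (hI.app i hi) ⟨_, AO.xv (hI.ops _ le_rfl hI.cpt), ?_⟩
  simp [tendsto_const_nhds]

/-- **Block G** -/
theorem gStmt (S : Sys H K) : S.GStmt := by
  intro w x₀ v₀ h0 δ hδ
  by_contra hcon
  push Not at hcon
  have hpos : ∀ n : ℕ, (0 : ℝ) < 1 / ((n : ℝ) + 1) := fun n => by positivity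
  choose e x v he hg hbad using fun n : ℕ => hcon (1 / ((n : ℝ) + 1)) (hpos n)
  have hd : Tendsto (fun n : ℕ => 1 / ((n : ℝ) + 1)) atTop (𝓝 0) :=
    tendsto_one_div_add_atTop_nhds_zero_nat
  obtain ⟨h1, h2⟩ := tendsto_gram (S := S) (l := atTop) he hd hg h0
  have A : ∀ᶠ n in atTop, ∀ i ∈ Finset.range w.length, ∀ j ∈ Finset.range w.length,
      ‖(inner ℂ (x n i) (x n j) : ℂ) - inner ℂ (x₀ i) (x₀ j)‖ < δ := by
    rw [Filter.eventually_all_finset]
    intro i hi
    rw [Filter.eventually_all_finset]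
    intro j hj
    have := (h1 i (Finset.mem_range.1 hi) j (Finset.mem_range.1 hj))
    rw [Metric.tendsto_nhds] at this
    simpa [dist_eq_norm] using this δ hδ
  have B : ∀ᶠ n in atTop, ∀ i ∈ Finset.range w.length,
      ‖(inner ℂ (x n i) (S.xv (S.lw (v n) w)) : ℂ) - inner ℂ (x₀ i) (S.xv (S.lw v₀ w))‖ < δ := by
    rw [Filter.eventually_all_finset]
    intro i hi
    have := (h2 i (Finset.mem_range.1 hi))
    rw [Metric.tendsto_nhds] at this
    simpa [dist_eq_norm] using this δ hδ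
  obtain ⟨n, hA, hB⟩ := (A.and B).exists
  obtain ⟨i, hi, hlt⟩ := hbad n (fun i hi j hj => hA i (Finset.mem_range.2 hi) j
    (Finset.mem_range.2 hj))
  exact absurd (hB i (Finset.mem_range.2 hi)) (not_lt.2 hlt)

end Sys

end Vale.Agent.P367.A
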