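import Mathlib
import Vale.Agent.P367.A.Basic

/-! P367, Theorem A, block K: the kick word `C tau, B eps, C (-tau)`. -/

namespace Vale.Agent.P367.A

open Complex

namespace Sys

namespace Kick

variable {H K : Type*} [NormedAddCommGroup H] [InnerProductSpace ℂ H]
  [NormedAddCommGroup K] [InnerProductSpace ℂ K] (S : Sys H K)

lemma nice_mono {c d : ℝ} {x : H} (h : S.Nice c x) (hcd : c ≤ d) : S.Nice d x where
  m0 := h.m0.trans hcd
  m1 a := (h.m1 a).trans (mul_le_mul_of_nonneg_right hcd (norm_nonneg _))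
  m2 a b := (h.m2 a b).trans (mul_le_mul_of_nonneg_right hcd (by positivity))

lemma nice_nonneg {c : ℝ} {x : H} (h : S.Nice c x) : 0 ≤ c := (norm_nonneg _).trans h.m0

lemma abs_cos_sub_one_le (y : ℝ) : |Real.cos y - 1| ≤ y ^ 2 / 2 := by
  have h1 := Real.one_sub_sq_div_two_le_cos (x := y)
  have h2 := Real.cos_le_one y
  rw [abs_le]
  constructor <;> linarith

lemma abs_sin_sub_le {y : ℝ} (h0 : 0 ≤ y) (h1 : y ≤ 1) : |Real.sin y - y| ≤ y ^ 2 := by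
  have h := Real.sin_bound (x := y) (by rw [abs_of_nonneg h0]; exact h1)
  rw [abs_le] at h ⊢
  have h3 : |y| = y := abs_of_nonneg h0
  rw [h3] at h
  have h4 : y ^ 3 ≤ y ^ 2 := by nlinarith [sq_nonneg y]
  have h5 : y ^ 4 ≤ y ^ 2 := by nlinarith [sq_nonneg y, sq_nonneg (y ^ 2), mul_nonneg h0 h0]
  have h6 : 0 ≤ y ^ 2 := sq_nonneg y
  have h7 : 0 ≤ y ^ 3 := by positivity
  constructor <;> nlinarith [h.1, h.2]

/-- the vector `e'` -/
noncomputable def ep (τ : ℝ) : H :=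
  -(Complex.I • S.Z (S.zr (-((2 * τ : ℝ) : ℂ) • S.iota (S.Z S.Om)) S.Om))

lemma norm_ep (τ : ℝ) : ‖ep S τ‖ = 1 := by
  rw [ep, norm_neg, norm_smul, Complex.norm_I, one_mul, S.Z.norm_map, (S.zr _).norm_map, S.nOm]

lemma k1_Om (τ : ℝ) (x : H) : S.k1 τ x = S.zr ((τ : ℂ) • S.iota (S.Z S.Om)) x := rfl

/-- the field vector after `C tau, B eps` -/
lemma xv_k2 (ε τ : ℝ) : S.xv (S.k2 ε τ) = (Real.cos (2 * ε) : ℂ) • S.Z S.Om
      + (Real.sin (2 * ε) : ℂ) • ep S τ := by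
  set v : K := (τ : ℂ) • S.iota (S.Z S.Om) with hv
  have h : (S.k2 ε τ)⁻¹ = S.zr (-v) * S.xr (-ε) := by
    rw [k2, k1, mul_inv_rev, xr_inv, zr_inv]
  unfold xv
  rw [h]
  change S.zr (-v) (S.xr (-ε) (S.Z (S.xr ε (S.zr v S.Om)))) = _
  rw [Z_xr, xr_xr]
  have e1 : -ε + -ε = -(2 * ε) := by ring
  rw [e1, Z_zr, xr_apply, map_sub, map_smul, map_smul, Real.cos_neg, Real.sin_neg, zr_neg_zr]
  have e3 : S.zr (-v) (S.X (S.zr v (S.Z S.Om)))
      = -S.Z (S.zr (-((2 * τ : ℝ) : ℂ) • S.iota (S.Z S.Om)) S.Om) := by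
    rw [X_zr, zr_zr, th_self, S.XZ, S.XOm, map_neg]
    have e4 : -v + -v = -((2 * τ : ℝ) : ℂ) • S.iota (S.Z S.Om) := by
      rw [hv]; push_cast; module
    rw [e4, Z_zr]
    simp
  rw [e3, ep]
  push_cast
  module

lemma xv_k2_sub (ε τ : ℝ) : S.xv (S.k2 ε τ) - S.Z S.Om
    = ((Real.cos (2 * ε) - 1 : ℝ) : ℂ) • S.Z S.Om + (Real.sin (2 * ε) : ℂ) • ep S τ := by
  rw [xv_k2]; push_cast; module

lemma norm_xv_k2_sub_le {ε : ℝ} (τ : ℝ) (h0 : 0 < ε) (h1 : ε ≤ 1 / 4) :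
    ‖S.xv (S.k2 ε τ) - S.Z S.Om‖ ≤ 3 * ε := by
  rw [xv_k2_sub]
  refine (norm_add_le _ _).trans ?_
  rw [norm_smul, norm_smul, S.Z.norm_map, S.nOm, norm_ep, Complex.norm_real, Complex.norm_real,
    Real.norm_eq_abs, Real.norm_eq_abs]
  have h2 := abs_cos_sub_one_le (2 * ε)
  have h3 : |Real.sin (2 * ε)| ≤ 2 * ε := by
    have := Real.abs_sin_le_abs (x := 2 * ε)
    rwa [abs_of_pos (by linarith : (0 : ℝ) < 2 * ε)] at this
  nlinarith

/-- the phase -/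
noncomputable def ph (ε τ : ℝ) : ℂ :=
  Complex.exp (Complex.I * ((τ ^ 2 * th (S.iota (S.xv (S.k2 ε τ))) (S.iota (S.Z S.Om)) : ℝ) : ℂ))

lemma norm_ph (ε τ : ℝ) : ‖ph S ε τ‖ = 1 := by
  rw [ph, mul_comm]
  exact Complex.norm_exp_ofReal_mul_I _

lemma conj_ph (ε τ : ℝ) : (starRingEnd ℂ) (ph S ε τ) = Complex.exp (-(Complex.I *
    ((τ ^ 2 * th (S.iota (S.xv (S.k2 ε τ))) (S.iota (S.Z S.Om)) : ℝ) : ℂ))) := by
  rw [ph, ← Complex.exp_conj, map_mul, Complex.conj_I, Complex.conj_ofReal]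
  congr 1; ring

lemma conj_ph_mul (ε τ : ℝ) : (starRingEnd ℂ) (ph S ε τ) * ph S ε τ = 1 := by
  rw [conj_ph, ph, ← Complex.exp_add, neg_add_cancel, Complex.exp_zero]

/-- the state after the kick, as a sum of two branches -/
lemma k3_apply (ε τ : ℝ) (x : H) : S.k3 ε τ x
    = (Real.cos ε : ℂ) • (ph S ε τ • S.zr (-((τ : ℂ) • S.iota (S.xv (S.k2 ε τ) - S.Z S.Om))) x)
    - (Complex.I * (Real.sin ε : ℂ)) • ((starRingEnd ℂ) (ph S ε τ) •
        S.zr (-((τ : ℂ) • S.iota (S.xv (S.k2 ε τ) + S.Z S.Om))) (S.X x)) := by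
  set x1 := S.iota (S.xv (S.k2 ε τ)) with hx1
  set x0 := S.iota (S.Z S.Om) with hx0
  have h0 : S.k3 ε τ x = S.zr (((-τ : ℝ) : ℂ) • x1) (S.xr ε (S.zr ((τ : ℂ) • x0) x)) := rfl
  rw [h0, xr_apply, map_sub, map_smul, map_smul, X_zr, zr_zr, zr_zr, conj_ph, ph, ← hx1, ← hx0]
  have e1 : th (((-τ : ℝ) : ℂ) • x1) ((τ : ℂ) • x0) = -(τ ^ 2 * th x1 x0) := by
    rw [th_smul_left, th_smul_right]; ring
  have e2 : th (((-τ : ℝ) : ℂ) • x1) (-((τ : ℂ) • x0)) = τ ^ 2 * th x1 x0 := by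
    rw [th_neg_right, th_smul_left, th_smul_right]; ring
  have e3 : ((-τ : ℝ) : ℂ) • x1 + (τ : ℂ) • x0
      = -((τ : ℂ) • S.iota (S.xv (S.k2 ε τ) - S.Z S.Om)) := by
    rw [map_sub, ← hx1, ← hx0]; push_cast; module
  have e4 : ((-τ : ℝ) : ℂ) • x1 + -((τ : ℂ) • x0)
      = -((τ : ℂ) • S.iota (S.xv (S.k2 ε τ) + S.Z S.Om)) := by
    rw [map_add, ← hx1, ← hx0]; push_cast; module
  rw [e1, e2, e3, e4]
  congr 3
  congr 1
  push_cast
  ring

/-- the label vector of the kick, in terms of `Om` -/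
lemma lab_eq (ε τ : ℝ) : (S.k3 ε τ)⁻¹ (S.Z (S.zr (-((τ : ℂ) • S.iota (S.xv (S.k2 ε τ) + S.Z S.Om)))
      (-(Complex.I * (starRingEnd ℂ) (ph S ε τ)) • S.Om)))
    = (Real.cos ε : ℂ) • ep S τ + (Real.sin ε : ℂ) •
      S.zr (-((τ : ℂ) • S.iota (S.Z S.Om))) (S.X (S.Z (S.zr (-((τ : ℂ) • S.iota (S.Z S.Om))) S.Om)))
      := by
  have h : ∀ y, (S.k3 ε τ)⁻¹ y = S.zr (-((τ : ℂ) • S.iota (S.Z S.Om)))
      (S.xr (-ε) (S.zr (-(((-τ : ℝ) : ℂ) • S.iota (S.xv (S.k2 ε τ)))) y)) := by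
    intro y
    have : (S.k3 ε τ)⁻¹ = S.zr (-((τ : ℂ) • S.iota (S.Z S.Om))) * S.xr (-ε)
        * S.zr (-(((-τ : ℝ) : ℂ) • S.iota (S.xv (S.k2 ε τ)))) := by
      rw [k3]
      rw [mul_inv_rev, zr_inv]
      conv_lhs => rw [k2, k1, mul_inv_rev, xr_inv, zr_inv]
      rfl
    rw [this]; rfl
  rw [h]
  set x1 := S.iota (S.xv (S.k2 ε τ)) with hx1
  set x0 := S.iota (S.Z S.Om) with hx0
  rw [map_smul, map_smul, map_smul, ← Z_zr, zr_zr]
  have e1 : th (-(((-τ : ℝ) : ℂ) • x1)) (-((τ : ℂ) • S.iota (S.xv (S.k2 ε τ) + S.Z S.Om)))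
      = -(τ ^ 2 * th x1 x0) := by
    rw [map_add, ← hx1, ← hx0, th_neg_left, th_neg_right, th_smul_left, th_smul_right,
      th_add_right, th_self]; ring
  have e2 : -(((-τ : ℝ) : ℂ) • x1) + -((τ : ℂ) • S.iota (S.xv (S.k2 ε τ) + S.Z S.Om))
      = -((τ : ℂ) • x0) := by
    rw [map_add, ← hx1, ← hx0]; push_cast; module
  rw [e1, e2]
  have e3 : Complex.exp (-(Complex.I * ((-(τ ^ 2 * th x1 x0) : ℝ) : ℂ))) = ph S ε τ := by
    rw [ph]; congr 1; push_cast; ring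
  rw [e3]
  simp only [map_smul, smul_smul]
  have e4 : -(Complex.I * (starRingEnd ℂ) (ph S ε τ)) * ph S ε τ = -Complex.I := by
    have := conj_ph_mul S ε τ
    linear_combination (-Complex.I) * this
  rw [e4, xr_apply, map_sub, map_smul, map_smul, Real.cos_neg, Real.sin_neg]
  have e5 : S.zr (-((τ : ℂ) • x0)) (S.Z (S.zr (-((τ : ℂ) • x0)) S.Om))
      = S.Z (S.zr (-((2 * τ : ℝ) : ℂ) • x0) S.Om) := by
    rw [← Z_zr, zr_zr, th_self]
    have : -((τ : ℂ) • x0) + -((τ : ℂ) • x0) = -((2 * τ : ℝ) : ℂ) • x0 := by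
      push_cast; module
    rw [this]
    simp
  rw [e5, ep, ← hx0]
  have hI : Complex.I * Complex.I = -1 := Complex.I_mul_I
  push_cast
  match_scalars
  · ring
  · linear_combination (-Complex.sin (ε : ℂ)) * hI

lemma norm_lab_sub_le {ε : ℝ} (τ : ℝ) (h0 : 0 < ε) (h1 : ε ≤ 1 / 4) :
    ‖(S.k3 ε τ)⁻¹ (S.Z (S.zr (-((τ : ℂ) • S.iota (S.xv (S.k2 ε τ) + S.Z S.Om)))
      (-(Complex.I * (starRingEnd ℂ) (ph S ε τ)) • S.Om))) - ep S τ‖ ≤ 2 * ε := by
  rw [lab_eq]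
  have e : (Real.cos ε : ℂ) • ep S τ + (Real.sin ε : ℂ) •
      S.zr (-((τ : ℂ) • S.iota (S.Z S.Om))) (S.X (S.Z (S.zr (-((τ : ℂ) • S.iota (S.Z S.Om))) S.Om)))
      - ep S τ = ((Real.cos ε - 1 : ℝ) : ℂ) • ep S τ + (Real.sin ε : ℂ) •
      S.zr (-((τ : ℂ) • S.iota (S.Z S.Om)))
        (S.X (S.Z (S.zr (-((τ : ℂ) • S.iota (S.Z S.Om))) S.Om))) := by
    push_cast; module
  rw [e]
  refine (norm_add_le _ _).trans ?_
  rw [norm_smul, norm_smul, norm_ep, (S.zr _).norm_map, S.X.norm_map, S.Z.norm_map,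
    (S.zr _).norm_map, S.nOm, Complex.norm_real, Complex.norm_real, Real.norm_eq_abs,
    Real.norm_eq_abs]
  have h2 := abs_cos_sub_one_le ε
  have h3 : |Real.sin ε| ≤ ε := by
    have := Real.abs_sin_le_abs (x := ε)
    rwa [abs_of_pos h0] at this
  nlinarith

/-- frame decomposition of `zr (-b) y` -/
lemma zr_neg_eq (b : K) (y : H) : S.zr (-b) y = S.W b (S.Pp 0 y) + S.W (-b) (S.Pm 0 y) := by
  rw [← pul_time_zero, pul_eq_P, neg_neg]

lemma nice_Pp (hN : S.NStmt) {c : ℝ} {y : H} (h : S.Nice c y) : S.Nice c (S.Pp 0 y) := by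
  have h1 := hN.comm (S.Zt 0) (fun a x => S.W_ZtA a 0 x) c y h
  have h2 := hN.smul _ _ (1 / 2 : ℂ) (hN.add _ _ _ _ h h1)
  have e : ‖(1 / 2 : ℂ)‖ * (c + c) = c := by norm_num; ring
  rw [e] at h2
  exact h2

lemma nice_Pm (hN : S.NStmt) {c : ℝ} {y : H} (h : S.Nice c y) : S.Nice c (S.Pm 0 y) := by
  have h1 := hN.smul _ _ (-1 : ℂ) (hN.comm (S.Zt 0) (fun a x => S.W_ZtA a 0 x) c y h)
  have h2 := hN.smul _ _ (1 / 2 : ℂ) (hN.add _ _ _ _ h h1)
  have e : ‖(1 / 2 : ℂ)‖ * (c + ‖(-1 : ℂ)‖ * c) = c := by norm_num; ring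
  rw [e] at h2
  have e2 : S.Pm 0 y = (1 / 2 : ℂ) • (y + (-1 : ℂ) • S.Zt 0 y) := by
    rw [Pm]; module
  rw [e2]
  exact h2

lemma lab_diff (κ ε τ : ℝ) (hε : 0 < ε) (hε1 : ε ≤ 1 / 4) (hτ : τ = -κ / 2 / ε) {e : H}
    (hee : ‖e - ep S τ‖ ≤ 2 * ε) :
    ‖-((τ : ℂ) • (S.xv (S.k2 ε τ) - S.Z S.Om)) - (κ : ℂ) • e‖ ≤ 5 * |κ| * ε := by
  have hτa : |τ| = |κ| / 2 / ε := by
    rw [hτ, abs_div, abs_div, abs_neg, abs_of_pos hε, abs_of_pos (by norm_num : (0 : ℝ) < 2)]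
  have hτε : |τ| * ε = |κ| / 2 := by rw [hτa]; field_simp
  have e1 : -((τ : ℂ) • (S.xv (S.k2 ε τ) - S.Z S.Om)) - (κ : ℂ) • e
      = ((-τ * (Real.cos (2 * ε) - 1) : ℝ) : ℂ) • S.Z S.Om
        + ((-τ * (Real.sin (2 * ε) - 2 * ε) : ℝ) : ℂ) • ep S τ
        - (κ : ℂ) • (e - ep S τ) := by
    rw [xv_k2_sub]
    have h1 : -τ * (2 * ε) = κ := by
      rw [hτ]; field_simp
    have h2 : ((-τ * (Real.sin (2 * ε) - 2 * ε) : ℝ) : ℂ)
        = -(τ : ℂ) * (Real.sin (2 * ε) : ℂ) - (κ : ℂ) := by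
      have h3 : -τ * (Real.sin (2 * ε) - 2 * ε) = -τ * Real.sin (2 * ε) - κ := by
        rw [← h1]; ring
      rw [h3]; push_cast; ring
    rw [h2]
    push_cast
    module
  rw [e1]
  refine (norm_sub_le _ _).trans ?_
  refine (add_le_add (norm_add_le _ _) le_rfl).trans ?_
  rw [norm_smul, norm_smul, norm_smul, S.Z.norm_map, S.nOm, norm_ep, Complex.norm_real,
    Complex.norm_real, Complex.norm_real, Real.norm_eq_abs, Real.norm_eq_abs, Real.norm_eq_abs,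
    abs_mul, abs_mul, abs_neg]
  have h2 := abs_cos_sub_one_le (2 * ε)
  have h3 := abs_sin_sub_le (y := 2 * ε) (by linarith) (by linarith)
  have h4 : |τ| * |Real.cos (2 * ε) - 1| ≤ |κ| * ε := by
    calc |τ| * |Real.cos (2 * ε) - 1| ≤ |τ| * ((2 * ε) ^ 2 / 2) :=
          mul_le_mul_of_nonneg_left h2 (abs_nonneg _)
      _ = 2 * (|τ| * ε) * ε := by ring
      _ = |κ| * ε := by rw [hτε]; ring
  have h5 : |τ| * |Real.sin (2 * ε) - 2 * ε| ≤ 2 * |κ| * ε := by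
    calc |τ| * |Real.sin (2 * ε) - 2 * ε| ≤ |τ| * (2 * ε) ^ 2 :=
          mul_le_mul_of_nonneg_left h3 (abs_nonneg _)
      _ = 4 * (|τ| * ε) * ε := by ring
      _ = 2 * |κ| * ε := by rw [hτε]; ring
  have h8 : |κ| * ‖e - ep S τ‖ ≤ |κ| * (2 * ε) := mul_le_mul_of_nonneg_left hee (abs_nonneg _)
  linarith

end Kick

open Kick

variable {H K : Type*} [NormedAddCommGroup H] [InnerProductSpace ℂ H]
  [NormedAddCommGroup K] [InnerProductSpace ℂ K] (S : Sys H K)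

/-- **Block K**: the state after the kick satisfies the invariants. -/
theorem kStmt (hN : S.NStmt) (hO : S.OStmt) : S.KStmt := by
  intro κ hκ
  have hκ0 : 0 < |κ| := abs_pos.2 hκ
  set B : ℝ := 2 * (1 + 4 * |κ|) ^ 2 with hB
  have hB0 : 0 < B := by positivity
  set C : ℝ := 2 + 48 * B / |κ| + B + 5 * |κ| + 3 with hC
  have hC0 : 0 ≤ C := by positivity
  have hC1 : B ≤ C := by
    have : 0 ≤ 48 * B / |κ| := by positivity
    linarith
  have hC2 : 2 + 48 * B / |κ| ≤ C := by linarith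
  have hC3 : 5 * |κ| + 3 ≤ C := by
    have : 0 ≤ 48 * B / |κ| := by positivity
    linarith
  refine ⟨C, 1 / 4, hC0, by norm_num, ?_⟩
  intro ε hε hε1 τ hτ
  have hx := norm_xv_k2_sub_le S τ hε hε1
  have hτa : |τ| = |κ| / 2 / ε := by
    rw [hτ, abs_div, abs_div, abs_neg, abs_of_pos hε, abs_of_pos (by norm_num : (0 : ℝ) < 2)]
  have hτε : |τ| * ε = |κ| / 2 := by rw [hτa]; field_simp
  set x1 : H := S.xv (S.k2 ε τ) with hx1
  set x0 : H := S.Z S.Om with hx0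
  have nx0 : ‖x0‖ = 1 := by rw [hx0, S.Z.norm_map, S.nOm]
  have nx1 : ‖x1‖ = 1 := S.norm_xv _
  set w : K := (τ : ℂ) • S.iota (x1 - x0) with hw
  have nw : ‖w‖ ≤ 2 * |κ| := by
    rw [hw, norm_smul, norm_iota, Complex.norm_real, Real.norm_eq_abs]
    have : |τ| * ‖x1 - x0‖ ≤ |τ| * (3 * ε) := mul_le_mul_of_nonneg_left hx (abs_nonneg _)
    nlinarith
  set θ : ℂ := ph S ε τ with hθ
  have nθ : ‖θ‖ = 1 := norm_ph S ε τ
  set η : H := -(Complex.I * (starRingEnd ℂ) θ) • S.Om with hη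
  have nc : ‖-(Complex.I * (starRingEnd ℂ) θ)‖ = 1 := by
    rw [norm_neg, norm_mul, Complex.norm_I, one_mul, RCLike.norm_conj, nθ]
  have nη : S.Nice 3 η := by
    have := hN.smul _ _ (-(Complex.I * (starRingEnd ℂ) θ)) hN.om
    rwa [nc, one_mul] at this
  set b : K := (τ : ℂ) • S.iota (x1 + x0) with hb
  have hab : ((1 / ε : ℝ) : ℂ) • (((-κ / 2 : ℝ) : ℂ) • S.iota (x1 + x0)) = b := by
    rw [smul_smul, hb, hτ]
    congr 1
    push_cast
    ring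
  have nb : |κ| / 2 / ε ≤ ‖b‖ := by
    rw [hb, norm_smul, norm_iota, Complex.norm_real, Real.norm_eq_abs, ← hτa]
    have h2 : 1 ≤ ‖x1 + x0‖ := by
      have h3 : ‖(2 : ℝ) • x0‖ ≤ ‖x1 + x0‖ + ‖x1 - x0‖ := by
        have : (2 : ℝ) • x0 = (x1 + x0) - (x1 - x0) := by module
        rw [this]
        exact norm_sub_le _ _
      rw [norm_smul, nx0] at h3
      have h4 : ‖(2 : ℝ)‖ = 2 := by simp
      rw [h4] at h3
      linarith
    calc |τ| = |τ| * 1 := (mul_one _).symm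
      _ ≤ _ := mul_le_mul_of_nonneg_left h2 (abs_nonneg _)
  have nb0 : 0 < ‖b‖ := lt_of_lt_of_le (by positivity) nb
  have bne : b ≠ 0 := norm_pos_iff.1 nb0
  have nbne : -b ≠ 0 := neg_ne_zero.2 bne
  set T : H ≃ₗᵢ[ℂ] H := S.zr (-w) with hT
  set V : H ≃ₗᵢ[ℂ] H := S.k3 ε τ with hV
  have hVx : ∀ x, V x = (Real.cos ε : ℂ) • (θ • T x)
      - (Complex.I * (Real.sin ε : ℂ)) • ((starRingEnd ℂ) θ • S.zr (-b) (S.X x)) :=
    fun x => k3_apply S ε τ x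
  set e : H := V⁻¹ (S.Z (S.zr (-b) η)) with he
  have hee : ‖e - ep S τ‖ ≤ 2 * ε := norm_lab_sub_le S τ hε hε1
  have nconj : ‖(starRingEnd ℂ) θ‖ = 1 := by rw [RCLike.norm_conj, nθ]
  have hcos := abs_cos_sub_one_le ε
  have hsin := abs_sin_sub_le hε.le (by linarith)
  have hsin1 : |Real.sin ε| ≤ ε := by
    have := Real.abs_sin_le_abs (x := ε)
    rwa [abs_of_pos hε] at this
  have hTn : ∀ c x, S.Nice c x → S.Nice (B * c) (T x) ∧ S.Nice (B * c) (T⁻¹ x) := by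
    intro c x hx'
    have hc := nice_nonneg S hx'
    have hle : 2 * (1 + 2 * ‖w‖) ^ 2 ≤ B := by
      rw [hB]
      have : 0 ≤ ‖w‖ := norm_nonneg _
      refine mul_le_mul_of_nonneg_left ?_ (by norm_num)
      refine pow_le_pow_left₀ (by positivity) ?_ 2
      linarith
    constructor
    · refine nice_mono S (hN.zr c x (-w) hx') ?_
      rw [norm_neg]
      exact mul_le_mul_of_nonneg_right hle hc
    · rw [hT, zr_inv, neg_neg]
      refine nice_mono S (hN.zr c x w hx') ?_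
      exact mul_le_mul_of_nonneg_right hle hc
  have hi2 : ∀ c x, S.Nice c x → ‖V x - θ • T x‖ ≤ 2 * c * ε := by
    intro c x hx'
    have hc := nice_nonneg S hx'
    have e1 : V x - θ • T x = ((Real.cos ε - 1 : ℝ) : ℂ) • (θ • T x)
        - (Complex.I * (Real.sin ε : ℂ)) • ((starRingEnd ℂ) θ • S.zr (-b) (S.X x)) := by
      rw [hVx]; push_cast; module
    rw [e1]
    refine (norm_sub_le _ _).trans ?_
    rw [norm_smul, norm_smul, norm_smul, norm_smul, nθ, nconj, norm_mul, Complex.norm_I,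
      (S.zr (-b)).norm_map, S.X.norm_map, T.norm_map, Complex.norm_real, Complex.norm_real,
      Real.norm_eq_abs, Real.norm_eq_abs]
    have hm := hx'.m0
    have h5 : |Real.cos ε - 1| ≤ ε := by nlinarith
    calc |Real.cos ε - 1| * (1 * ‖x‖) + 1 * |Real.sin ε| * (1 * ‖x‖)
        = (|Real.cos ε - 1| + |Real.sin ε|) * ‖x‖ := by ring
      _ ≤ (ε + ε) * c := by gcongr
      _ = 2 * c * ε := by ring
  refine ⟨θ, η, e, ?_, ?_, ?_, ?_⟩
  · refine ⟨nθ, Or.inl rfl, ?_, nice_mono S nη ?_, ?_, ?_, ?_, ?_⟩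
    · rw [norm_smul, norm_iota, Complex.norm_real, Real.norm_eq_abs, abs_div, abs_neg,
        abs_of_pos (by norm_num : (0 : ℝ) < 2)]
      have h2 : ‖x1 + x0‖ ≤ 2 := (norm_add_le _ _).trans (by rw [nx0, nx1]; norm_num)
      calc |κ| / 2 * ‖x1 + x0‖ ≤ |κ| / 2 * 2 := by gcongr
        _ ≤ C := by linarith
    · linarith
    · intro c x hx'
      have hc := nice_nonneg S hx'
      obtain ⟨h2, h3⟩ := hTn c x hx'
      exact ⟨nice_mono S h2 (mul_le_mul_of_nonneg_right hC1 hc),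
        nice_mono S h3 (mul_le_mul_of_nonneg_right hC1 hc)⟩
    · rw [hab, hVx, S.XOm, hη, map_smul]
      have e1 : (Real.cos ε : ℂ) • (θ • T S.Om)
          - (Complex.I * (Real.sin ε : ℂ)) • ((starRingEnd ℂ) θ • S.zr (-b) S.Om)
          - θ • T S.Om - (ε : ℂ) • (-(Complex.I * (starRingEnd ℂ) θ) • S.zr (-b) S.Om)
          = ((Real.cos ε - 1 : ℝ) : ℂ) • (θ • T S.Om)
            - ((Real.sin ε - ε : ℝ) : ℂ) • ((Complex.I * (starRingEnd ℂ) θ) • S.zr (-b) S.Om) := by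
        push_cast; module
      rw [e1]
      refine (norm_sub_le _ _).trans ?_
      rw [norm_smul, norm_smul, norm_smul, norm_smul, nθ, norm_mul, Complex.norm_I, nconj,
        (S.zr (-b)).norm_map, T.norm_map, S.nOm, Complex.norm_real, Complex.norm_real,
        Real.norm_eq_abs, Real.norm_eq_abs]
      have h9 : (3 : ℝ) ≤ C := by
        have : 0 ≤ 5 * |κ| := by positivity
        linarith
      nlinarith [sq_nonneg ε]
    · intro c x hx'
      have hc := nice_nonneg S hx'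
      refine (hi2 c x hx').trans ?_
      have h9 : (2 : ℝ) ≤ C := by
        have : 0 ≤ 5 * |κ| := by positivity
        linarith
      gcongr
    · rw [hab, ← he]
      simp only [ofReal_one, one_smul, sub_self, norm_zero]
      positivity
  · refine ⟨?_, ?_⟩
    · rw [he, (V⁻¹).norm_map, S.Z.norm_map, (S.zr _).norm_map, hη, norm_smul, nc, S.nOm, one_mul]
    · intro c x hx'
      have hc := nice_nonneg S hx'
      have e1 : (inner ℂ e x : ℂ) = inner ℂ (S.zr (-b) (S.Z η)) (V x - θ • T x)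
          + θ * (inner ℂ (S.W b (S.Pp 0 (S.Z η))) (S.W 0 (T x))
            + inner ℂ (S.W (-b) (S.Pm 0 (S.Z η))) (S.W 0 (T x))) := by
        rw [he, inner_invA, Z_zr, S.W_zero_apply, ← inner_add_left, ← zr_neg_eq,
          ← inner_smul_right, ← inner_add_right, sub_add_cancel]
      have nZη : S.Nice 3 (S.Z η) := hN.comm S.Z S.WZ 3 η nη
      have nT := (hTn c x hx').1
      have h1 : ‖(inner ℂ (S.zr (-b) (S.Z η)) (V x - θ • T x) : ℂ)‖ ≤ 2 * c * ε := by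
        refine (norm_inner_le_norm _ _).trans ?_
        rw [(S.zr _).norm_map, S.Z.norm_map, hη, norm_smul, nc, S.nOm, one_mul, one_mul]
        exact hi2 c x hx'
      have h2 := hO.inn 3 (B * c) _ _ b 0 (nice_Pp S hN nZη) nT bne
      have h3 := hO.inn 3 (B * c) _ _ (-b) 0 (nice_Pm S hN nZη) nT nbne
      rw [sub_zero] at h2 h3
      rw [norm_neg] at h3
      have h4 : 2 * 3 * (B * c) / ‖b‖ ≤ 12 * B / |κ| * c * ε := by
        rw [div_le_iff₀ nb0]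
        have h5 : 12 * B / |κ| * c * ε * (|κ| / 2 / ε) ≤ 12 * B / |κ| * c * ε * ‖b‖ := by
          gcongr
        refine le_trans (le_of_eq ?_) h5
        field_simp
        ring
      rw [e1]
      refine (norm_add_le _ _).trans ?_
      rw [norm_mul, nθ, one_mul]
      have h6 := norm_add_le (inner ℂ (S.W b (S.Pp 0 (S.Z η))) (S.W 0 (T x)) : ℂ)
        (inner ℂ (S.W (-b) (S.Pm 0 (S.Z η))) (S.W 0 (T x)) : ℂ)
      have h7 : (2 + 48 * B / |κ|) * c * ε ≤ C * c * ε := by gcongr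
      have h8 : 0 ≤ B / |κ| * c * ε := by positivity
      have h9 : 12 * B / |κ| * c * ε = 12 * (B / |κ| * c * ε) := by ring
      have h10 : (2 + 48 * B / |κ|) * c * ε = 2 * c * ε + 48 * (B / |κ| * c * ε) := by ring
      linarith
  · refine (lab_diff S κ ε τ hε hε1 hτ hee).trans ?_
    refine mul_le_mul_of_nonneg_right ?_ hε.le
    linarith
  · refine hx.trans ?_
    apply mul_le_mul_of_nonneg_right _ hε.le
    have : 0 ≤ 5 * |κ| := by positivity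
    linarith

end Sys

end Vale.Agent.P367.A
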