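import Vale.Agent.P367.A.Skel

/-! P367, Theorem A, block O: decay of overlaps `⟨W b x, W b' y⟩` of nice vectors. -/

namespace Vale.Agent.P367.A

open Complex

namespace Sys

variable {H K : Type*} [NormedAddCommGroup H] [InnerProductSpace ℂ H]
  [NormedAddCommGroup K] [InnerProductSpace ℂ K] (S : Sys H K)

/-- exchange relation of Weyl operators -/
lemma W_swap (h b : K) (x : H) : S.W h (S.W b x)
    = Complex.exp (-(2 * Complex.I * ((inner ℂ h b).im : ℂ))) • S.W b (S.W h x) := by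
  have h1 := S.WW h b x
  have h2 := S.WW b h x
  have h3 : (inner ℂ b h : ℂ).im = -(inner ℂ h b : ℂ).im := by
    rw [← inner_conj_symm b h, Complex.conj_im]
  rw [h1, h2, h3, smul_smul, ← Complex.exp_add, add_comm b h]
  congr 2
  push_cast
  ring

/-- the overlap of two frames, conjugated by `W h` -/
lemma inner_W_W_conj (h b b' : K) (x y : H) : inner ℂ (S.W b x) (S.W b' y)
    = Complex.exp (2 * Complex.I * ((inner ℂ h (b - b')).im : ℂ))
      * inner ℂ (S.W b (S.W h x)) (S.W b' (S.W h y)) := by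
  have h0 := (S.W h).inner_map_map (S.W b x) (S.W b' y)
  rw [← h0, S.W_swap h b x, S.W_swap h b' y, inner_smul_left, inner_smul_right, ← mul_assoc,
    ← Complex.exp_conj, ← Complex.exp_add]
  congr 2
  rw [inner_sub_right, Complex.sub_im]
  simp only [map_neg, map_mul, Complex.conj_I, Complex.conj_ofReal, map_ofNat]
  push_cast
  ring

lemma norm_W_W (b h : K) (x : H) : ‖S.W b (S.W h x)‖ = ‖x‖ := by
  rw [(S.W b).norm_map, (S.W h).norm_map]

/-- Lemma O: overlaps of `W b x` and `W b' y` decay like `1 / ‖b - b'‖`, the sharp constant -/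
lemma norm_inner_W_W_sharp {c c1 d d1 : ℝ} (b b' : K) (hb : b ≠ b') (x y : H)
    (hx' : ∀ a : K, ‖S.W a x - x‖ ≤ c1 * ‖a‖) (hx : ‖x‖ ≤ c)
    (hy' : ∀ a : K, ‖S.W a y - y‖ ≤ d1 * ‖a‖) (hy : ‖y‖ ≤ d) :
    ‖(inner ℂ (S.W b x) (S.W b' y) : ℂ)‖ ≤ (c * d1 + c1 * d) * (Real.pi / 4) / ‖b - b'‖ := by
  have hc : 0 ≤ c := (norm_nonneg _).trans hx
  set v : K := b' - b with hv
  have hv0 : v ≠ 0 := sub_ne_zero.2 (Ne.symm hb)
  have hvn : 0 < ‖v‖ := norm_pos_iff.2 hv0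
  have hvn' : ‖b - b'‖ = ‖v‖ := by rw [hv, norm_sub_rev]
  set h : K := ((Complex.I * (Real.pi / (2 * ‖v‖ ^ 2) : ℝ)) : ℂ) • v with hh
  have hhn : ‖h‖ = Real.pi / 2 / ‖v‖ := by
    rw [hh, norm_smul, norm_mul, Complex.norm_I, one_mul, Complex.norm_real, Real.norm_eq_abs,
      abs_of_nonneg (by positivity)]
    field_simp
  have him : (inner ℂ h (b - b') : ℂ).im = Real.pi / 2 := by
    have e1 : b - b' = -v := by rw [hv]; abel
    rw [e1, inner_neg_right, hh, inner_smul_left, inner_self_eq_norm_sq_to_K]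
    simp only [map_mul, Complex.conj_I, Complex.conj_ofReal]
    have e2 : -(-Complex.I * ((Real.pi / (2 * ‖v‖ ^ 2) : ℝ) : ℂ) * ((‖v‖ : ℂ)) ^ 2)
        = Complex.I * ((Real.pi / 2 : ℝ) : ℂ) := by
      have : ((Real.pi / (2 * ‖v‖ ^ 2) : ℝ) : ℂ) * ((‖v‖ : ℂ)) ^ 2 = ((Real.pi / 2 : ℝ) : ℂ) := by
        rw [← Complex.ofReal_pow, ← Complex.ofReal_mul]
        congr 1
        field_simp
      rw [mul_assoc, this]
      ring
    have e3 : (-(-Complex.I * ((Real.pi / (2 * ‖v‖ ^ 2) : ℝ) : ℂ) * ((‖v‖ : ℂ)) ^ 2)).im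
        = Real.pi / 2 := by
      rw [e2, Complex.I_mul_im, Complex.ofReal_re]
    exact e3
  have hconj := S.inner_W_W_conj h b b' x y
  rw [him] at hconj
  have hexp : Complex.exp (2 * Complex.I * ((Real.pi / 2 : ℝ) : ℂ)) = -1 := by
    have : 2 * Complex.I * ((Real.pi / 2 : ℝ) : ℂ) = Real.pi * Complex.I := by
      push_cast
      ring
    rw [this, Complex.exp_pi_mul_I]
  rw [hexp] at hconj
  have hsum : 2 * (inner ℂ (S.W b x) (S.W b' y) : ℂ)
      = inner ℂ (S.W b x) (S.W b' y) - inner ℂ (S.W b (S.W h x)) (S.W b' (S.W h y)) := by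
    linear_combination hconj
  have hsplit : (inner ℂ (S.W b x) (S.W b' y) - inner ℂ (S.W b (S.W h x)) (S.W b' (S.W h y)) : ℂ)
      = -inner ℂ (S.W b (S.W h x - x)) (S.W b' y)
        - inner ℂ (S.W b (S.W h x)) (S.W b' (S.W h y - y)) := by
    rw [map_sub, map_sub, inner_sub_left, inner_sub_right]
    ring
  have hc1h : 0 ≤ c1 * ‖h‖ := (norm_nonneg _).trans (hx' h)
  have hb1 : ‖(inner ℂ (S.W b (S.W h x - x)) (S.W b' y) : ℂ)‖ ≤ c1 * ‖h‖ * d := by
    refine (norm_inner_le_norm _ _).trans ?_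
    rw [(S.W b).norm_map, (S.W b').norm_map]
    exact mul_le_mul (hx' h) hy (norm_nonneg _) hc1h
  have hb2 : ‖(inner ℂ (S.W b (S.W h x)) (S.W b' (S.W h y - y)) : ℂ)‖ ≤ c * (d1 * ‖h‖) := by
    refine (norm_inner_le_norm _ _).trans ?_
    rw [S.norm_W_W, (S.W b').norm_map]
    exact mul_le_mul hx (hy' h) (norm_nonneg _) hc
  have h2 : ‖2 * (inner ℂ (S.W b x) (S.W b' y) : ℂ)‖ ≤ c1 * ‖h‖ * d + c * (d1 * ‖h‖) := by
    rw [hsum, hsplit]
    refine (norm_sub_le _ _).trans ?_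
    rw [norm_neg]
    exact add_le_add hb1 hb2
  rw [norm_mul] at h2
  have h22 : ‖(2 : ℂ)‖ = 2 := by simp
  rw [h22, hhn] at h2
  rw [hvn']
  have : (c * d1 + c1 * d) * (Real.pi / 4) / ‖v‖
      = (c1 * (Real.pi / 2 / ‖v‖) * d + c * (d1 * (Real.pi / 2 / ‖v‖))) / 2 := by ring
  rw [this]
  linarith [h2]

lemma norm_inner_W_W_one {c c1 d d1 : ℝ} (b b' : K) (hb : b ≠ b') (x y : H)
    (hx' : ∀ a : K, ‖S.W a x - x‖ ≤ c1 * ‖a‖) (hx : ‖x‖ ≤ c)
    (hy' : ∀ a : K, ‖S.W a y - y‖ ≤ d1 * ‖a‖) (hy : ‖y‖ ≤ d) :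
    ‖(inner ℂ (S.W b x) (S.W b' y) : ℂ)‖ ≤ (c * d1 + c1 * d) / ‖b - b'‖ := by
  refine (S.norm_inner_W_W_sharp b b' hb x y hx' hx hy' hy).trans ?_
  have hvn : 0 < ‖b - b'‖ := norm_pos_iff.2 (sub_ne_zero.2 hb)
  have hc : 0 ≤ c := (norm_nonneg _).trans hx
  have hd : 0 ≤ d := (norm_nonneg _).trans hy
  have hc1 : 0 ≤ c1 := nonneg_of_mul_nonneg_left ((norm_nonneg _).trans (hx' (b - b'))) hvn
  have hd1 : 0 ≤ d1 := nonneg_of_mul_nonneg_left ((norm_nonneg _).trans (hy' (b - b'))) hvn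
  refine div_le_div_of_nonneg_right ?_ (norm_nonneg _)
  have hpi : Real.pi / 4 ≤ 1 := by linarith [Real.pi_le_four]
  have hs : 0 ≤ c * d1 + c1 * d := by positivity
  nlinarith

lemma norm_inner_W_W_nice {c d : ℝ} (b b' : K) (hb : b ≠ b') (x y : H)
    (hx : S.Nice c x) (hy : S.Nice d y) :
    ‖(inner ℂ (S.W b x) (S.W b' y) : ℂ)‖ ≤ 2 * c * d / ‖b - b'‖ := by
  have := S.norm_inner_W_W_one b b' hb x y hx.m1 hx.m0 hy.m1 hy.m0
  have e : c * d + c * d = 2 * c * d := by ring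
  rwa [e] at this

/-- version with a lower bound `R` on the distance -/
lemma norm_inner_W_W_R {c d R : ℝ} (hR : 0 < R) (b b' : K) (hb : R ≤ ‖b - b'‖) (x y : H)
    (hx : S.Nice c x) (hy : S.Nice d y) :
    ‖(inner ℂ (S.W b x) (S.W b' y) : ℂ)‖ ≤ 2 * c * d / R := by
  have hbb : b ≠ b' := by
    intro h
    rw [h, sub_self, norm_zero] at hb
    linarith
  have hc : 0 ≤ c := (norm_nonneg _).trans hx.m0
  have hd : 0 ≤ d := (norm_nonneg _).trans hy.m0
  exact (S.norm_inner_W_W_nice b b' hbb x y hx hy).trans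
    (div_le_div_of_nonneg_left (by positivity) hR hb)

/-- block O -/
theorem ostmt : S.OStmt where
  inn c d x y b b' hx hy hb := S.norm_inner_W_W_nice b b' hb x y hx hy
  inn1 c c1 d d1 x y b b' hx1 hx hy1 hy hb := S.norm_inner_W_W_one b b' hb x y hx1 hx hy1 hy
  frm := by
    rintro c d z z' b b' R hR ⟨x, y, hx, hy, rfl⟩ ⟨x', y', hx', hy', rfl⟩ h1 h2
    have a1 := S.norm_inner_W_W_R hR b b' h1 x x' hx hx'
    have a2 := S.norm_inner_W_W_R hR b (-b') (by rwa [sub_neg_eq_add]) x y' hx hy'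
    have a3 := S.norm_inner_W_W_R hR (-b) b'
      (by rw [show -b - b' = -(b + b') by abel, norm_neg]; exact h2) y x' hy hx'
    have a4 := S.norm_inner_W_W_R hR (-b) (-b')
      (by rw [show -b - -b' = -(b - b') by abel, norm_neg]; exact h1) y y' hy hy'
    have e : (inner ℂ (S.W b x + S.W (-b) y) (S.W b' x' + S.W (-b') y') : ℂ)
        = inner ℂ (S.W b x) (S.W b' x') + inner ℂ (S.W b x) (S.W (-b') y')
          + (inner ℂ (S.W (-b) y) (S.W b' x') + inner ℂ (S.W (-b) y) (S.W (-b') y')) := by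
      rw [inner_add_left, inner_add_right, inner_add_right]
    rw [e]
    refine (norm_add_le _ _).trans ?_
    have b1 := norm_add_le (inner ℂ (S.W b x) (S.W b' x') : ℂ) (inner ℂ (S.W b x) (S.W (-b') y'))
    have b2 := norm_add_le (inner ℂ (S.W (-b) y) (S.W b' x') : ℂ)
      (inner ℂ (S.W (-b) y) (S.W (-b') y'))
    have e8 : 8 * c * d / R = 2 * c * d / R + 2 * c * d / R + (2 * c * d / R + 2 * c * d / R) := by
      ring
    rw [e8]
    linarith

end Sys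

end Vale.Agent.P367.A
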