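import Mathlib
import Vale.Agent.P367.A.Skel

/-! P367, Theorem A, block P: pulse estimates on frames, four-pulse words. -/

namespace Vale.Agent.P367.A

open Complex

namespace Sys

variable {H K : Type*} [NormedAddCommGroup H] [InnerProductSpace ℂ H]
  [NormedAddCommGroup K] [InnerProductSpace ℂ K] (S : Sys H K)

/-! ### algebra -/

/-- an isometry commuting with all Weyl operators -/
def PCW (U : H ≃ₗᵢ[ℂ] H) : Prop := ∀ (a : K) (x : H), S.W a (U x) = U (S.W a x)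

lemma P_cw_X : S.PCW S.X := S.WX
lemma P_cw_Z : S.PCW S.Z := S.WZ

lemma P_cw_mul {U V : H ≃ₗᵢ[ℂ] H} (hU : S.PCW U) (hV : S.PCW V) : S.PCW (U * V) := by
  intro a x
  change S.W a (U (V x)) = U (V (S.W a x))
  rw [hU, hV]

lemma P_cw_xr (b : ℝ) : S.PCW (S.xr b) := by
  intro a x
  simp only [xr_apply, map_sub, map_smul, S.WX]

lemma P_cw_Zt (t : ℝ) : S.PCW (S.Zt t) := S.P_cw_mul (S.P_cw_mul (S.P_cw_xr t) S.P_cw_Z) (S.P_cw_xr (-t))

lemma P_xr_xr_neg (b : ℝ) (x : H) : S.xr b (S.xr (-b) x) = x := S.xrL_xrL_neg b x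

lemma P_Zt_apply (t : ℝ) (x : H) : S.Zt t x = S.xr t (S.Z (S.xr (-t) x)) := rfl

lemma P_xr_add (a b : ℝ) (x : H) : S.xr a (S.xr b x) = S.xr (a + b) x := by
  simp only [xr_apply, map_sub, map_smul, S.XX]
  rw [Real.cos_add, Real.sin_add]
  push_cast
  have hI := Complex.I_mul_I
  have e : (Complex.cos a : ℂ) * Complex.cos b + (Complex.I * (Complex.sin a : ℂ))
      * (Complex.I * (Complex.sin b : ℂ))
      = Complex.cos a * Complex.cos b - Complex.sin a * Complex.sin b := by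
    linear_combination ((Complex.sin a : ℂ) * Complex.sin b) * hI
  rw [← e]
  module

lemma P_Z_xr (b : ℝ) (x : H) : S.Z (S.xr b x) = S.xr (-b) (S.Z x) := by
  simp only [xr_apply, map_sub, map_smul, S.ZX, Real.cos_neg, Real.sin_neg]
  push_cast
  module

lemma P_Zt_eq (t : ℝ) (x : H) : S.Zt t x = S.xr (2 * t) (S.Z x) := by
  rw [P_Zt_apply, P_Z_xr, neg_neg, P_xr_add]
  congr 1
  ring_nf

lemma P_Zt_Zt (t1 t2 : ℝ) (x : H) : S.Zt t1 (S.Zt t2 x) = S.xr (2 * (t1 - t2)) x := by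
  rw [P_Zt_eq, P_Zt_eq, P_Z_xr, S.ZZ, P_xr_add]
  congr 1
  ring_nf

lemma P_xr_zero (x : H) : S.xr 0 x = x := by
  simp [xr_apply]

lemma P_Zt_sq (t : ℝ) (x : H) : S.Zt t (S.Zt t x) = x := by
  rw [P_Zt_Zt, sub_self, mul_zero, P_xr_zero]

lemma P_pul_apply (t : ℝ) (v : K) (x : H) :
    S.pul t v x = (1 / 2 : ℂ) • (S.W (-v) x + S.W v x)
      + (1 / 2 : ℂ) • (S.W (-v) (S.Zt t x) - S.W v (S.Zt t x)) := by
  change S.xr t (S.zr v (S.xr (-t) x)) = _
  rw [S.zr_apply, P_Zt_apply, S.P_cw_xr t, S.P_cw_xr t, S.P_cw_xr (-t), S.P_cw_xr (-t), S.WZ, S.WZ,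
    S.P_cw_xr (-t), S.P_cw_xr (-t)]
  simp only [map_add, map_sub, map_smul, S.P_xr_xr_neg]

/-- phases of the exchange relation -/
lemma P_comm (a b : K) (x : H) :
    S.W a (S.W b x) = Complex.exp (((-(2 * (inner ℂ a b : ℂ).im) : ℝ) : ℂ) * Complex.I)
      • S.W b (S.W a x) := by
  rw [S.WW, S.WW, smul_smul, ← Complex.exp_add, add_comm b a]
  congr 2
  have : (inner ℂ b a : ℂ).im = -(inner ℂ a b : ℂ).im := by
    rw [← inner_conj_symm b a, conj_im]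
  rw [this]
  push_cast
  ring

lemma P_norm_exp (r : ℝ) : ‖Complex.exp ((r : ℂ) * Complex.I)‖ = 1 :=
  Complex.norm_exp_ofReal_mul_I r

lemma P_norm_exp_sub_one (r : ℝ) : ‖Complex.exp ((r : ℂ) * Complex.I) - 1‖ ≤ |r| := by
  have := Real.norm_exp_I_mul_ofReal_sub_one_le (x := r)
  rwa [mul_comm, Real.norm_eq_abs] at this

/-! ### gauges -/

/-- `m` is a size function for displacements -/
structure PGauge (m : K → ℝ) : Prop where
  nn : ∀ a, ‖a‖ ≤ m a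
  neg : ∀ a, m (-a) = m a

omit [InnerProductSpace ℂ K] in
lemma PGauge.pos {m : K → ℝ} (hm : PGauge m) (a : K) : 0 ≤ m a := (norm_nonneg a).trans (hm.nn a)

/-- second order regularity of a vector relative to a gauge -/
structure PNiceAt (m : K → ℝ) (c : ℝ) (x : H) : Prop where
  n0 : ‖x‖ ≤ c
  n1 : ∀ a, ‖S.W a x - x‖ ≤ c * m a
  n2 : ∀ a b, ‖S.W a (S.W b x - x) - (S.W b x - x)‖ ≤ c * (m a * m b)

variable {S}

lemma PNiceAt.c0 {m : K → ℝ} {c : ℝ} {x : H} (h : S.PNiceAt m c x) : 0 ≤ c :=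
  (norm_nonneg x).trans h.n0

lemma PNiceAt.cw {m : K → ℝ} {c : ℝ} {x : H} (h : S.PNiceAt m c x) {U : H ≃ₗᵢ[ℂ] H}
    (hU : S.PCW U) : S.PNiceAt m c (U x) := by
  refine ⟨?_, ?_, ?_⟩
  · rw [U.norm_map]; exact h.n0
  · intro a
    rw [hU, ← map_sub, U.norm_map]; exact h.n1 a
  · intro a b
    rw [hU, ← map_sub, hU, ← map_sub, U.norm_map]; exact h.n2 a b

lemma PNiceAt.Zt {m : K → ℝ} {c : ℝ} {x : H} (h : S.PNiceAt m c x) (t : ℝ) :
    S.PNiceAt m c (S.Zt t x) := h.cw (S.P_cw_Zt t)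

lemma PNiceAt.add {m : K → ℝ} {c d : ℝ} {x y : H} (h : S.PNiceAt m c x) (h' : S.PNiceAt m d y) :
    S.PNiceAt m (c + d) (x + y) := by
  refine ⟨?_, ?_, ?_⟩
  · exact (norm_add_le _ _).trans (add_le_add h.n0 h'.n0)
  · intro a
    have e : S.W a (x + y) - (x + y) = (S.W a x - x) + (S.W a y - y) := by
      rw [map_add]; abel
    rw [e, add_mul]
    exact (norm_add_le _ _).trans (add_le_add (h.n1 a) (h'.n1 a))
  · intro a b
    have e : S.W a (S.W b (x + y) - (x + y)) - (S.W b (x + y) - (x + y))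
        = (S.W a (S.W b x - x) - (S.W b x - x)) + (S.W a (S.W b y - y) - (S.W b y - y)) := by
      simp only [map_add, map_sub]; abel
    rw [e, add_mul]
    exact (norm_add_le _ _).trans (add_le_add (h.n2 a b) (h'.n2 a b))

lemma P_pul_sub (t : ℝ) (v : K) (x : H) :
    S.pul t v x - x = (1 / 2 : ℂ) • ((S.W (-v) x - x) + (S.W v x - x))
      + (1 / 2 : ℂ) • ((S.W (-v) (S.Zt t x) - S.Zt t x) - (S.W v (S.Zt t x) - S.Zt t x)) := by
  rw [P_pul_apply]
  module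

lemma P_norm_comb (a b c d : H) {r : ℝ} (ha : ‖a‖ ≤ r) (hb : ‖b‖ ≤ r) (hc : ‖c‖ ≤ r)
    (hd : ‖d‖ ≤ r) :
    ‖(1 / 2 : ℂ) • (a + b) + (1 / 2 : ℂ) • (c - d)‖ ≤ 2 * r := by
  have h1 : ‖(1 / 2 : ℂ) • (a + b)‖ ≤ r := by
    rw [norm_smul]
    have : ‖(1 / 2 : ℂ)‖ = 1 / 2 := by norm_num
    rw [this]
    have := norm_add_le a b
    linarith
  have h2 : ‖(1 / 2 : ℂ) • (c - d)‖ ≤ r := by
    rw [norm_smul]
    have : ‖(1 / 2 : ℂ)‖ = 1 / 2 := by norm_num
    rw [this]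
    have := norm_sub_le c d
    linarith
  have := norm_add_le ((1 / 2 : ℂ) • (a + b)) ((1 / 2 : ℂ) • (c - d))
  linarith

lemma PNiceAt.pul_sub {m : K → ℝ} (hm : PGauge m) {c : ℝ} {x : H} (h : S.PNiceAt m c x) (t : ℝ)
    (v : K) : ‖S.pul t v x - x‖ ≤ 2 * (c * m v) := by
  rw [P_pul_sub]
  apply P_norm_comb
  · have := h.n1 (-v); rwa [hm.neg] at this
  · exact h.n1 v
  · have := (h.Zt t).n1 (-v); rwa [hm.neg] at this
  · exact (h.Zt t).n1 v

lemma PNiceAt.dd_pul_sub {m : K → ℝ} (hm : PGauge m) {c : ℝ} {x : H} (h : S.PNiceAt m c x) (t : ℝ)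
    (v a : K) : ‖S.W a (S.pul t v x - x) - (S.pul t v x - x)‖ ≤ 2 * (c * (m a * m v)) := by
  have e : S.W a (S.pul t v x - x) - (S.pul t v x - x)
      = (1 / 2 : ℂ) • ((S.W a (S.W (-v) x - x) - (S.W (-v) x - x))
        + (S.W a (S.W v x - x) - (S.W v x - x)))
      + (1 / 2 : ℂ) • ((S.W a (S.W (-v) (S.Zt t x) - S.Zt t x) - (S.W (-v) (S.Zt t x) - S.Zt t x))
        - (S.W a (S.W v (S.Zt t x) - S.Zt t x) - (S.W v (S.Zt t x) - S.Zt t x))) := by
    rw [P_pul_sub]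
    simp only [map_add, map_sub, map_smul]
    module
  rw [e]
  apply P_norm_comb
  · have := h.n2 a (-v); rwa [hm.neg] at this
  · exact h.n2 a v
  · have := (h.Zt t).n2 a (-v); rwa [hm.neg] at this
  · exact (h.Zt t).n2 a v

lemma PNiceAt.pul_pul {m : K → ℝ} (hm : PGauge m) {c : ℝ} {x : H} (h : S.PNiceAt m c x) (t t' : ℝ)
    (v v' : K) : ‖S.pul t' v' (S.pul t v x - x) - (S.pul t v x - x)‖
      ≤ 4 * (c * (m v' * m v)) := by
  have h1 : ∀ a, ‖S.W a (S.Zt t' (S.pul t v x - x)) - S.Zt t' (S.pul t v x - x)‖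
      ≤ 2 * (c * (m a * m v)) := by
    intro a
    rw [S.P_cw_Zt t', ← map_sub, (S.Zt t').norm_map]
    exact h.dd_pul_sub hm t v a
  rw [P_pul_sub]
  have := P_norm_comb (r := 2 * (c * (m v' * m v)))
    (S.W (-v') (S.pul t v x - x) - (S.pul t v x - x))
    (S.W v' (S.pul t v x - x) - (S.pul t v x - x))
    (S.W (-v') (S.Zt t' (S.pul t v x - x)) - S.Zt t' (S.pul t v x - x))
    (S.W v' (S.Zt t' (S.pul t v x - x)) - S.Zt t' (S.pul t v x - x))
    (by have := h.dd_pul_sub hm t v (-v'); rwa [hm.neg] at this)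
    (h.dd_pul_sub hm t v v')
    (by have := h1 (-v'); rwa [hm.neg] at this) (h1 v')
  linarith


/-- first order cancellation of two opposite pulses -/
lemma PNiceAt.pul_pair {m : K → ℝ} (hm : PGauge m) {c : ℝ} {x : H} (h : S.PNiceAt m c x) (t : ℝ)
    (v v' : K) : ‖(S.pul t v x - x) + (S.pul t (-v') x - x)‖
      ≤ c * (m v * m v) + c * (m v' * m v') + c * (‖v‖ * ‖v' - v‖) + c * m (v' - v) := by
  have hsec : ∀ w : K, (S.W (-w) x - x) + (S.W w x - x)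
      = -(S.W (-w) (S.W w x - x) - (S.W w x - x)) := by
    intro w
    rw [map_sub, S.W_neg_W]
    abel
  have hsec' : ∀ w : K, ‖(S.W (-w) x - x) + (S.W w x - x)‖ ≤ c * (m w * m w) := by
    intro w
    rw [hsec, norm_neg]
    have := h.n2 (-w) w
    rwa [hm.neg] at this
  set y := S.Zt t x with hy
  have hY : S.PNiceAt m c y := h.Zt t
  -- W (w + k) y - W w y
  have hdiff : ∀ w k : K, ‖S.W (w + k) y - S.W w y‖ ≤ c * (‖w‖ * ‖k‖) + c * m k := by
    intro w k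
    have e1 : S.W w (S.W k y) = Complex.exp (((-(inner ℂ w k : ℂ).im : ℝ) : ℂ) * Complex.I)
        • S.W (w + k) y := by
      rw [S.WW]
      congr 2
      push_cast
      ring
    have e2 : S.W (w + k) y - S.W w y
        = S.W w (S.W k y - y)
          - (Complex.exp (((-(inner ℂ w k : ℂ).im : ℝ) : ℂ) * Complex.I) - 1) • S.W (w + k) y := by
      rw [map_sub, e1]
      module
    rw [e2]
    refine (norm_sub_le _ _).trans ?_
    rw [(S.W w).norm_map, norm_smul, (S.W (w + k)).norm_map]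
    have h1 := hY.n1 k
    have h2 := P_norm_exp_sub_one (-(inner ℂ w k : ℂ).im)
    have h3 : |-(inner ℂ w k : ℂ).im| ≤ ‖w‖ * ‖k‖ := by
      rw [abs_neg]
      exact (Complex.abs_im_le_norm _).trans (norm_inner_le_norm w k)
    have h4 := hY.n0
    have h5 : ‖Complex.exp (((-(inner ℂ w k : ℂ).im : ℝ) : ℂ) * Complex.I) - 1‖ * ‖y‖
        ≤ (‖w‖ * ‖k‖) * c :=
      mul_le_mul (h2.trans h3) h4 (norm_nonneg _) (by positivity)
    linarith
  have e : (S.pul t v x - x) + (S.pul t (-v') x - x)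
      = (1 / 2 : ℂ) • (((S.W (-v) x - x) + (S.W v x - x)) + ((S.W (-v') x - x) + (S.W v' x - x)))
        + (1 / 2 : ℂ) • ((S.W (v + (v' - v)) y - S.W v y)
          - (S.W (-v + (-(v' - v))) y - S.W (-v) y)) := by
    rw [P_pul_sub, P_pul_sub, neg_neg, ← hy]
    have a1 : v + (v' - v) = v' := by abel
    have a2 : -v + (-(v' - v)) = -v' := by abel
    rw [a1, a2]
    module
  rw [e]
  have half : ‖(1 / 2 : ℂ)‖ = 1 / 2 := by norm_num
  refine (norm_add_le _ _).trans ?_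
  rw [norm_smul, norm_smul, half]
  have n1 := norm_add_le ((S.W (-v) x - x) + (S.W v x - x)) ((S.W (-v') x - x) + (S.W v' x - x))
  have n2 := norm_sub_le (S.W (v + (v' - v)) y - S.W v y) (S.W (-v + (-(v' - v))) y - S.W (-v) y)
  have n3 := hsec' v
  have n4 := hsec' v'
  have n5 := hdiff v (v' - v)
  have n6 := hdiff (-v) (-(v' - v))
  rw [norm_neg, norm_neg, hm.neg] at n6
  have n7 : 0 ≤ c * (m v * m v) := mul_nonneg h.c0 (mul_self_nonneg _)
  have n8 : 0 ≤ c * (m v' * m v') := mul_nonneg h.c0 (mul_self_nonneg _)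
  linarith

/-- the four-pulse word with small sizes -/
lemma PNiceAt.four {m : K → ℝ} (hm : PGauge m) {c : ℝ} {z : H} (h : S.PNiceAt m c z)
    (t1 t2 : ℝ) (v1 v2 v3 v4 : K) {r : ℝ} (hr : 0 ≤ r)
    (h1 : m v1 ≤ r) (h2 : m v2 ≤ r) (h3 : m v3 ≤ r) (h4 : m v4 ≤ r)
    (h31 : m (v3 - v1) ≤ r ^ 2) (h42 : m (v4 - v2) ≤ r ^ 2) (hr1 : r ≤ 1) :
    ‖S.pul t1 (-v4) (S.pul t2 (-v3) (S.pul t1 v2 (S.pul t2 v1 z))) - z‖
      ≤ 32 * c * r ^ 2 := by
  have hc := h.c0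
  set p1 := S.pul t2 v1
  set p2 := S.pul t1 v2
  set p3 := S.pul t2 (-v3)
  set p4 := S.pul t1 (-v4)
  have key : p4 (p3 (p2 (p1 z))) - z
      = ((p1 z - z) + (p3 z - z)) + ((p2 z - z) + (p4 z - z))
        + (p4 (p3 z - z) - (p3 z - z)) + (p4 (p2 z - z) - (p2 z - z))
        + (p4 (p1 z - z) - (p1 z - z)) + p4 (p3 (p2 z - z) - (p2 z - z))
        + p4 (p3 (p1 z - z) - (p1 z - z)) + p4 (p3 (p2 (p1 z - z) - (p1 z - z))) := by
    simp only [map_sub]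
    abel
  have mm : ∀ {a b : ℝ}, 0 ≤ a → 0 ≤ b → a ≤ r → b ≤ r → a * b ≤ r ^ 2 := by
    intro a b ha hb ha' hb'
    calc a * b ≤ r * r := mul_le_mul ha' hb' hb hr
      _ = r ^ 2 := by ring
  have m1 := hm.pos v1
  have m2 := hm.pos v2
  have m3 := hm.pos v3
  have m4 := hm.pos v4
  have q : ∀ {a : ℝ}, a ≤ r ^ 2 → 4 * (c * a) ≤ 4 * c * r ^ 2 := by
    intro a ha
    have := mul_le_mul_of_nonneg_left ha hc
    linarith
  have q43 : ‖p4 (p3 z - z) - (p3 z - z)‖ ≤ 4 * c * r ^ 2 := by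
    have := h.pul_pul hm t2 t1 (-v3) (-v4)
    rw [hm.neg, hm.neg] at this
    exact this.trans (q (mm m4 m3 h4 h3))
  have q42 : ‖p4 (p2 z - z) - (p2 z - z)‖ ≤ 4 * c * r ^ 2 := by
    have := h.pul_pul hm t1 t1 v2 (-v4)
    rw [hm.neg] at this
    exact this.trans (q (mm m4 m2 h4 h2))
  have q41 : ‖p4 (p1 z - z) - (p1 z - z)‖ ≤ 4 * c * r ^ 2 := by
    have := h.pul_pul hm t2 t1 v1 (-v4)
    rw [hm.neg] at this
    exact this.trans (q (mm m4 m1 h4 h1))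
  have q32 : ‖p4 (p3 (p2 z - z) - (p2 z - z))‖ ≤ 4 * c * r ^ 2 := by
    have := h.pul_pul hm t1 t2 v2 (-v3)
    rw [hm.neg] at this
    rw [p4.norm_map]
    exact this.trans (q (mm m3 m2 h3 h2))
  have q31 : ‖p4 (p3 (p1 z - z) - (p1 z - z))‖ ≤ 4 * c * r ^ 2 := by
    have := h.pul_pul hm t2 t2 v1 (-v3)
    rw [hm.neg] at this
    rw [p4.norm_map]
    exact this.trans (q (mm m3 m1 h3 h1))
  have q21 : ‖p4 (p3 (p2 (p1 z - z) - (p1 z - z)))‖ ≤ 4 * c * r ^ 2 := by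
    have := h.pul_pul hm t2 t1 v1 v2
    rw [p4.norm_map, p3.norm_map]
    exact this.trans (q (mm m2 m1 h2 h1))
  have pair : ∀ (t : ℝ) (v v' : K), m v ≤ r → m v' ≤ r → m (v' - v) ≤ r ^ 2 →
      ‖(S.pul t v z - z) + (S.pul t (-v') z - z)‖ ≤ 4 * c * r ^ 2 := by
    intro t v v' hv hv' hvv
    have h0 := h.pul_pair hm t v v'
    have g1 : c * (m v * m v) ≤ c * r ^ 2 :=
      mul_le_mul_of_nonneg_left (mm (hm.pos v) (hm.pos v) hv hv) hc
    have g2 : c * (m v' * m v') ≤ c * r ^ 2 :=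
      mul_le_mul_of_nonneg_left (mm (hm.pos v') (hm.pos v') hv' hv') hc
    have g3 : c * (‖v‖ * ‖v' - v‖) ≤ c * r ^ 2 := by
      refine mul_le_mul_of_nonneg_left ?_ hc
      have e1 : ‖v‖ ≤ 1 := ((hm.nn v).trans hv).trans hr1
      have e2 : ‖v' - v‖ ≤ r ^ 2 := (hm.nn _).trans hvv
      calc ‖v‖ * ‖v' - v‖ ≤ 1 * ‖v' - v‖ := mul_le_mul_of_nonneg_right e1 (norm_nonneg _)
        _ ≤ r ^ 2 := by rw [one_mul]; exact e2
    have g4 : c * m (v' - v) ≤ c * r ^ 2 := mul_le_mul_of_nonneg_left hvv hc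
    linarith
  have p13 : ‖(p1 z - z) + (p3 z - z)‖ ≤ 4 * c * r ^ 2 := pair t2 v1 v3 h1 h3 h31
  have p24 : ‖(p2 z - z) + (p4 z - z)‖ ≤ 4 * c * r ^ 2 := pair t1 v2 v4 h2 h4 h42
  rw [key]
  have tri : ∀ (a b d e f g h k : H), ‖a + b + d + e + f + g + h + k‖
      ≤ ‖a‖ + ‖b‖ + ‖d‖ + ‖e‖ + ‖f‖ + ‖g‖ + ‖h‖ + ‖k‖ := by
    intro a b d e f g h k
    refine (norm_add_le _ _).trans (add_le_add_left ?_ _)
    refine (norm_add_le _ _).trans (add_le_add_left ?_ _)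
    refine (norm_add_le _ _).trans (add_le_add_left ?_ _)
    refine (norm_add_le _ _).trans (add_le_add_left ?_ _)
    refine (norm_add_le _ _).trans (add_le_add_left ?_ _)
    refine (norm_add_le _ _).trans (add_le_add_left ?_ _)
    exact norm_add_le _ _
  refine (tri _ _ _ _ _ _ _ _).trans ?_
  linarith

/-! ### frames -/

/-- gauge of the frame `b` -/
noncomputable def P_fg (b : K) (a : K) : ℝ := ‖a‖ + 2 * |(inner ℂ a b : ℂ).im|

lemma P_gauge_fg (b : K) : PGauge (P_fg b) := by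
  refine ⟨fun a => ?_, fun a => ?_⟩
  · unfold P_fg
    have := abs_nonneg (inner ℂ a b : ℂ).im
    linarith
  · unfold P_fg
    rw [norm_neg, inner_neg_left, Complex.neg_im, abs_neg]

lemma P_mu_nonneg (b v : K) : 0 ≤ mu b v := by
  unfold mu; positivity

lemma P_fg_le_mu (b a : K) : P_fg b a ≤ 2 * mu b a := by
  unfold P_fg mu
  have := norm_nonneg a
  linarith

lemma P_mu_le_fg (b a : K) : mu b a ≤ P_fg b a := by
  unfold P_fg mu
  have := abs_nonneg (inner ℂ a b : ℂ).im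
  linarith

lemma P_mu_neg_left (b v : K) : mu (-b) v = mu b v := by
  unfold mu
  rw [inner_neg_right, Complex.neg_im, abs_neg]

lemma P_fg_neg_left (b v : K) : P_fg (-b) v = P_fg b v := by
  unfold P_fg
  rw [inner_neg_right, Complex.neg_im, abs_neg]

lemma P_fg_le (b a : K) : P_fg b a ≤ (1 + 2 * ‖b‖) * ‖a‖ := by
  unfold P_fg
  have h := (Complex.abs_im_le_norm (inner ℂ a b : ℂ)).trans (norm_inner_le_norm a b)
  nlinarith

/-- one difference in a frame -/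
lemma P_dd_frame (a b : K) (x : H) :
    S.W a (S.W b x) - S.W b x
      = S.W b (Complex.exp (((-(2 * (inner ℂ a b : ℂ).im) : ℝ) : ℂ) * Complex.I) • (S.W a x - x)
        + (Complex.exp (((-(2 * (inner ℂ a b : ℂ).im) : ℝ) : ℂ) * Complex.I) - 1) • x) := by
  rw [P_comm]
  simp only [map_add, map_smul, map_sub]
  module

lemma P_phase_le (a b : K) :
    ‖Complex.exp (((-(2 * (inner ℂ a b : ℂ).im) : ℝ) : ℂ) * Complex.I) - 1‖
      ≤ 2 * |(inner ℂ a b : ℂ).im| := by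
  refine (P_norm_exp_sub_one _).trans ?_
  rw [abs_neg, abs_mul, abs_two]

lemma Nice.P_frame {c : ℝ} {x : H} (h : S.Nice c x) (b : K) : S.PNiceAt (P_fg b) c (S.W b x) := by
  have hc : 0 ≤ c := (norm_nonneg x).trans h.m0
  refine ⟨?_, ?_, ?_⟩
  · rw [(S.W b).norm_map]; exact h.m0
  · intro a
    rw [P_dd_frame, (S.W b).norm_map]
    refine (norm_add_le _ _).trans ?_
    rw [norm_smul, norm_smul, P_norm_exp, one_mul]
    have h1 := h.m1 a
    have h2 : ‖Complex.exp (((-(2 * (inner ℂ a b : ℂ).im) : ℝ) : ℂ) * Complex.I) - 1‖ * ‖x‖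
        ≤ (2 * |(inner ℂ a b : ℂ).im|) * c :=
      mul_le_mul (P_phase_le a b) h.m0 (norm_nonneg _) (by positivity)
    unfold P_fg
    linarith
  · intro a a'
    set e := Complex.exp (((-(2 * (inner ℂ a b : ℂ).im) : ℝ) : ℂ) * Complex.I) with he
    set e' := Complex.exp (((-(2 * (inner ℂ a' b : ℂ).im) : ℝ) : ℂ) * Complex.I) with he'
    have k1 : S.W a (S.W a' (S.W b x) - S.W b x) - (S.W a' (S.W b x) - S.W b x)
        = S.W b ((e * e') • (S.W a (S.W a' x - x) - (S.W a' x - x))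
          + (e * (e' - 1)) • (S.W a x - x) + ((e - 1) * e') • (S.W a' x - x)
          + ((e - 1) * (e' - 1)) • x) := by
      rw [P_dd_frame a' b x, P_dd_frame a b, ← he, ← he']
      congr 1
      simp only [map_add, map_smul, map_sub]
      module
    have ne : ‖e‖ = 1 := P_norm_exp _
    have ne' : ‖e'‖ = 1 := P_norm_exp _
    have f : ‖e - 1‖ ≤ 2 * |(inner ℂ a b : ℂ).im| := P_phase_le a b
    have f' : ‖e' - 1‖ ≤ 2 * |(inner ℂ a' b : ℂ).im| := P_phase_le a' b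
    rw [k1, (S.W b).norm_map]
    have n1 : ‖(e * e') • (S.W a (S.W a' x - x) - (S.W a' x - x))‖ ≤ c * (‖a‖ * ‖a'‖) := by
      rw [norm_smul, norm_mul, ne, ne', one_mul, one_mul]
      exact h.m2 a a'
    have n2 : ‖(e * (e' - 1)) • (S.W a x - x)‖ ≤ (2 * |(inner ℂ a' b : ℂ).im|) * (c * ‖a‖) := by
      rw [norm_smul, norm_mul, ne, one_mul]
      exact mul_le_mul f' (h.m1 a) (norm_nonneg _) (by positivity)
    have n3 : ‖((e - 1) * e') • (S.W a' x - x)‖ ≤ (2 * |(inner ℂ a b : ℂ).im|) * (c * ‖a'‖) := by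
      rw [norm_smul, norm_mul, ne', mul_one]
      exact mul_le_mul f (h.m1 a') (norm_nonneg _) (by positivity)
    have n4 : ‖((e - 1) * (e' - 1)) • x‖
        ≤ ((2 * |(inner ℂ a b : ℂ).im|) * (2 * |(inner ℂ a' b : ℂ).im|)) * c := by
      rw [norm_smul, norm_mul]
      exact mul_le_mul (mul_le_mul f f' (norm_nonneg _) (by positivity)) h.m0 (norm_nonneg _)
        (by positivity)
    have n5 := norm_add₄_le (a := (e * e') • (S.W a (S.W a' x - x) - (S.W a' x - x)))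
      (b := (e * (e' - 1)) • (S.W a x - x)) (c := ((e - 1) * e') • (S.W a' x - x))
      (d := ((e - 1) * (e' - 1)) • x)
    refine n5.trans ?_
    unfold P_fg
    have : c * ((‖a‖ + 2 * |(inner ℂ a b : ℂ).im|) * (‖a'‖ + 2 * |(inner ℂ a' b : ℂ).im|))
        = c * (‖a‖ * ‖a'‖) + (2 * |(inner ℂ a' b : ℂ).im|) * (c * ‖a‖)
          + (2 * |(inner ℂ a b : ℂ).im|) * (c * ‖a'‖)
          + ((2 * |(inner ℂ a b : ℂ).im|) * (2 * |(inner ℂ a' b : ℂ).im|)) * c := by ring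
    rw [this]
    linarith

lemma PNiceAt.mono {m m' : K → ℝ} {c : ℝ} {x : H} (h : S.PNiceAt m c x)
    (h0 : ∀ a, 0 ≤ m a) (hm : ∀ a, m a ≤ m' a) : S.PNiceAt m' c x := by
  have hc := h.c0
  refine ⟨h.n0, fun a => (h.n1 a).trans (mul_le_mul_of_nonneg_left (hm a) hc), fun a b => ?_⟩
  exact (h.n2 a b).trans (mul_le_mul_of_nonneg_left
    (mul_le_mul (hm a) (hm b) (h0 b) ((h0 a).trans (hm a))) hc)

lemma Frm.P_niceAt {b : K} {c : ℝ} {z : H} (h : S.Frm b c z) : S.PNiceAt (P_fg b) (2 * c) z := by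
  obtain ⟨x, y, hx, hy, rfl⟩ := h
  have h1 := hx.P_frame b
  have h2 := hy.P_frame (-b)
  have h3 : S.PNiceAt (P_fg b) c (S.W (-b) y) :=
    h2.mono (fun a => (P_gauge_fg (-b)).pos a) (fun a => (P_fg_neg_left b a).le)
  have := h1.add h3
  rwa [← two_mul] at this

lemma Frm.P_c0 {b : K} {c : ℝ} {z : H} (h : S.Frm b c z) : 0 ≤ c := by
  obtain ⟨x, y, hx, hy, rfl⟩ := h
  exact (norm_nonneg x).trans hx.m0

/-- niceness of a displaced vector -/
lemma Nice.P_weyl {c : ℝ} {x : H} (h : S.Nice c x) (b : K) :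
    S.Nice ((1 + 2 * ‖b‖) ^ 2 * c) (S.W b x) := by
  have hc : 0 ≤ c := (norm_nonneg x).trans h.m0
  have h1 := h.P_frame b
  have hb : 1 ≤ (1 + 2 * ‖b‖) := by have := norm_nonneg b; linarith
  have hb2 : 1 ≤ (1 + 2 * ‖b‖) ^ 2 := one_le_pow₀ hb
  have hb3 : (1 + 2 * ‖b‖) ≤ (1 + 2 * ‖b‖) ^ 2 := le_self_pow₀ hb (by norm_num)
  refine ⟨?_, ?_, ?_⟩
  · refine h1.n0.trans ?_
    exact le_mul_of_one_le_left hc hb2
  · intro a
    refine (h1.n1 a).trans ?_
    calc c * P_fg b a ≤ c * ((1 + 2 * ‖b‖) * ‖a‖) := mul_le_mul_of_nonneg_left (P_fg_le b a) hc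
      _ = (1 + 2 * ‖b‖) * (c * ‖a‖) := by ring
      _ ≤ (1 + 2 * ‖b‖) ^ 2 * (c * ‖a‖) :=
          mul_le_mul_of_nonneg_right hb3 (by positivity)
      _ = _ := by ring
  · intro a a'
    refine (h1.n2 a a').trans ?_
    calc c * (P_fg b a * P_fg b a')
        ≤ c * (((1 + 2 * ‖b‖) * ‖a‖) * ((1 + 2 * ‖b‖) * ‖a'‖)) :=
          mul_le_mul_of_nonneg_left (mul_le_mul (P_fg_le b a) (P_fg_le b a')
            ((P_gauge_fg b).pos a') (by positivity)) hc
      _ = _ := by ring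

lemma Nice.P_mono {c d : ℝ} {x : H} (h : S.Nice c x) (hcd : c ≤ d) : S.Nice d x :=
  ⟨h.m0.trans hcd, fun a => (h.m1 a).trans (mul_le_mul_of_nonneg_right hcd (norm_nonneg a)),
    fun a b => (h.m2 a b).trans (mul_le_mul_of_nonneg_right hcd (by positivity))⟩

lemma Nice.P_add {c d : ℝ} {x y : H} (hx : S.Nice c x) (hy : S.Nice d y) :
    S.Nice (c + d) (x + y) := by
  refine ⟨(norm_add_le x y).trans (add_le_add hx.m0 hy.m0), fun a => ?_, fun a b => ?_⟩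
  · have e : S.W a (x + y) - (x + y) = (S.W a x - x) + (S.W a y - y) := by
      rw [map_add]; abel
    rw [e, add_mul]
    exact (norm_add_le _ _).trans (add_le_add (hx.m1 a) (hy.m1 a))
  · have e : S.W a (S.W b (x + y) - (x + y)) - (S.W b (x + y) - (x + y))
        = (S.W a (S.W b x - x) - (S.W b x - x)) + (S.W a (S.W b y - y) - (S.W b y - y)) := by
      simp only [map_add, map_sub]; abel
    rw [e, add_mul]
    exact (norm_add_le _ _).trans (add_le_add (hx.m2 a b) (hy.m2 a b))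

lemma Nice.P_smul {c : ℝ} {x : H} (hx : S.Nice c x) (k : ℂ) : S.Nice (‖k‖ * c) (k • x) := by
  refine ⟨?_, fun a => ?_, fun a b => ?_⟩
  · rw [norm_smul]
    exact mul_le_mul_of_nonneg_left hx.m0 (norm_nonneg k)
  · have e : S.W a (k • x) - k • x = k • (S.W a x - x) := by
      rw [map_smul, smul_sub]
    rw [e, norm_smul, mul_assoc]
    exact mul_le_mul_of_nonneg_left (hx.m1 a) (norm_nonneg k)
  · have e : S.W a (S.W b (k • x) - k • x) - (S.W b (k • x) - k • x)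
        = k • (S.W a (S.W b x - x) - (S.W b x - x)) := by
      simp only [map_smul, map_sub, smul_sub]
    rw [e, norm_smul, mul_assoc]
    exact mul_le_mul_of_nonneg_left (hx.m2 a b) (norm_nonneg k)

lemma Nice.P_cw {c : ℝ} {x : H} (h : S.Nice c x) {U : H ≃ₗᵢ[ℂ] H} (hU : S.PCW U) :
    S.Nice c (U x) := by
  refine ⟨?_, ?_, ?_⟩
  · rw [U.norm_map]; exact h.m0
  · intro a
    rw [hU, ← map_sub, U.norm_map]; exact h.m1 a
  · intro a b
    rw [hU, ← map_sub, hU, ← map_sub, U.norm_map]; exact h.m2 a b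

/-- phase of `W v` in the frame `b` -/
noncomputable def P_ph (v b : K) : ℂ :=
  Complex.exp (((-(2 * (inner ℂ v b : ℂ).im) : ℝ) : ℂ) * Complex.I)

lemma P_norm_ph (v b : K) : ‖P_ph v b‖ = 1 := P_norm_exp _

lemma P_comm' (a b : K) (x : H) : S.W a (S.W b x) = S.W b (P_ph a b • S.W a x) := by
  rw [P_comm, map_smul]
  rfl

/-- combination of four displaced nice vectors -/
lemma P_nice4 {c : ℝ} {x y : H} (hx : S.Nice c x) (hy : S.Nice c y) {v : K} (hv : ‖v‖ ≤ 1)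
    (k1 k2 k3 k4 : ℂ) (h1 : ‖k1‖ = 1) (h2 : ‖k2‖ = 1) (h3 : ‖k3‖ = 1) (h4 : ‖k4‖ = 1) :
    S.Nice (18 * c) ((1 / 2 : ℂ) • (k1 • S.W (-v) x + k2 • S.W v x)
      + (1 / 2 : ℂ) • (k3 • S.W (-v) y + k4 • S.W v y)) := by
  have hc : 0 ≤ c := (norm_nonneg x).trans hx.m0
  have nine : ∀ (w : K) (u : H) (k : ℂ), S.Nice c u → ‖w‖ ≤ 1 → ‖k‖ = 1 →
      S.Nice (9 * c) (k • S.W w u) := by
    intro w u k hu hw hk
    have := (hu.P_weyl w).P_smul k
    rw [hk, one_mul] at this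
    refine this.P_mono ?_
    refine mul_le_mul_of_nonneg_right ?_ hc
    have : 1 + 2 * ‖w‖ ≤ 3 := by linarith
    have h0 : 0 ≤ 1 + 2 * ‖w‖ := by positivity
    nlinarith
  have hv' : ‖-v‖ ≤ 1 := by rwa [norm_neg]
  have a1 := ((nine (-v) x k1 hx hv' h1).P_add (nine v x k2 hx hv h2)).P_smul (1 / 2 : ℂ)
  have a2 := ((nine (-v) y k3 hy hv' h3).P_add (nine v y k4 hy hv h4)).P_smul (1 / 2 : ℂ)
  have := a1.P_add a2
  refine this.P_mono ?_
  have half : ‖(1 / 2 : ℂ)‖ = 1 / 2 := by norm_num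
  rw [half]
  linarith

lemma P_nice2 {c : ℝ} {x : H} (hx : S.Nice c x) {v : K} (hv : ‖v‖ ≤ 1)
    (k1 k2 : ℂ) (h1 : ‖k1‖ = 1) (h2 : ‖k2‖ = 1) :
    S.Nice (18 * c) (k1 • S.W (-v) x + k2 • S.W v x) := by
  have := P_nice4 hx hx hv k1 k2 k1 k2 h1 h2 h1 h2
  convert this using 1
  module

/-! ### pulses in a frame -/

/-- the difference operator in a frame -/
lemma P_pm_frame (v b : K) (x : H) (k : ℂ) :
    S.W (-v) (S.W b x) + k • S.W v (S.W b x)
      = S.W b (P_ph (-v) b • S.W (-v) x + (k * P_ph v b) • S.W v x) := by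
  rw [P_comm' (-v), P_comm' v, map_add]
  simp only [map_smul, smul_smul]

lemma P_pul_frame0 (t : ℝ) (v b : K) (x : H) :
    S.pul t v (S.W b x) = S.W b ((1 / 2 : ℂ) • (P_ph (-v) b • S.W (-v) x + P_ph v b • S.W v x)
      + (1 / 2 : ℂ) • (P_ph (-v) b • S.W (-v) (S.Zt t x) + (-P_ph v b) • S.W v (S.Zt t x))) := by
  rw [P_pul_apply, ← S.P_cw_Zt t, P_comm' (-v), P_comm' v, P_comm' (-v), P_comm' v]
  simp only [map_add, map_smul, neg_smul, map_neg, smul_add, smul_sub, smul_neg]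
  module

lemma P_frm_pul {c : ℝ} {z : H} {b : K} (t : ℝ) {v : K} (hz : S.Frm b c z) (hv : ‖v‖ ≤ 1) :
    S.Frm b (18 * c) (S.pul t v z) := by
  obtain ⟨x, y, hx, hy, rfl⟩ := hz
  refine ⟨_, _, P_nice4 (y := S.Zt t x) hx (hx.P_cw (S.P_cw_Zt t)) hv (P_ph (-v) b) (P_ph v b)
    (P_ph (-v) b) (-P_ph v b) (P_norm_ph _ _) (P_norm_ph _ _) (P_norm_ph _ _)
    (by rw [norm_neg]; exact P_norm_ph _ _),
    P_nice4 (y := S.Zt t y) hy (hy.P_cw (S.P_cw_Zt t)) hv (P_ph (-v) (-b)) (P_ph v (-b))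
    (P_ph (-v) (-b)) (-P_ph v (-b)) (P_norm_ph _ _) (P_norm_ph _ _) (P_norm_ph _ _)
    (by rw [norm_neg]; exact P_norm_ph _ _), ?_⟩
  rw [map_add, P_pul_frame0, P_pul_frame0]

lemma P_frm_d0 {c : ℝ} {z : H} {b : K} {v : K} (hz : S.Frm b c z) (hv : ‖v‖ ≤ 1) :
    S.Frm b (18 * c) (S.W (-v) z - S.W v z) := by
  obtain ⟨x, y, hx, hy, rfl⟩ := hz
  refine ⟨_, _, P_nice2 hx hv (P_ph (-v) b) ((-1) * P_ph v b) (P_norm_ph _ _)
    (by rw [norm_mul, P_norm_ph]; norm_num),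
    P_nice2 hy hv (P_ph (-v) (-b)) ((-1) * P_ph v (-b)) (P_norm_ph _ _)
    (by rw [norm_mul, P_norm_ph]; norm_num), ?_⟩
  rw [← P_pm_frame, ← P_pm_frame]
  simp only [map_add]
  module

/-- spin part of a phase rotation -/
lemma P_norm_rot (t : ℝ) (α β : ℝ) (x : H) :
    ‖(α : ℂ) • x + (Complex.I * (β : ℂ)) • S.Zt t x‖ ^ 2 = (α ^ 2 + β ^ 2) * ‖x‖ ^ 2 := by
  have hsa : inner ℂ (S.Zt t x) x = inner ℂ x (S.Zt t x) := by
    have := (S.Zt t).inner_map_map (S.Zt t x) x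
    rw [P_Zt_sq] at this
    exact this.symm
  have hre : (inner ℂ x (S.Zt t x) : ℂ).im = 0 := by
    have h := inner_conj_symm (𝕜 := ℂ) x (S.Zt t x)
    rw [hsa] at h
    exact Complex.conj_eq_iff_im.1 h
  have h := @norm_add_sq ℂ H _ _ _ ((α : ℂ) • x) ((Complex.I * (β : ℂ)) • S.Zt t x)
  rw [h, inner_smul_left, inner_smul_right, norm_smul, norm_smul, (S.Zt t).norm_map]
  have e1 : RCLike.re ((starRingEnd ℂ) (α : ℂ) * (Complex.I * (β : ℂ) * inner ℂ x (S.Zt t x))) = 0 := by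
    rw [RCLike.re_to_complex]
    simp only [Complex.conj_ofReal, Complex.mul_re, Complex.mul_im, Complex.ofReal_re,
      Complex.ofReal_im, Complex.I_re, Complex.I_im, hre]
    ring
  rw [e1, norm_mul, Complex.norm_I, Complex.norm_real, Complex.norm_real, Real.norm_eq_abs,
    Real.norm_eq_abs, one_mul, mul_pow, mul_pow, sq_abs, sq_abs]
  ring

lemma P_pul_frame (t : ℝ) (v b : K) (x : H) :
    S.pul t v (S.W b x) = S.W b ((Real.cos (2 * (inner ℂ v b : ℂ).im) : ℂ) • S.pul t v x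
      + (Complex.I * (Real.sin (2 * (inner ℂ v b : ℂ).im) : ℂ)) • S.Zt t (S.pul t v x)) := by
  rw [P_pul_frame0]
  congr 1
  set θ := (inner ℂ v b : ℂ).im with hθ
  have e1 : P_ph (-v) b = Real.cos (2 * θ) + Complex.I * Real.sin (2 * θ) := by
    unfold P_ph
    rw [inner_neg_left, Complex.neg_im, ← hθ]
    rw [show (-(2 * -θ) : ℝ) = 2 * θ by ring, Complex.exp_mul_I]
    push_cast
    ring
  have e2 : P_ph v b = Real.cos (2 * θ) - Complex.I * Real.sin (2 * θ) := by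
    unfold P_ph
    rw [← hθ, Complex.exp_mul_I]
    push_cast
    rw [Complex.cos_neg, Complex.sin_neg]
    ring
  have zw : ∀ (a : K) (y : H), S.Zt t (S.W a y) = S.W a (S.Zt t y) :=
    fun a y => (S.P_cw_Zt t a y).symm
  rw [e1, e2, P_pul_apply]
  simp only [map_add, map_sub, map_smul, zw, P_Zt_sq]
  module

/-- one pulse on a displaced nice vector -/
lemma P_pul_W {c : ℝ} {x : H} (hx : S.Nice c x) (t : ℝ) (v b : K) :
    ‖S.pul t v (S.W b x) - S.W b x‖ ≤ 2 * c * mu b v := by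
  have hx0 : S.PNiceAt (fun a : K => ‖a‖) c x := ⟨hx.m0, hx.m1, hx.m2⟩
  have hg : PGauge (fun a : K => ‖a‖) := ⟨fun a => le_refl _, fun a => norm_neg a⟩
  have h1 := hx0.pul_sub hg t v
  set θ := (inner ℂ v b : ℂ).im with hθ
  rw [P_pul_frame, ← map_sub, (S.W b).norm_map, ← hθ]
  have e : (Real.cos (2 * θ) : ℂ) • S.pul t v x + (Complex.I * (Real.sin (2 * θ) : ℂ))
        • S.Zt t (S.pul t v x) - x
      = ((Real.cos (2 * θ) : ℂ) • (S.pul t v x - x) + (Complex.I * (Real.sin (2 * θ) : ℂ))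
        • S.Zt t (S.pul t v x - x))
      + (((Real.cos (2 * θ) - 1 : ℝ) : ℂ) • x + (Complex.I * (Real.sin (2 * θ) : ℂ))
        • S.Zt t x) := by
    simp only [map_sub]
    push_cast
    module
  rw [e]
  refine (norm_add_le _ _).trans ?_
  have a1 : ‖(Real.cos (2 * θ) : ℂ) • (S.pul t v x - x) + (Complex.I * (Real.sin (2 * θ) : ℂ))
        • S.Zt t (S.pul t v x - x)‖ ≤ 2 * (c * ‖v‖) := by
    refine le_trans (le_of_eq ?_) h1
    have := P_norm_rot (S := S) t (Real.cos (2 * θ)) (Real.sin (2 * θ)) (S.pul t v x - x)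
    rw [Real.cos_sq_add_sin_sq, one_mul] at this
    exact (sq_eq_sq₀ (norm_nonneg _) (norm_nonneg _)).1 this
  have a2 : ‖((Real.cos (2 * θ) - 1 : ℝ) : ℂ) • x + (Complex.I * (Real.sin (2 * θ) : ℂ))
        • S.Zt t x‖ ≤ 2 * |θ| * c := by
    have := P_norm_rot (S := S) t (Real.cos (2 * θ) - 1) (Real.sin (2 * θ)) x
    have hs : (Real.cos (2 * θ) - 1) ^ 2 + Real.sin (2 * θ) ^ 2 ≤ (2 * |θ|) ^ 2 := by
      have q1 := Real.cos_sq_add_sin_sq (2 * θ)
      have q2 : 1 - (2 * θ) ^ 2 / 2 ≤ Real.cos (2 * θ) := Real.one_sub_sq_div_two_le_cos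
      rw [mul_pow, sq_abs]
      nlinarith
    have h3 : ‖((Real.cos (2 * θ) - 1 : ℝ) : ℂ) • x + (Complex.I * (Real.sin (2 * θ) : ℂ))
        • S.Zt t x‖ ^ 2 ≤ (2 * |θ| * c) ^ 2 := by
      rw [this, mul_pow]
      exact mul_le_mul hs (pow_le_pow_left₀ (norm_nonneg _) hx.m0 2) (by positivity)
        (by positivity)
    have hc : 0 ≤ c := (norm_nonneg x).trans hx.m0
    exact (sq_le_sq₀ (norm_nonneg _) (by positivity)).1 h3
  unfold mu
  rw [← hθ]
  linarith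

/-- one pulse of phase `± π/2` -/
lemma P_half {c : ℝ} {x : H} (hx : S.Nice c x) (t : ℝ) (v b : K) (σ r : ℝ)
    (hσ : σ = 1 ∨ σ = -1) (h : |2 * (inner ℂ v b : ℂ).im - σ * (Real.pi / 2)| ≤ r) :
    ‖S.pul t v (S.W b x) - (Complex.I * (σ : ℂ)) • S.W b (S.Zt t x)‖ ≤ 2 * (c * ‖v‖) + r * c := by
  have hx0 : S.PNiceAt (fun a : K => ‖a‖) c x := ⟨hx.m0, hx.m1, hx.m2⟩
  have hg : PGauge (fun a : K => ‖a‖) := ⟨fun a => le_refl _, fun a => norm_neg a⟩
  have h1 := hx0.pul_sub hg t v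
  have hr : 0 ≤ r := (abs_nonneg _).trans h
  set θ := (inner ℂ v b : ℂ).im with hθ
  have hms : (Complex.I * (σ : ℂ)) • S.W b (S.Zt t x) = S.W b ((Complex.I * (σ : ℂ)) • S.Zt t x) :=
    (map_smul _ _ _).symm
  rw [P_pul_frame, hms, ← map_sub, (S.W b).norm_map, ← hθ]
  have e : (Real.cos (2 * θ) : ℂ) • S.pul t v x + (Complex.I * (Real.sin (2 * θ) : ℂ))
        • S.Zt t (S.pul t v x) - (Complex.I * (σ : ℂ)) • S.Zt t x
      = ((Real.cos (2 * θ) : ℂ) • (S.pul t v x - x) + (Complex.I * (Real.sin (2 * θ) : ℂ))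
        • S.Zt t (S.pul t v x - x))
      + ((Real.cos (2 * θ) : ℂ) • x + (Complex.I * ((Real.sin (2 * θ) - σ : ℝ) : ℂ))
        • S.Zt t x) := by
    simp only [map_sub]
    push_cast
    module
  rw [e]
  refine (norm_add_le _ _).trans ?_
  have a1 : ‖(Real.cos (2 * θ) : ℂ) • (S.pul t v x - x) + (Complex.I * (Real.sin (2 * θ) : ℂ))
        • S.Zt t (S.pul t v x - x)‖ ≤ 2 * (c * ‖v‖) := by
    refine le_trans (le_of_eq ?_) h1
    have := P_norm_rot (S := S) t (Real.cos (2 * θ)) (Real.sin (2 * θ)) (S.pul t v x - x)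
    rw [Real.cos_sq_add_sin_sq, one_mul] at this
    exact (sq_eq_sq₀ (norm_nonneg _) (norm_nonneg _)).1 this
  have a2 : ‖(Real.cos (2 * θ) : ℂ) • x + (Complex.I * ((Real.sin (2 * θ) - σ : ℝ) : ℂ))
        • S.Zt t x‖ ≤ r * c := by
    have := P_norm_rot (S := S) t (Real.cos (2 * θ)) (Real.sin (2 * θ) - σ) x
    have hs : Real.cos (2 * θ) ^ 2 + (Real.sin (2 * θ) - σ) ^ 2 ≤ r ^ 2 := by
      set ρ := 2 * θ - σ * (Real.pi / 2) with hρ
      have hθρ : 2 * θ = ρ + σ * (Real.pi / 2) := by rw [hρ]; ring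
      have q1 := Real.cos_sq_add_sin_sq (2 * θ)
      have q2 : 1 - ρ ^ 2 / 2 ≤ Real.cos ρ := Real.one_sub_sq_div_two_le_cos
      have q3 : σ * Real.sin (2 * θ) = Real.cos ρ := by
        rw [hθρ]
        rcases hσ with hσ | hσ
        · rw [hσ, one_mul, one_mul, Real.sin_add_pi_div_two]
        · rw [hσ]
          have : ρ + -1 * (Real.pi / 2) = ρ - Real.pi / 2 := by ring
          rw [this, Real.sin_sub_pi_div_two]
          ring
      have q4 : σ ^ 2 = 1 := by rcases hσ with hσ | hσ <;> rw [hσ] <;> norm_num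
      have q5 : ρ ^ 2 ≤ r ^ 2 := by
        rw [← sq_abs ρ]
        exact pow_le_pow_left₀ (abs_nonneg _) h 2
      nlinarith
    have h3 : ‖(Real.cos (2 * θ) : ℂ) • x + (Complex.I * ((Real.sin (2 * θ) - σ : ℝ) : ℂ))
        • S.Zt t x‖ ^ 2 ≤ (r * c) ^ 2 := by
      rw [this, mul_pow]
      exact mul_le_mul hs (pow_le_pow_left₀ (norm_nonneg _) hx.m0 2) (by positivity)
        (by positivity)
    have hc : 0 ≤ c := (norm_nonneg x).trans hx.m0
    exact (sq_le_sq₀ (norm_nonneg _) (by positivity)).1 h3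
  linarith

/-- four pulses of phase `± π/2` in one frame -/
lemma P_four_half {c : ℝ} {x : H} (hx : S.Nice c x) (t1 t2 : ℝ) (v1 v2 v3 v4 b : K) (σ r : ℝ)
    (hσ : σ = 1 ∨ σ = -1)
    (n1 : ‖v1‖ ≤ r) (n2 : ‖v2‖ ≤ r) (n3 : ‖v3‖ ≤ r) (n4 : ‖v4‖ ≤ r)
    (h1 : |2 * (inner ℂ v1 b : ℂ).im - σ * (Real.pi / 2)| ≤ r)
    (h2 : |2 * (inner ℂ v2 b : ℂ).im - σ * (Real.pi / 2)| ≤ r)
    (h3 : |2 * (inner ℂ v3 b : ℂ).im - σ * (Real.pi / 2)| ≤ r)
    (h4 : |2 * (inner ℂ v4 b : ℂ).im - σ * (Real.pi / 2)| ≤ r) :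
    ‖S.pul t1 (-v4) (S.pul t2 (-v3) (S.pul t1 v2 (S.pul t2 v1 (S.W b x))))
      - S.W b (S.xr (4 * (t1 - t2)) x)‖ ≤ 12 * c * r := by
  have hc : 0 ≤ c := (norm_nonneg x).trans hx.m0
  have hneg : ∀ v : K, |2 * (inner ℂ v b : ℂ).im - σ * (Real.pi / 2)| ≤ r →
      |2 * (inner ℂ (-v) b : ℂ).im - (-σ) * (Real.pi / 2)| ≤ r := by
    intro v hv
    rw [inner_neg_left, Complex.neg_im]
    have : 2 * -(inner ℂ v b : ℂ).im - -σ * (Real.pi / 2)
        = -(2 * (inner ℂ v b : ℂ).im - σ * (Real.pi / 2)) := by ring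
    rw [this, abs_neg]
    exact hv
  have hσ' : -σ = 1 ∨ -σ = -1 := by
    rcases hσ with hσ | hσ
    · right; rw [hσ]
    · left; rw [hσ]; norm_num
  set y1 := S.Zt t2 x with hy1
  set y2 := S.Zt t1 y1 with hy2
  set y3 := S.Zt t2 y2 with hy3
  set y4 := S.Zt t1 y3 with hy4
  have N1 : S.Nice c y1 := hx.P_cw (S.P_cw_Zt t2)
  have N2 : S.Nice c y2 := N1.P_cw (S.P_cw_Zt t1)
  have N3 : S.Nice c y3 := N2.P_cw (S.P_cw_Zt t2)
  have bd : ∀ v : K, ‖v‖ ≤ r → 2 * (c * ‖v‖) + r * c ≤ 3 * c * r := by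
    intro v hv
    have := mul_le_mul_of_nonneg_left hv hc
    linarith
  have s1 := (P_half hx t2 v1 b σ r hσ h1).trans (bd v1 n1)
  have s2 := (P_half N1 t1 v2 b σ r hσ h2).trans (bd v2 n2)
  have s3 := (P_half N2 t2 (-v3) b (-σ) r hσ' (hneg v3 h3)).trans
    (bd (-v3) (by rwa [norm_neg]))
  have s4 := (P_half N3 t1 (-v4) b (-σ) r hσ' (hneg v4 h4)).trans
    (bd (-v4) (by rwa [norm_neg]))
  rw [← hy1] at s1
  rw [← hy2] at s2
  rw [← hy3] at s3
  rw [← hy4] at s4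
  have hy4' : y4 = S.xr (4 * (t1 - t2)) x := by
    rw [hy4, hy3, hy2, hy1, P_Zt_Zt, P_Zt_Zt, P_xr_add]
    congr 1
    ring_nf
  rw [← hy4']
  set p1 := S.pul t2 v1
  set p2 := S.pul t1 v2
  set p3 := S.pul t2 (-v3)
  set p4 := S.pul t1 (-v4)
  set k : ℂ := Complex.I * (σ : ℂ) with hk
  set k' : ℂ := Complex.I * ((-σ : ℝ) : ℂ) with hk'
  have nk : ‖k‖ = 1 := by
    rw [hk, norm_mul, Complex.norm_I, one_mul, Complex.norm_real, Real.norm_eq_abs]
    rcases hσ with hσ | hσ <;> rw [hσ] <;> norm_num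
  have nk' : ‖k'‖ = 1 := by
    rw [hk', norm_mul, Complex.norm_I, one_mul, Complex.norm_real, Real.norm_eq_abs]
    rcases hσ with hσ | hσ <;> rw [hσ] <;> norm_num
  have kk : k * k * k' * k' = 1 := by
    rw [hk, hk']
    push_cast
    have q4 : (σ : ℂ) ^ 2 = 1 := by rcases hσ with hσ | hσ <;> rw [hσ] <;> norm_num
    have q5 : Complex.I ^ 4 = 1 := Complex.I_pow_four
    calc _ = Complex.I ^ 4 * ((σ : ℂ) ^ 2) ^ 2 := by ring
      _ = 1 := by rw [q4, q5]; norm_num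
  clear_value k k'
  have e : p4 (p3 (p2 (p1 (S.W b x)))) - S.W b y4
      = p4 (p3 (p2 (p1 (S.W b x) - k • S.W b y1)))
        + k • p4 (p3 (p2 (S.W b y1) - k • S.W b y2))
        + (k * k) • p4 (p3 (S.W b y2) - k' • S.W b y3)
        + (k * k * k') • (p4 (S.W b y3) - k' • S.W b y4) := by
    simp only [map_sub, map_smul]
    have h : S.W b y4 = (k * k * k' * k') • S.W b y4 := by rw [kk, one_smul]
    conv_lhs => rw [h]
    module
  rw [e]
  have tri := norm_add₄_le (a := p4 (p3 (p2 (p1 (S.W b x) - k • S.W b y1))))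
    (b := k • p4 (p3 (p2 (S.W b y1) - k • S.W b y2)))
    (c := (k * k) • p4 (p3 (S.W b y2) - k' • S.W b y3))
    (d := (k * k * k') • (p4 (S.W b y3) - k' • S.W b y4))
  refine tri.trans ?_
  rw [norm_smul, norm_smul, norm_smul, norm_mul, norm_mul, norm_mul, nk, nk',
    p4.norm_map, p3.norm_map, p2.norm_map, p4.norm_map, p3.norm_map, p4.norm_map]
  linarith

variable (S)

theorem pStmt : S.PStmt where
  p0 := fun c z b t v hz hv => P_frm_pul t hz hv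
  p1 := by
    intro c z b t v hz
    obtain ⟨x, y, hx, hy, rfl⟩ := hz
    have h1 := P_pul_W hx t v b
    have h2 := P_pul_W hy t v (-b)
    rw [P_mu_neg_left] at h2
    have e : S.pul t v (S.W b x + S.W (-b) y) - (S.W b x + S.W (-b) y)
        = (S.pul t v (S.W b x) - S.W b x) + (S.pul t v (S.W (-b) y) - S.W (-b) y) := by
      rw [map_add]; abel
    rw [e]
    refine (norm_add_le _ _).trans ?_
    linarith
  p2 := by
    refine ⟨32, by norm_num, ?_⟩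
    intro c z b t v t' v' hz _
    have hc := hz.P_c0
    have h := hz.P_niceAt.pul_pul (P_gauge_fg b) t t' v v'
    refine h.trans ?_
    have h1 := P_fg_le_mu b v
    have h2 := P_fg_le_mu b v'
    have h3 : P_fg b v' * P_fg b v ≤ (2 * mu b v') * (2 * mu b v) :=
      mul_le_mul h2 h1 ((P_gauge_fg b).pos v) (by have := P_mu_nonneg b v'; positivity)
    have h4 := mul_le_mul_of_nonneg_left h3 (by positivity : 0 ≤ 8 * c)
    linarith
  d0 := fun c z b v hz hv => P_frm_d0 hz hv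
  d1 := by
    intro c z b v hz
    have hc := hz.P_c0
    have h1 := hz.P_niceAt.n1 v
    have h2 := hz.P_niceAt.n1 (-v)
    rw [(P_gauge_fg b).neg] at h2
    have e : S.W (-v) z - S.W v z = (S.W (-v) z - z) - (S.W v z - z) := by abel
    rw [e]
    refine (norm_sub_le _ _).trans ?_
    have h3 := mul_le_mul_of_nonneg_left (P_fg_le_mu b v) (by positivity : 0 ≤ 2 * c)
    linarith
  d2 := by
    refine ⟨32, by norm_num, ?_⟩
    intro c z b t v v' hz _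
    have hc := hz.P_c0
    have h1 := hz.P_niceAt.dd_pul_sub (P_gauge_fg b) t v v'
    have h2 := hz.P_niceAt.dd_pul_sub (P_gauge_fg b) t v (-v')
    rw [(P_gauge_fg b).neg] at h2
    have e : S.W (-v') (S.pul t v z - z) - S.W v' (S.pul t v z - z)
        = (S.W (-v') (S.pul t v z - z) - (S.pul t v z - z))
          - (S.W v' (S.pul t v z - z) - (S.pul t v z - z)) := by abel
    rw [e]
    refine (norm_sub_le _ _).trans ?_
    have h3 : P_fg b v' * P_fg b v ≤ (2 * mu b v') * (2 * mu b v) :=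
      mul_le_mul (P_fg_le_mu b v') (P_fg_le_mu b v) ((P_gauge_fg b).pos v)
        (by have := P_mu_nonneg b v'; positivity)
    have h4 := mul_le_mul_of_nonneg_left h3 (by positivity : 0 ≤ 8 * c)
    linarith

theorem c1Stmt : S.C1Stmt := by
  intro M hM
  have hL : 0 < 2 * M + 1 := by linarith
  refine ⟨64 * (2 * M + 1) ^ 2, 1 / (2 * M + 1), by positivity, by positivity, ?_⟩
  intro ε hε hε0 b c z t1 t2 v1 v2 v3 v4 hz h1 h2 h3 h4 h31 h42
  have hr : 0 ≤ (2 * M + 1) * ε := by positivity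
  have hr1 : (2 * M + 1) * ε ≤ 1 := by
    rw [le_div_iff₀ hL] at hε0
    linarith
  have lin : ∀ v : K, mu b v ≤ M * ε → P_fg b v ≤ (2 * M + 1) * ε := by
    intro v hv
    have := P_fg_le_mu b v
    nlinarith
  have quad : ∀ v : K, mu b v ≤ M * ε ^ 2 → P_fg b v ≤ ((2 * M + 1) * ε) ^ 2 := by
    intro v hv
    have h0 := P_fg_le_mu b v
    have : 2 * M * ε ^ 2 ≤ ((2 * M + 1) * ε) ^ 2 := by
      rw [mul_pow]
      refine mul_le_mul_of_nonneg_right ?_ (by positivity)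
      nlinarith
    linarith
  have := hz.P_niceAt.four (P_gauge_fg b) t1 t2 v1 v2 v3 v4 hr (lin v1 h1) (lin v2 h2) (lin v3 h3)
    (lin v4 h4) (quad _ h31) (quad _ h42) hr1
  refine this.trans (le_of_eq ?_)
  ring

theorem c2Stmt : S.C2Stmt := by
  intro M hM
  refine ⟨24 * M, 1, by positivity, one_pos, ?_⟩
  intro ε hε _ b c z t1 t2 v1 v2 v3 v4 hz n1 n2 n3 n4 h1 h2 h3 h4
  obtain ⟨x, y, hx, hy, rfl⟩ := hz
  have hp : ∀ v : K, |2 * (inner ℂ v b : ℂ).im - Real.pi / 2| ≤ M * ε →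
      |2 * (inner ℂ v b : ℂ).im - 1 * (Real.pi / 2)| ≤ M * ε := by
    intro v hv; rwa [one_mul]
  have hm : ∀ v : K, |2 * (inner ℂ v b : ℂ).im - Real.pi / 2| ≤ M * ε →
      |2 * (inner ℂ v (-b) : ℂ).im - (-1) * (Real.pi / 2)| ≤ M * ε := by
    intro v hv
    rw [inner_neg_right, Complex.neg_im]
    have : 2 * -(inner ℂ v b : ℂ).im - -1 * (Real.pi / 2)
        = -(2 * (inner ℂ v b : ℂ).im - Real.pi / 2) := by ring
    rwa [this, abs_neg]
  have A1 := P_four_half hx t1 t2 v1 v2 v3 v4 b 1 (M * ε) (Or.inl rfl) n1 n2 n3 n4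
    (hp v1 h1) (hp v2 h2) (hp v3 h3) (hp v4 h4)
  have A2 := P_four_half hy t1 t2 v1 v2 v3 v4 (-b) (-1) (M * ε) (Or.inr rfl) n1 n2 n3 n4
    (hm v1 h1) (hm v2 h2) (hm v3 h3) (hm v4 h4)
  have e : S.pul t1 (-v4) (S.pul t2 (-v3) (S.pul t1 v2 (S.pul t2 v1 (S.W b x + S.W (-b) y))))
        - S.xr (4 * (t1 - t2)) (S.W b x + S.W (-b) y)
      = (S.pul t1 (-v4) (S.pul t2 (-v3) (S.pul t1 v2 (S.pul t2 v1 (S.W b x))))
          - S.W b (S.xr (4 * (t1 - t2)) x))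
        + (S.pul t1 (-v4) (S.pul t2 (-v3) (S.pul t1 v2 (S.pul t2 v1 (S.W (-b) y))))
          - S.W (-b) (S.xr (4 * (t1 - t2)) y)) := by
    simp only [map_add]
    rw [S.P_cw_xr, S.P_cw_xr]
    abel
  rw [e]
  refine (norm_add_le _ _).trans ?_
  linarith

end Sys

end Vale.Agent.P367.A
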