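import Vale.Agent.P367.A.Skel

/-! P367, Theorem A: block SG (label gate step). -/

namespace Vale.Agent.P367.A

open Complex Filter Topology

open Vale.Agent.P367.NI (Gate)

namespace Sys

variable {H K : Type*} [NormedAddCommGroup H] [InnerProductSpace ℂ H]
  [NormedAddCommGroup K] [InnerProductSpace ℂ K] (S : Sys H K)

lemma sg_inv (U : H ≃ₗᵢ[ℂ] H) (x : H) : U (U⁻¹ x) = x := U.apply_symm_apply x

lemma sg_inv' (U : H ≃ₗᵢ[ℂ] H) (x : H) : U⁻¹ (U x) = x := U.symm_apply_apply x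

lemma sg_mul (U V : H ≃ₗᵢ[ℂ] H) (x : H) : (U * V) x = U (V x) := rfl

lemma sg_mul_inv (U V : H ≃ₗᵢ[ℂ] H) (x : H) : (U * V)⁻¹ x = V⁻¹ (U⁻¹ x) := rfl

lemma sg_zr_eq (v : K) (x : H) : S.zr v x = (1 / 2 : ℂ) • S.W (-v) (x + S.Z x) +
    (1 / 2 : ℂ) • S.W v (x - S.Z x) := by
  rw [zr_apply, map_add, map_sub]
  module

lemma sg_Z_zr (v : K) (x : H) : S.Z (S.zr v x) = S.zr v (S.Z x) := by
  rw [sg_zr_eq, sg_zr_eq, map_add, map_smul, map_smul, ← S.WZ, ← S.WZ, map_add, map_sub, S.ZZ]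

lemma sg_zr_add (v : K) (x : H) : S.zr v x + S.Z (S.zr v x) = S.W (-v) (x + S.Z x) := by
  rw [sg_Z_zr, sg_zr_eq, sg_zr_eq, S.ZZ, add_comm (S.Z x) x]
  have h : S.W v (S.Z x - x) = -S.W v (x - S.Z x) := by rw [← map_neg, neg_sub]
  rw [h]
  module

lemma sg_zr_sub (v : K) (x : H) : S.zr v x - S.Z (S.zr v x) = S.W v (x - S.Z x) := by
  rw [sg_Z_zr, sg_zr_eq, sg_zr_eq, S.ZZ, add_comm (S.Z x) x]
  have h : S.W v (S.Z x - x) = -S.W v (x - S.Z x) := by rw [← map_neg, neg_sub]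
  rw [h]
  module

lemma sg_zr_zr (v w : K) (x : H) : S.zr v (S.zr w x) =
    Complex.exp (-(Complex.I * ((inner ℂ v w).im : ℂ))) • S.zr (v + w) x := by
  rw [sg_zr_eq S v, sg_zr_add, sg_zr_sub, S.WW, S.WW, sg_zr_eq S (v + w), inner_neg_left,
    inner_neg_right, neg_neg, neg_add]
  module

lemma sg_zr_inv (v : K) (x : H) : (S.zr v)⁻¹ x = S.zr (-v) x := by
  apply inv_apply_eq
  exact S.zrL_zrL_neg v x

lemma sg_X_zr (v : K) (x : H) : S.X (S.zr v x) = S.zr (-v) (S.X x) := by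
  rw [sg_zr_eq, sg_zr_eq, neg_neg, map_add, map_smul, map_smul, ← S.WX, ← S.WX, map_add, map_sub,
    S.ZX, ← sub_eq_add_neg, sub_neg_eq_add]
  abel

lemma sg_X_comm (a : K) (x : H) : S.W a (S.X x) = S.X (S.W a x) := S.WX a x

lemma sg_W_xr (a : K) (b : ℝ) (x : H) : S.W a (S.xr b x) = S.xr b (S.W a x) := by
  rw [xr_apply, xr_apply, map_sub, map_smul, map_smul, S.WX]

lemma sg_xr_pi (x : H) : S.xr (Real.pi / 2) x = (-I) • S.X x := by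
  rw [xr_apply, Real.cos_pi_div_two, Real.sin_pi_div_two, ofReal_zero, zero_smul, ofReal_one,
    mul_one, zero_sub, neg_smul]

lemma sg_xv_zr (v : K) (V : H ≃ₗᵢ[ℂ] H) : S.xv (S.zr v * V) = S.xv V := by
  change V⁻¹ ((S.zr v)⁻¹ (S.Z (S.zr v (V S.Om)))) = V⁻¹ (S.Z (V S.Om))
  rw [sg_Z_zr, sg_inv']

lemma sg_xt (t : ℝ) (V : H ≃ₗᵢ[ℂ] H) : S.xt t V = (Real.cos (2 * t) : ℂ) • S.xv V +
    (I * (Real.sin (2 * t) : ℂ)) • V⁻¹ (S.Z (S.X (V S.Om))) := by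
  have h : S.Zt t (V S.Om) = (Real.cos (2 * t) : ℂ) • S.Z (V S.Om) +
      (I * (Real.sin (2 * t) : ℂ)) • S.Z (S.X (V S.Om)) := by
    change S.xr t (S.Z (S.xr (-t) (V S.Om))) = _
    generalize V S.Om = y
    rw [xr_apply S (-t), map_sub, map_smul, map_smul, xr_apply, map_sub, map_smul, map_smul,
      Real.cos_neg, Real.sin_neg, S.XZ, S.XZ, S.XX, Real.cos_two_mul, Real.sin_two_mul]
    have h1 : (Real.sin t : ℂ) ^ 2 = 1 - (Real.cos t : ℂ) ^ 2 := by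
      rw [← ofReal_pow, ← ofReal_pow, Real.sin_sq]
      push_cast
      ring
    push_cast at h1 ⊢
    have hI := Complex.I_mul_I
    generalize (Complex.cos (t : ℂ)) = c at *
    generalize (Complex.sin (t : ℂ)) = s at *
    have e1 : c * c + I * I * (s * s) = 2 * c ^ 2 - 1 := by
      rw [hI]; linear_combination -h1
    calc _ = (c * c + I * I * (s * s)) • S.Z y + (I * (2 * s * c)) • S.Z (S.X y) := by module
      _ = _ := by rw [e1]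
  change V⁻¹ (S.Zt t (V S.Om)) = _
  rw [h, map_add, map_smul, map_smul]
  rfl

/-! ### Niceness -/

variable {S} in
lemma sg_nonneg {c : ℝ} {x : H} (h : S.Nice c x) : 0 ≤ c := (norm_nonneg x).trans h.m0

variable {S} in
lemma sg_mono {c d : ℝ} {x : H} (h : S.Nice c x) (hcd : c ≤ d) : S.Nice d x where
  m0 := h.m0.trans hcd
  m1 a := (h.m1 a).trans (mul_le_mul_of_nonneg_right hcd (norm_nonneg _))
  m2 a b := (h.m2 a b).trans (mul_le_mul_of_nonneg_right hcd (by positivity))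

variable {S} in
lemma sg_fmono {b : K} {c d : ℝ} {x : H} (h : S.Frm b c x) (hcd : c ≤ d) : S.Frm b d x := by
  obtain ⟨u, v, hu, hv, e⟩ := h
  exact ⟨u, v, sg_mono hu hcd, sg_mono hv hcd, e⟩

variable {S} in
lemma sg_phase (hN : S.NStmt) {c : ℝ} {x : H} {k : ℂ} (hk : ‖k‖ = 1) (h : S.Nice c x) :
    S.Nice c (k • x) := by
  have := hN.smul c x k h
  rwa [hk, one_mul] at this

variable {S} in
lemma sg_niceZ (hN : S.NStmt) {c : ℝ} {x : H} (h : S.Nice c x) : S.Nice c (S.Z x) :=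
  hN.comm S.Z (fun a x => S.WZ a x) c x h

variable {S} in
lemma sg_nice_neg (hN : S.NStmt) {c : ℝ} {x : H} (h : S.Nice c x) : S.Nice c (-x) := by
  have := sg_phase hN (k := -1) (by simp) h
  rwa [neg_one_smul] at this

variable {S} in
lemma sg_frm_zr (hN : S.NStmt) {c : ℝ} {x : H} (b : K) (h : S.Nice c x) :
    S.Frm b c (S.zr (-b) x) := by
  have h1 : S.Nice c ((1 / 2 : ℂ) • (x + S.Z x)) := by
    have := hN.smul _ _ (1 / 2 : ℂ) (hN.add _ _ _ _ h (sg_niceZ hN h))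
    refine sg_mono this (le_of_eq ?_)
    rw [norm_div, norm_one, Complex.norm_ofNat]
    ring
  have h2 : S.Nice c ((1 / 2 : ℂ) • (x - S.Z x)) := by
    have := hN.smul _ _ (1 / 2 : ℂ) (hN.add _ _ _ _ h (sg_nice_neg hN (sg_niceZ hN h)))
    rw [sub_eq_add_neg]
    refine sg_mono this (le_of_eq ?_)
    rw [norm_div, norm_one, Complex.norm_ofNat]
    ring
  refine ⟨_, _, h1, h2, ?_⟩
  rw [sg_zr_eq, neg_neg, map_smul, map_smul]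

variable {S} in
lemma sg_frm_op (hN : S.NStmt) {b : K} {c : ℝ} {z : H} (h : S.Frm b c z) (U : H ≃ₗᵢ[ℂ] H)
    (hU : ∀ a x, S.W a (U x) = U (S.W a x)) : S.Frm b c (U z) := by
  obtain ⟨x, y, hx, hy, e⟩ := h
  refine ⟨U x, U y, hN.comm U hU c x hx, hN.comm U hU c y hy, ?_⟩
  rw [e, map_add, hU, hU]

variable {S} in
lemma sg_frm_smul (hN : S.NStmt) {b : K} {c : ℝ} {z : H} {k : ℂ} (hk : ‖k‖ = 1)
    (h : S.Frm b c z) : S.Frm b c (k • z) := by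
  obtain ⟨x, y, hx, hy, e⟩ := h
  refine ⟨k • x, k • y, sg_phase hN hk hx, sg_phase hN hk hy, ?_⟩
  rw [e, smul_add, map_smul, map_smul]

/-! ### Choice of the pulse angles -/

/-- choice of the angles -/
lemma sg_angles (V : H ≃ₗᵢ[ℂ] H) (c : K) (d h : ℝ) (hd : 0 < d) (hh : 1 / 2 ≤ Real.cos h)
    (hA : d ≤ |(inner ℂ (S.iota (S.xv V)) c : ℂ).im|) :
    ∃ t1 t2 : ℝ, t1 - t2 = h ∧ d ≤ |S.alp t1 V c| ∧ d ≤ |S.alp t2 V c| := by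
  set A : ℝ := 2 * (inner ℂ (S.iota (S.xv V)) c : ℂ).im with hAd
  set B : ℝ := 2 * (inner ℂ (S.iota (V⁻¹ (S.Z (S.X (V S.Om))))) c : ℂ).re with hBd
  have key : ∀ t, S.alp t V c = A * Real.cos (2 * t) - B * Real.sin (2 * t) := by
    intro t
    unfold alp
    rw [sg_xt, map_add, map_smul, map_smul, inner_add_left, inner_smul_left, inner_smul_left,
      map_mul, conj_ofReal, conj_ofReal, conj_I, add_im, hAd, hBd]
    simp only [mul_im, mul_re, ofReal_re, ofReal_im, neg_re, neg_im, I_re, I_im]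
    ring
  obtain ⟨z, hz⟩ : ∃ z : ℂ, z = ⟨A, B⟩ := ⟨_, rfl⟩
  have hre : ‖z‖ * Real.cos z.arg = A := by rw [Complex.norm_mul_cos_arg, hz]
  have him : ‖z‖ * Real.sin z.arg = B := by rw [Complex.norm_mul_sin_arg, hz]
  have hform : ∀ t, S.alp t V c = ‖z‖ * Real.cos (2 * t + z.arg) := by
    intro t
    rw [key, Real.cos_add, ← hre, ← him]
    ring
  have hAz : |A| ≤ ‖z‖ := by
    have := Complex.abs_re_le_norm z
    rw [hz] at this ⊢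
    exact this
  have hdz : 2 * d ≤ ‖z‖ := by
    refine le_trans ?_ hAz
    rw [hAd, abs_mul, abs_two]
    linarith
  have fin : ∀ s, Real.cos s = Real.cos h → d ≤ |‖z‖ * Real.cos s| := by
    intro s hs
    rw [hs, abs_mul, abs_norm, abs_of_pos (by linarith : 0 < Real.cos h)]
    nlinarith [norm_nonneg z]
  refine ⟨-z.arg / 2 + h / 2, -z.arg / 2 - h / 2, by ring, ?_, ?_⟩
  · rw [hform]
    refine fin _ ?_
    congr 1
    ring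
  · rw [hform]
    refine fin _ ?_
    rw [← Real.cos_neg]
    congr 1
    ring

/-! ### The label gate step -/

lemma sg_zr_smul (v : K) (k : ℂ) (x : H) : S.zr v (k • x) = k • S.zr v x := map_smul _ _ _

lemma sg_exp_norm (r : ℝ) : ‖Complex.exp (-(Complex.I * (r : ℂ)))‖ = 1 := by
  rw [← mul_neg, ← ofReal_neg, mul_comm, Complex.norm_exp_ofReal_mul_I]

lemma sg_norm_eps {ε : ℝ} (hε : 0 < ε) (x : H) : ‖(ε : ℂ) • x‖ = ε * ‖x‖ := by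
  rw [norm_smul, Complex.norm_real, Real.norm_eq_abs, abs_of_pos hε]

lemma sg_core1 (V1 V2 Q R : H ≃ₗᵢ[ℂ] H) (om ψb φ : H) {ε C Cw : ℝ} (hε : 0 < ε)
    (hQ : ∀ x, V2 x = Q (V1 x)) (b1 : ‖V1 om - ψb - (ε : ℂ) • φ‖ ≤ C * ε ^ 2)
    (b2 : ‖Q ψb - ψb‖ ≤ Cw * (C * 3) * ε ^ 2) (b3 : ‖Q φ - R φ‖ ≤ Cw * C * ε) :
    ‖V2 om - ψb - (ε : ℂ) • R φ‖ ≤ (C + 4 * Cw * C) * ε ^ 2 := by
  have h1 : V2 om - ψb - (ε : ℂ) • R φ = Q (V1 om - ψb - (ε : ℂ) • φ) + (Q ψb - ψb) +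
      (ε : ℂ) • (Q φ - R φ) := by
    rw [hQ, map_sub, map_sub, map_smul, smul_sub]
    abel
  rw [h1]
  refine (norm_add₃_le).trans ?_
  rw [LinearIsometryEquiv.norm_map, sg_norm_eps hε]
  have := mul_le_mul_of_nonneg_left b3 hε.le
  linarith

lemma sg_core2 (V1 V2 Q R : H ≃ₗᵢ[ℂ] H) (ψb φ e : H) {ε C Cw σ : ℝ} (hε : 0 < ε)
    (hQ : ∀ x, V2 x = Q (V1 x)) (b1 : ‖V1 S.Om - ψb - (ε : ℂ) • φ‖ ≤ C * ε ^ 2)
    (b4 : ‖V2 S.Om - ψb - (ε : ℂ) • R φ‖ ≤ (C + 4 * Cw * C) * ε ^ 2)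
    (b5 : ‖Q (S.Z ψb) - S.Z ψb‖ ≤ Cw * (C * 3) * ε ^ 2)
    (b6 : ‖Q (-S.Z φ) - S.Z (R φ)‖ ≤ Cw * C * ε)
    (b10 : ‖V1⁻¹ (S.Z φ) - (σ : ℂ) • e‖ ≤ C * ε) :
    ‖S.xv V2 - S.xv V1 + (2 * ε * σ : ℂ) • e‖ ≤ (4 * C + 8 * Cw * C) * ε ^ 2 := by
  have b7 : ‖S.Z (V2 S.Om) - Q (S.Z ψb - (ε : ℂ) • S.Z φ)‖ ≤ (C + 8 * Cw * C) * ε ^ 2 := by
    have h1 : S.Z (V2 S.Om) - Q (S.Z ψb - (ε : ℂ) • S.Z φ) =
        S.Z (V2 S.Om - ψb - (ε : ℂ) • R φ) - (Q (S.Z ψb) - S.Z ψb) -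
        (ε : ℂ) • (Q (-S.Z φ) - S.Z (R φ)) := by
      simp only [map_sub, map_smul, map_neg, smul_sub, smul_neg]
      abel
    rw [h1]
    refine (norm_sub_le _ _).trans ?_
    refine (add_le_add_left (norm_sub_le _ _) _).trans ?_
    rw [LinearIsometryEquiv.norm_map, sg_norm_eps hε]
    have := mul_le_mul_of_nonneg_left b6 hε.le
    linarith
  have b8 : ‖S.xv V2 - V1⁻¹ (S.Z ψb - (ε : ℂ) • S.Z φ)‖ ≤ (C + 8 * Cw * C) * ε ^ 2 := by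
    refine le_trans (le_of_eq ?_) b7
    rw [← LinearIsometryEquiv.norm_map V2]
    congr 1
    rw [map_sub, hQ (V1⁻¹ _), sg_inv]
    unfold xv
    rw [sg_inv]
  have b9 : ‖S.xv V1 - V1⁻¹ (S.Z ψb + (ε : ℂ) • S.Z φ)‖ ≤ C * ε ^ 2 := by
    refine le_trans (le_of_eq ?_) b1
    rw [← LinearIsometryEquiv.norm_map V1]
    unfold xv
    rw [map_sub, sg_inv, sg_inv, ← LinearIsometryEquiv.norm_map S.Z (V1 S.Om - ψb - _)]
    congr 1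
    simp only [map_sub, map_smul]
    abel
  have h1 : S.xv V2 - S.xv V1 + (2 * ε * σ : ℂ) • e =
      (S.xv V2 - V1⁻¹ (S.Z ψb - (ε : ℂ) • S.Z φ)) -
      (S.xv V1 - V1⁻¹ (S.Z ψb + (ε : ℂ) • S.Z φ)) -
      (2 * ε : ℂ) • (V1⁻¹ (S.Z φ) - (σ : ℂ) • e) := by
    simp only [map_sub, map_add, map_smul, smul_sub, smul_smul]
    module
  rw [h1]
  refine (norm_sub_le _ _).trans ?_
  refine (add_le_add_left (norm_sub_le _ _) _).trans ?_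
  have h2 : ‖(2 * ε : ℂ)‖ = 2 * ε := by
    rw [norm_mul, Complex.norm_ofNat, Complex.norm_real, Real.norm_eq_abs, abs_of_pos hε]
  rw [norm_smul, h2]
  have := mul_le_mul_of_nonneg_left b10 (by positivity : 0 ≤ 2 * ε)
  linarith

lemma sg_core3 {x1 x3 e : H} {ε σ κ τ C D : ℝ} (hε : 0 < ε) (hε1 : ε ≤ 1) (hD0 : 0 ≤ D)
    (hσ2 : σ * σ = 1) (hσa : |σ| = 1) (hτ : τ = -σ * κ / (2 * ε)) (hen : ‖e‖ ≤ 2 * C)
    (b : ‖x3 - x1 + (2 * ε * σ : ℂ) • e‖ ≤ D * ε ^ 2) :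
    |τ| * ε = |κ| / 2 ∧ ‖x3 - x1‖ ≤ (4 * C + D) * ε ∧
    ‖(τ : ℂ) • (x3 - x1) - (κ : ℂ) • e‖ ≤ |κ| / 2 * D * ε := by
  have hτa : |τ| * ε = |κ| / 2 := by
    rw [hτ, abs_div, abs_mul, abs_neg, hσa, one_mul, abs_of_pos (by positivity : 0 < 2 * ε)]
    field_simp
  refine ⟨hτa, ?_, ?_⟩
  · have h1 : x3 - x1 = (x3 - x1 + (2 * ε * σ : ℂ) • e) - (2 * ε * σ : ℂ) • e := by abel
    rw [h1]
    refine (norm_sub_le _ _).trans ?_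
    have h2 : ‖(2 * ε * σ : ℂ)‖ = 2 * ε := by
      rw [norm_mul, Complex.norm_real σ, Real.norm_eq_abs, hσa, mul_one, norm_mul,
        Complex.norm_ofNat, Complex.norm_real, Real.norm_eq_abs, abs_of_pos hε]
    rw [norm_smul, h2]
    have h5 : D * ε ^ 2 ≤ D * ε := by nlinarith [mul_nonneg hD0 hε.le]
    linarith [b, mul_le_mul_of_nonneg_left hen (by positivity : 0 ≤ 2 * ε)]
  · have h0 : τ * (2 * ε * σ) = -κ := by
      rw [hτ]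
      field_simp
      linear_combination (-κ) * hσ2
    have h1 : (τ : ℂ) • (x3 - x1) - (κ : ℂ) • e =
        (τ : ℂ) • (x3 - x1 + (2 * ε * σ : ℂ) • e) := by
      have h2 : (τ : ℂ) * (2 * ε * σ : ℂ) = -(κ : ℂ) := by
        rw [← ofReal_neg, ← h0]
        push_cast
        ring
      rw [smul_add, smul_smul, h2, neg_smul, sub_eq_add_neg]
    rw [h1, norm_smul, Complex.norm_real, Real.norm_eq_abs]
    calc |τ| * _ ≤ |τ| * (D * ε ^ 2) := mul_le_mul_of_nonneg_left b (abs_nonneg _)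
      _ = |τ| * ε * D * ε := by ring
      _ = _ := by rw [hτa]

lemma sg_ph (u v : K) : ∃ k : ℂ, ‖k‖ = 1 ∧ ∀ x, S.zr u (S.zr v x) = k • S.zr (u + v) x :=
  ⟨_, sg_exp_norm _, fun x => S.sg_zr_zr u v x⟩

/-- composition of the three displacements of the tagged branch -/
lemma sg_tag (R : H ≃ₗᵢ[ℂ] H) (hR : ∀ x, R x = (-I) • S.X x) (u v w : K) (η : H) :
    ∃ k : ℂ, ‖k‖ = 1 ∧ S.zr u (R (S.zr v (S.zr w η))) = S.zr (u - v - w) (k • R η) := by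
  have h1 : R (S.zr v (S.zr w η)) = S.zr (-v) (S.zr (-w) (R η)) := by
    rw [hR, S.sg_X_zr, S.sg_X_zr, hR, map_smul, map_smul]
  obtain ⟨k1, hk1, hk1'⟩ := S.sg_ph u (-v)
  obtain ⟨k2, hk2, hk2'⟩ := S.sg_ph (u + -v) (-w)
  refine ⟨k1 * k2, by rw [norm_mul, hk1, hk2, one_mul], ?_⟩
  rw [h1, hk1', hk2', smul_smul, map_smul, ← sub_eq_add_neg, ← sub_eq_add_neg]

lemma sg_final (hN : S.NStmt) {C Cw K4 C' ε κ σ τ w₀ : ℝ} {V T V2 V3 Q R : H ≃ₗᵢ[ℂ] H} {θ : ℂ}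
    {a : K} {η e x1 x3 : H} (hε : 0 < ε) (hε1 : ε ≤ 1) (hCw : 0 ≤ Cw) (hC : 0 ≤ C)
    (hSt : S.St C ε V T θ σ a η e) (hτ : τ = -σ * κ / (2 * ε))
    (hx1 : ‖x1‖ = 1) (hx3 : ‖x3‖ = 1)
    (hw : ‖(τ : ℂ) • S.iota (x3 - x1)‖ ≤ w₀)
    (hR : R = S.xr (Real.pi / 2))
    (hV3 : V3 = S.zr ((τ : ℂ) • S.iota x3) * V2)
    (hV2 : ∀ x, V2 x = Q (S.zr (-((τ : ℂ) • S.iota x1)) (V x)))
    (hQ : ∀ c0 z, S.Frm ((τ : ℂ) • S.iota x1) c0 z → ‖Q z - z‖ ≤ Cw * c0 * ε ^ 2)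
    {ψb φ : H} (hψb : ψb = S.zr (-((τ : ℂ) • S.iota x1)) (θ • T S.Om))
    (hφ : φ = S.zr (-((τ : ℂ) • S.iota x1)) (S.zr (-(((σ / ε : ℝ) : ℂ) • a)) η))
    (b4 : ‖V2 S.Om - ψb - (ε : ℂ) • R φ‖ ≤ K4 * ε ^ 2)
    (b6 : ‖Q (-S.Z φ) - S.Z (R φ)‖ ≤ Cw * C * ε)
    (h1 : C + |κ| ≤ C') (h2 : 2 * (1 + 2 * w₀) ^ 2 * C ≤ C') (h3 : K4 ≤ C')
    (h4 : C + Cw * C ≤ C') :
    ∃ θ' η', S.St C' ε V3 (S.zr ((τ : ℂ) • S.iota (x3 - x1)) * T) θ' (-σ)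
      (a - ((κ / 2 : ℝ) : ℂ) • S.iota (x1 + x3)) η' e := by
  have hRx : ∀ x, R x = (-I) • S.X x := by intro x; rw [hR]; exact S.sg_xr_pi x
  have hRW : ∀ a x, S.W a (R x) = R (S.W a x) := by intro a x; rw [hR, sg_W_xr]
  obtain ⟨k1, hk1, hk1'⟩ := S.sg_ph ((τ : ℂ) • S.iota x3) (-((τ : ℂ) • S.iota x1))
  obtain ⟨k2, hk2, hk2'⟩ := S.sg_tag R hRx ((τ : ℂ) • S.iota x3) (-((τ : ℂ) • S.iota x1))
    (-(((σ / ε : ℝ) : ℂ) • a)) η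
  have e1 : (τ : ℂ) • S.iota x3 + -((τ : ℂ) • S.iota x1) = (τ : ℂ) • S.iota (x3 - x1) := by
    rw [map_sub, smul_sub, sub_eq_add_neg]
  have e2 : (τ : ℂ) • S.iota x3 - -((τ : ℂ) • S.iota x1) - -(((σ / ε : ℝ) : ℂ) • a) =
      -((((-σ / ε : ℝ) : ℂ) • (a - ((κ / 2 : ℝ) : ℂ) • S.iota (x1 + x3)))) := by
    have h5 : (((-σ / ε : ℝ) : ℂ)) * ((κ / 2 : ℝ) : ℂ) = (τ : ℂ) := by
      rw [← ofReal_mul, hτ]
      congr 1
      field_simp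
    have h6 : ((-σ / ε : ℝ) : ℂ) = -((σ / ε : ℝ) : ℂ) := by rw [neg_div, ofReal_neg]
    rw [smul_sub, smul_smul, h5, h6, map_add]
    module
  rw [e1] at hk1'
  rw [e2] at hk2'
  have hC'0 : C ≤ C' := by linarith [abs_nonneg κ]
  have ha' : ‖a - ((κ / 2 : ℝ) : ℂ) • S.iota (x1 + x3)‖ ≤ C' := by
    refine (norm_sub_le _ _).trans (le_trans ?_ h1)
    refine add_le_add hSt.a_le ?_
    rw [norm_smul, LinearIsometry.norm_map, Complex.norm_real, Real.norm_eq_abs, abs_div, abs_two]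
    have h8 : ‖x1 + x3‖ ≤ 2 := (norm_add_le _ _).trans (by rw [hx1, hx3]; norm_num)
    have h9 := mul_le_mul_of_nonneg_left h8 (by positivity : 0 ≤ |κ| / 2)
    linarith
  generalize (τ : ℂ) • S.iota (x3 - x1) = w at hw hk1' ⊢
  generalize a - ((κ / 2 : ℝ) : ℂ) • S.iota (x1 + x3) = a' at hk2' ha' ⊢
  have hnn : ∀ {c : ℝ} {x : H} {w : K}, ‖w‖ ≤ w₀ → S.Nice c x →
      S.Nice (2 * (1 + 2 * w₀) ^ 2 * c) (S.zr w x) := by
    intro c x w hw hx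
    refine sg_mono (hN.zr c x w hx) ?_
    have := sg_nonneg hx
    have h7 := norm_nonneg w
    gcongr
  have hηn : S.Nice C' (k2 • R η) :=
    sg_mono (sg_phase hN hk2 (hN.comm R hRW C η hSt.eta)) hC'0
  refine ⟨k1 * θ, k2 • R η, ?_, ?_, ha', hηn, ?_, ?_, ?_, ?_⟩
  · rw [norm_mul, hk1, hSt.th, one_mul]
  · rcases hSt.sg with h | h
    · right; rw [h]
    · left; rw [h, neg_neg]
  · intro c x hx
    have hc := sg_nonneg hx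
    constructor
    · have h5 := hnn hw (hSt.T_nice c x hx).1
      refine sg_mono h5 ?_
      calc 2 * (1 + 2 * w₀) ^ 2 * (C * c) = (2 * (1 + 2 * w₀) ^ 2 * C) * c := by ring
        _ ≤ C' * c := mul_le_mul_of_nonneg_right h2 hc
    · have h5 : S.Nice (2 * (1 + 2 * w₀) ^ 2 * c) (S.zr (-w) x) :=
        hnn (by rw [norm_neg]; exact hw) hx
      have h6 := (hSt.T_nice _ _ h5).2
      rw [sg_mul_inv, sg_zr_inv]
      refine sg_mono h6 ?_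
      calc C * (2 * (1 + 2 * w₀) ^ 2 * c) = (2 * (1 + 2 * w₀) ^ 2 * C) * c := by ring
        _ ≤ C' * c := mul_le_mul_of_nonneg_right h2 hc
  · have h5 : V3 S.Om - (k1 * θ) • (S.zr w * T) S.Om -
        (ε : ℂ) • S.zr (-(((-σ / ε : ℝ) : ℂ) • a')) (k2 • R η) =
        S.zr ((τ : ℂ) • S.iota x3) (V2 S.Om - ψb - (ε : ℂ) • R φ) := by
      rw [map_sub, map_sub, map_smul (S.zr ((τ : ℂ) • S.iota x3)) (ε : ℂ), hφ, hk2', hψb,
        hk1', map_smul (S.zr w), hV3, smul_smul]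
      rfl
    rw [h5, LinearIsometryEquiv.norm_map]
    exact b4.trans (mul_le_mul_of_nonneg_right h3 (sq_nonneg _))
  · intro c x hx
    have hc := sg_nonneg hx
    obtain ⟨y, hy⟩ : ∃ y, y = S.zr (-((τ : ℂ) • S.iota x1)) (θ • T x) := ⟨_, rfl⟩
    have h5 : V3 x - (k1 * θ) • (S.zr w * T) x =
        S.zr ((τ : ℂ) • S.iota x3) (Q (S.zr (-((τ : ℂ) • S.iota x1)) (V x - θ • T x)) +
          (Q y - y)) := by
      rw [map_sub (S.zr (-((τ : ℂ) • S.iota x1))), ← hy, map_sub Q, sub_add_sub_cancel,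
        map_sub, ← hV2, hy, hk1', map_smul (S.zr w), hV3, smul_smul]
      rfl
    rw [h5, LinearIsometryEquiv.norm_map]
    refine (norm_add_le _ _).trans ?_
    rw [LinearIsometryEquiv.norm_map, LinearIsometryEquiv.norm_map]
    have h6 := hSt.i2 c x hx
    have h7 : ‖Q y - y‖ ≤ Cw * (C * c) * ε ^ 2 := by
      refine hQ _ _ ?_
      rw [hy]
      exact sg_frm_zr hN _ (sg_phase hN hSt.th (hSt.T_nice c x hx).1)
    have h8 : Cw * (C * c) * ε ^ 2 ≤ Cw * (C * c) * ε := by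
      refine mul_le_mul_of_nonneg_left ?_ (by positivity)
      nlinarith
    have h9 : (C + Cw * C) * (c * ε) ≤ C' * (c * ε) :=
      mul_le_mul_of_nonneg_right h4 (by positivity)
    linarith
  · rw [← hk2', ← hφ, hV3, sg_mul_inv]
    have h5 : (S.zr ((τ : ℂ) • S.iota x3))⁻¹ (S.Z (S.zr ((τ : ℂ) • S.iota x3) (R φ))) =
        S.Z (R φ) := by
      apply inv_apply_eq
      rw [sg_Z_zr]
    rw [h5]
    have h6 : V2 (V⁻¹ (S.Z (S.zr (-(((σ / ε : ℝ) : ℂ) • a)) η))) = Q (S.Z φ) := by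
      rw [hV2, sg_inv, hφ, S.sg_Z_zr (-((τ : ℂ) • S.iota x1))]
    have h7 : V2⁻¹ (S.Z (R φ)) - ((-σ : ℝ) : ℂ) • e =
        -(V2⁻¹ (Q (-S.Z φ) - S.Z (R φ))) -
        (V⁻¹ (S.Z (S.zr (-(((σ / ε : ℝ) : ℂ) • a)) η)) - (σ : ℂ) • e) := by
      have h8 : V2⁻¹ (Q (-S.Z φ)) = -(V⁻¹ (S.Z (S.zr (-(((σ / ε : ℝ) : ℂ) • a)) η))) := by
        rw [map_neg, ← h6, map_neg, sg_inv']
      rw [map_sub, h8, ofReal_neg, neg_smul]
      abel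
    rw [h7]
    refine (norm_sub_le _ _).trans ?_
    rw [norm_neg, LinearIsometryEquiv.norm_map]
    have h9 : (C + Cw * C) * ε ≤ C' * ε := mul_le_mul_of_nonneg_right h4 hε.le
    linarith [hSt.i6]

lemma sg_xv_norm (V : H ≃ₗᵢ[ℂ] H) : ‖S.xv V‖ = 1 := by
  unfold xv
  rw [LinearIsometryEquiv.norm_map, LinearIsometryEquiv.norm_map, LinearIsometryEquiv.norm_map,
    S.nOm]

/-- one label gate, at fixed `ε` -/
lemma sg_one (hN : S.NStmt) {C Cw C' M D w₀ δ' ε κ σ τ : ℝ} (hC : 0 ≤ C) (hCw : 0 ≤ Cw)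
    (hδ' : 0 < δ') (hδκ : δ' ≤ |κ| / 2) (hM : M = |κ| + 3 * C + C)
    (hD : D = 4 * C + 8 * Cw * C) (hw₀ : w₀ = |κ| / 2 * (4 * C + D))
    (hC' : C' = C + |κ| + |κ| / 2 * D + (4 * C + D) +
      2 * (1 + 2 * w₀) ^ 2 * C + (C + 4 * Cw * C) + Real.pi / 2 / δ')
    (hε : 0 < ε) (hε1 : ε ≤ 1)
    (hww : ∀ (s' : ℝ) (V : H ≃ₗᵢ[ℂ] H) (c : K) (t1 t2 : ℝ),
      S.Ctx M δ' ε s' V c t1 t2 → ∀ s1 s2 : ℝ,
      s1 = ε * (Real.pi / 2 / S.alp t1 V c) → s2 = ε * (Real.pi / 2 / S.alp t2 V c) →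
      (∀ c0 z, S.Frm (((s' / ε : ℝ) : ℂ) • S.iota (S.xv V)) c0 z →
        ‖(S.wv t1 t2 s1 s2 V * V⁻¹) z - z‖ ≤ Cw * c0 * ε ^ 2) ∧
      (∀ c0 z, S.Frm (((1 / ε : ℝ) : ℂ) • c) c0 z →
        ‖(S.wv t1 t2 s1 s2 V * V⁻¹) z - S.xr (4 * (t1 - t2)) z‖ ≤ Cw * c0 * ε))
    {V T : H ≃ₗᵢ[ℂ] H} {θ : ℂ} {a : K} {η e : H} (hSt : S.St C ε V T θ σ a η e)
    (hal : δ' ≤ |(inner ℂ (S.iota (S.xv V)) a : ℂ).im|)
    (hτ : τ = -σ * κ / (2 * ε)) {V1 : H ≃ₗᵢ[ℂ] H}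
    (hV1 : V1 = S.zr (((-τ : ℝ) : ℂ) • S.iota (S.xv V)) * V) :
    ∃ t1 t2 s1 s2 : ℝ, |s1| ≤ C' * ε ∧ |s2| ≤ C' * ε ∧
      ∀ V2 V3 : H ≃ₗᵢ[ℂ] H,
        V2 = S.wv t1 t2 s1 s2 V1 → V3 = S.zr ((τ : ℂ) • S.iota (S.xv V2)) * V2 →
        ‖(τ : ℂ) • (S.xv V2 - S.xv V) - (κ : ℂ) • e‖ ≤ C' * ε ∧
        ‖S.xv V2 - S.xv V‖ ≤ C' * ε ∧
        ∃ θ' η', S.St C' ε V3 (S.zr ((τ : ℂ) • S.iota (S.xv V2 - S.xv V)) * T) θ' (-σ)
          (a - ((κ / 2 : ℝ) : ℂ) • S.iota (S.xv V + S.xv V2)) η' e := by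
  have hD0 : 0 ≤ D := by rw [hD]; positivity
  have hw₀0 : 0 ≤ w₀ := by rw [hw₀]; positivity
  have hpd : 0 ≤ Real.pi / 2 / δ' := by positivity
  have hk1 : 0 ≤ |κ| / 2 * D := by positivity
  have hk2 : 0 ≤ 2 * (1 + 2 * w₀) ^ 2 * C := by positivity
  have hk3 : 0 ≤ Cw * C := by positivity
  have hκ0 := abs_nonneg κ
  have hσ2 : σ * σ = 1 := by rcases hSt.sg with h | h <;> rw [h] <;> norm_num
  have hσa : |σ| = 1 := by rcases hSt.sg with h | h <;> rw [h] <;> norm_num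
  have hσn : ‖(σ : ℂ)‖ = 1 := by rw [Complex.norm_real, Real.norm_eq_abs, hσa]
  obtain ⟨s', hs'⟩ : ∃ s', s' = -σ * κ / 2 := ⟨_, rfl⟩
  have hsτ : s' / ε = τ := by rw [hτ, hs']; field_simp
  have hs'a : |s'| = |κ| / 2 := by
    rw [hs', abs_div, abs_mul, abs_neg, hσa, one_mul, abs_two]
  obtain ⟨x1, hx1⟩ : ∃ x1, x1 = S.iota (S.xv V) := ⟨_, rfl⟩
  have hx1n : ‖x1‖ = 1 := by rw [hx1, LinearIsometry.norm_map, sg_xv_norm]
  obtain ⟨c, hc⟩ : ∃ c : K, c = (s' : ℂ) • x1 + (σ : ℂ) • a := ⟨_, rfl⟩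
  have hxV1 : S.xv V1 = S.xv V := by rw [hV1, sg_xv_zr]
  have hself : (inner ℂ x1 x1 : ℂ).im = 0 := inner_self_im (𝕜 := ℂ) x1
  have hal' : δ' ≤ |(inner ℂ (S.iota (S.xv V1)) c : ℂ).im| := by
    rw [hxV1, ← hx1, hc, inner_add_right, inner_smul_right, inner_smul_right, add_im,
      im_ofReal_mul, im_ofReal_mul, hself, mul_zero, zero_add, abs_mul, hσa, one_mul, hx1]
    exact hal
  obtain ⟨t1, t2, ht12, ha1, ha2⟩ := S.sg_angles V1 c δ' (Real.pi / 8) hδ' (by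
    have h1 : Real.cos (Real.pi / 3) ≤ Real.cos (Real.pi / 8) := by
      apply Real.cos_le_cos_of_nonneg_of_le_pi
      · positivity
      · linarith [Real.pi_pos]
      · linarith [Real.pi_pos]
    rwa [Real.cos_pi_div_three] at h1) hal'
  have hsb : ∀ α : ℝ, δ' ≤ |α| → |ε * (Real.pi / 2 / α)| ≤ C' * ε := by
    intro α hα
    rw [abs_mul, abs_of_pos hε, abs_div, abs_of_pos (by positivity : 0 < Real.pi / 2), mul_comm]
    refine mul_le_mul_of_nonneg_right ?_ hε.le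
    have : Real.pi / 2 / |α| ≤ Real.pi / 2 / δ' := by gcongr
    rw [hC']
    linarith
  refine ⟨t1, t2, ε * (Real.pi / 2 / S.alp t1 V1 c), ε * (Real.pi / 2 / S.alp t2 V1 c),
    hsb _ ha1, hsb _ ha2, ?_⟩
  intro V2 V3 hV2 hV3
  -- the vectors
  obtain ⟨ψb, hψb⟩ : ∃ ψb, ψb = S.zr (-((τ : ℂ) • x1)) (θ • T S.Om) := ⟨_, rfl⟩
  obtain ⟨φ, hφ⟩ : ∃ φ, φ = S.zr (-((τ : ℂ) • x1)) (S.zr (-(((σ / ε : ℝ) : ℂ) • a)) η) :=
    ⟨_, rfl⟩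
  have hV1Ω : ∀ x, V1 x = S.zr (-((τ : ℂ) • x1)) (V x) := by
    intro x
    rw [hV1, hx1, ofReal_neg, neg_smul]
    rfl
  have hψn : S.Nice (C * 3) (θ • T S.Om) :=
    sg_phase hN hSt.th (hSt.T_nice 3 S.Om hN.om).1
  have hφf : S.Frm (((1 / ε : ℝ) : ℂ) • c) C φ := by
    have h1 : ((1 / ε : ℝ) : ℂ) • c = (τ : ℂ) • x1 + (((σ / ε : ℝ) : ℂ) • a) := by
      have h2 : (1 / ε) * s' = τ := by rw [← hsτ]; ring
      have h3 : (1 / ε) * σ = σ / ε := by ring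
      rw [hc, smul_add, smul_smul, smul_smul, ← ofReal_mul, ← ofReal_mul, h2, h3]
    rw [hφ, sg_zr_zr]
    refine sg_frm_smul hN (sg_exp_norm _) ?_
    rw [← neg_add, ← h1]
    exact sg_frm_zr hN _ hSt.eta
  have b1 : ‖V1 S.Om - ψb - (ε : ℂ) • φ‖ ≤ C * ε ^ 2 := by
    have h1 : V1 S.Om - ψb - (ε : ℂ) • φ = S.zr (-((τ : ℂ) • x1))
        (V S.Om - θ • T S.Om - (ε : ℂ) • S.zr (-(((σ / ε : ℝ) : ℂ) • a)) η) := by
      rw [hV1Ω, hψb, hφ, map_sub, map_sub, map_smul (S.zr (-((τ : ℂ) • x1))) (ε : ℂ)]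
    rw [h1, LinearIsometryEquiv.norm_map]
    exact hSt.i1
  have hCtx : S.Ctx M δ' ε s' V1 c t1 t2 := by
    refine ⟨?_, Or.inr ?_, ?_, ⟨θ • T S.Om, φ, ?_, ?_, ?_⟩, hal', ha1, ha2⟩
    · rw [hs'a, hM]; linarith
    · rw [hs'a]; exact hδκ
    · rw [hc]
      refine (norm_add_le _ _).trans ?_
      rw [norm_smul, norm_smul, Complex.norm_real, Complex.norm_real, Real.norm_eq_abs,
        Real.norm_eq_abs, hs'a, hσa, hx1n, hM]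
      linarith [hSt.a_le]
    · exact sg_mono hψn (by rw [hM]; linarith)
    · exact sg_fmono hφf (by rw [hM]; linarith)
    · rw [hxV1, hsτ, ← hx1, ← hψb]
      refine b1.trans (mul_le_mul_of_nonneg_right ?_ (sq_nonneg _))
      rw [hM]
      linarith
  obtain ⟨hw1, hw2⟩ := hww s' V1 c t1 t2 hCtx _ _ rfl rfl
  rw [hxV1, hsτ, ← hx1] at hw1
  have h4 : 4 * (t1 - t2) = Real.pi / 2 := by rw [ht12]; ring
  rw [h4, ← hV2] at hw2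
  rw [← hV2] at hw1
  obtain ⟨Q, hQ⟩ : ∃ Q, Q = V2 * V1⁻¹ := ⟨_, rfl⟩
  rw [← hQ] at hw1 hw2
  have hV2Q : ∀ x, V2 x = Q (V1 x) := by
    intro x
    rw [hQ, sg_mul, sg_inv']
  obtain ⟨R, hR⟩ : ∃ R, R = S.xr (Real.pi / 2) := ⟨_, rfl⟩
  rw [← hR] at hw2
  have hRx : ∀ x, R x = (-I) • S.X x := by intro x; rw [hR]; exact S.sg_xr_pi x
  have hψf : S.Frm ((τ : ℂ) • x1) (C * 3) ψb := by rw [hψb]; exact sg_frm_zr hN _ hψn
  have hZψ : S.Frm ((τ : ℂ) • x1) (C * 3) (S.Z ψb) :=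
    sg_frm_op hN hψf S.Z (fun a x => S.WZ a x)
  have hZφ : S.Frm (((1 / ε : ℝ) : ℂ) • c) C (-S.Z φ) := by
    have h1 := sg_frm_smul hN (k := -1) (by simp) (sg_frm_op hN hφf S.Z (fun a x => S.WZ a x))
    rwa [neg_one_smul] at h1
  have b6 : ‖Q (-S.Z φ) - S.Z (R φ)‖ ≤ Cw * C * ε := by
    have h1 := hw2 _ _ hZφ
    have h2 : R (-S.Z φ) = S.Z (R φ) := by
      rw [hRx, hRx, map_neg, map_smul, S.XZ, neg_neg]
    rwa [h2] at h1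
  have b4 := sg_core1 V1 V2 Q R S.Om ψb φ hε hV2Q b1 (hw1 _ _ hψf) (hw2 _ _ hφf)
  have hφe : V1⁻¹ (S.Z φ) = V⁻¹ (S.Z (S.zr (-(((σ / ε : ℝ) : ℂ) • a)) η)) := by
    apply inv_apply_eq
    rw [hV1Ω, sg_inv, hφ, S.sg_Z_zr (-((τ : ℂ) • x1))]
  have b10 : ‖V1⁻¹ (S.Z φ) - (σ : ℂ) • e‖ ≤ C * ε := by
    rw [hφe]; exact hSt.i6
  have b11 := S.sg_core2 V1 V2 Q R ψb φ e hε hV2Q b1 b4 (hw1 _ _ hZψ) b6 b10
  rw [hxV1, ← hD] at b11
  have hen : ‖e‖ ≤ 2 * C := by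
    have h1 : ‖(σ : ℂ) • e‖ ≤ ‖V1⁻¹ (S.Z φ)‖ + ‖V1⁻¹ (S.Z φ) - (σ : ℂ) • e‖ := by
      have h2 := norm_sub_le (V1⁻¹ (S.Z φ)) (V1⁻¹ (S.Z φ) - (σ : ℂ) • e)
      rwa [sub_sub_cancel] at h2
    rw [norm_smul, hσn, one_mul] at h1
    have h3 : ‖V1⁻¹ (S.Z φ)‖ = ‖η‖ := by
      rw [hφe]; simp only [LinearIsometryEquiv.norm_map]
    have h4 : C * ε ≤ C := mul_le_of_le_one_right hC hε1
    linarith [b10, hSt.eta.m0]
  obtain ⟨hτa, hB, hA⟩ := sg_core3 hε hε1 hD0 hσ2 hσa hτ hen b11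
  have hwn : ‖(τ : ℂ) • S.iota (S.xv V2 - S.xv V)‖ ≤ w₀ := by
    rw [norm_smul, LinearIsometry.norm_map, Complex.norm_real, Real.norm_eq_abs]
    calc |τ| * _ ≤ |τ| * ((4 * C + D) * ε) := mul_le_mul_of_nonneg_left hB (abs_nonneg _)
      _ = |τ| * ε * (4 * C + D) := by ring
      _ = _ := by rw [hτa, hw₀]
  refine ⟨hA.trans ?_, hB.trans ?_, ?_⟩
  · refine mul_le_mul_of_nonneg_right ?_ hε.le
    rw [hC']; linarith
  · refine mul_le_mul_of_nonneg_right ?_ hε.le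
    rw [hC']; linarith
  · refine S.sg_final hN hε hε1 hCw hC hSt hτ (S.sg_xv_norm V) (S.sg_xv_norm V2) hwn hR hV3
      ?_ ?_ ?_ ?_ b4 b6 ?_ ?_ ?_ ?_
    · intro x
      rw [hV2Q, hV1Ω, hx1]
    · intro c0 z hz
      rw [← hx1] at hz
      exact hw1 c0 z hz
    · rw [hψb, hx1]
    · rw [hφ, hx1]
    · rw [hC']; linarith
    · rw [hC']; linarith
    · rw [hC']; linarith
    · rw [hC']; linarith

theorem sg (hN : S.NStmt) (hWW : S.WWStmt) : S.SGStmt := by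
  intro C κ δ hC hκ hδ
  obtain ⟨δ', hδ'⟩ : ∃ d, d = min δ (|κ| / 2) := ⟨_, rfl⟩
  have hκ0 : 0 < |κ| := abs_pos.2 hκ
  have hδ'0 : 0 < δ' := by rw [hδ']; exact lt_min hδ (by positivity)
  have hδ'1 : δ' ≤ δ := by rw [hδ']; exact min_le_left _ _
  have hδ'2 : δ' ≤ |κ| / 2 := by rw [hδ']; exact min_le_right _ _
  obtain ⟨Cw, ε₀, hCw, hε₀, hww⟩ := hWW (|κ| + 3 * C + C) δ' (by positivity) hδ'0
  refine ⟨C + |κ| + |κ| / 2 * (4 * C + 8 * Cw * C) + (4 * C + (4 * C + 8 * Cw * C)) +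
      2 * (1 + 2 * (|κ| / 2 * (4 * C + (4 * C + 8 * Cw * C)))) ^ 2 * C + (C + 4 * Cw * C) +
      Real.pi / 2 / δ', min ε₀ 1, ?_, lt_min hε₀ one_pos, ?_⟩
  · have hpd : 0 ≤ Real.pi / 2 / δ' := by positivity
    have hk1 : 0 ≤ |κ| / 2 * (4 * C + 8 * Cw * C) := by positivity
    have hk2 : 0 ≤ 2 * (1 + 2 * (|κ| / 2 * (4 * C + (4 * C + 8 * Cw * C)))) ^ 2 * C := by
      positivity
    have hk3 : 0 ≤ Cw * C := by positivity
    linarith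
  · intro ε hε hε1 V T θ σ a η e hSt hal
    obtain ⟨t1, t2, s1, s2, h1, h2, h3⟩ := S.sg_one hN hC hCw hδ'0 hδ'2 rfl rfl rfl rfl hε
      (hε1.trans (min_le_right _ _)) (hww ε hε (hε1.trans (min_le_left _ _))) hSt
      (hδ'1.trans hal) rfl rfl
    refine ⟨t1, t2, s1, s2, _, h1, h2, rfl, ?_⟩
    intro V1 V2 V3 hV1 hV2 hV3
    rw [hV1] at hV2
    exact h3 V2 V3 hV2 hV3

end Sys

end Vale.Agent.P367.A
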