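import Vale.Agent.P367.A.AssA

/-! P367, Theorem A, block F, master induction: the simulation statement from the steps. -/

namespace Vale.Agent.P367.A

open Complex Filter Topology

open Vale.Agent.P367.NI (Gate)

namespace Sys

variable {H K : Type*} [NormedAddCommGroup H] [InnerProductSpace ℂ H]
  [NormedAddCommGroup K] [InnerProductSpace ℂ K] (S : Sys H K)

/-! ### Congruence -/

lemma si_lw {v v' : ℕ → K} : ∀ u : List Gate, (∀ i < u.length, v i = v' i) →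
    S.lw v u = S.lw v' u := by
  intro u
  induction u with
  | nil => intro _; rfl
  | cons g u ih =>
    intro h
    have h1 := ih fun i hi => h i (by rw [List.length_cons]; omega)
    have h2 := h u.length (by rw [List.length_cons]; omega)
    cases g with
    | B b => show S.xr b * S.lw v u = S.xr b * S.lw v' u; rw [h1]
    | C γ => show S.zr (v u.length) * S.lw v u = S.zr (v' u.length) * S.lw v' u; rw [h1, h2]
    | G κ => show S.zr (v u.length) * S.lw v u = S.zr (v' u.length) * S.lw v' u; rw [h1, h2]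

lemma si_good {d : ℝ} {e : K} {x x' : ℕ → H} {v v' : ℕ → K} : ∀ u : List Gate,
    (∀ i < u.length, x i = x' i) → (∀ i < u.length, v i = v' i) →
    S.Good d e x v u → S.Good d e x' v' u := by
  intro u
  induction u with
  | nil => intro _ _ _; trivial
  | cons g u ih =>
    intro hx hv h
    have hx' : ∀ i < u.length, x i = x' i := fun i hi => hx i (by rw [List.length_cons]; omega)
    have hv' : ∀ i < u.length, v i = v' i := fun i hi => hv i (by rw [List.length_cons]; omega)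
    have h1 := ih hx' hv'
    have h2 := S.si_lw u hv'
    have h3 := hx u.length (by rw [List.length_cons]; omega)
    have h4 := hv u.length (by rw [List.length_cons]; omega)
    cases g with
    | B b => exact ⟨h1 h.1, by rw [← h2, ← h3]; exact h.2.1, by rw [← h3]; exact h.2.2⟩
    | C γ =>
      exact ⟨h1 h.1, by rw [← h2, ← h3]; exact h.2.1, by rw [← h3]; exact h.2.2.1,
        by rw [← h3, ← h4]; exact h.2.2.2⟩
    | G κ =>
      exact ⟨h1 h.1, by rw [← h2, ← h3]; exact h.2.1, by rw [← h3]; exact h.2.2.1,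
        by rw [← h4]; exact h.2.2.2⟩

lemma si_aSum {x x' : ℕ → H} : ∀ u : List Gate, (∀ i < u.length, x i = x' i) →
    aSum x u = aSum x' u := by
  intro u
  induction u with
  | nil => intro _; rfl
  | cons g u ih =>
    intro h
    have h1 := ih fun i hi => h i (by rw [List.length_cons]; omega)
    have h2 := h u.length (by rw [List.length_cons]; omega)
    cases g with
    | B b => exact h1
    | C γ => exact h1
    | G κ =>
      show (κ : ℂ) • x u.length + aSum x u = (κ : ℂ) • x' u.length + aSum x' u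
      rw [h1, h2]

lemma si_eSum {x x' : ℕ → H} (y : H) : ∀ u : List Gate, (∀ i < u.length, x i = x' i) →
    eSum x y u = eSum x' y u := by
  intro u
  induction u with
  | nil => intro _; rfl
  | cons g u ih =>
    intro h
    have h1 := ih fun i hi => h i (by rw [List.length_cons]; omega)
    have h2 := h u.length (by rw [List.length_cons]; omega)
    cases g with
    | B b => exact h1
    | C γ =>
      show -(γ * ((inner ℂ (x u.length) y) ^ 2 : ℂ).im) + eSum x y u =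
        -(γ * ((inner ℂ (x' u.length) y) ^ 2 : ℂ).im) + eSum x' y u
      rw [h1, h2]
    | G κ => exact h1

/-! ### The pulse words -/

lemma si_xr_inv (b : ℝ) : (S.xr b)⁻¹ = S.xr (-b) := by
  ext x
  refine inv_apply_eq ?_
  exact S.xrL_xrL_neg b x

lemma si_xr_inv' (b : ℝ) : (S.xr (-b))⁻¹ = S.xr b := by
  rw [S.si_xr_inv, neg_neg]

lemma si_xv_xr (t : ℝ) (V : H ≃ₗᵢ[ℂ] H) : S.xv (S.xr t * V) = S.xt (-t) V := by
  show (S.xr t * V)⁻¹ (S.Z ((S.xr t * V) S.Om)) = V⁻¹ (S.Zt (-t) (V S.Om))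
  rw [mul_inv_rev, S.si_xr_inv]
  show V⁻¹ (S.xr (-t) (S.Z (S.xr t (V S.Om)))) =
    V⁻¹ (S.xr (-t) (S.Z (S.xr (-(-t)) (V S.Om))))
  rw [neg_neg]

/-- the word of one pulse -/
def psw (t s : ℝ) (u : List Gate) : List Gate := Gate.B t :: Gate.C s :: Gate.B (-t) :: u

/-- the word of the four-pulse word -/
def wvw (t1 t2 s1 s2 : ℝ) (u : List Gate) : List Gate :=
  psw t1 (-s1) (psw t2 (-s2) (psw t1 s1 (psw t2 s2 u)))

lemma ev_psw (t s : ℝ) (u : List Gate) : S.ev (psw t s u) = S.ps t s (S.ev u) := by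
  show S.xr t * (S.zr ((s : ℂ) • S.iota (S.xv (S.xr (-t) * S.ev u))) * (S.xr (-t) * S.ev u)) =
    S.xr t * S.zr ((s : ℂ) • S.iota (S.xt t (S.ev u))) * S.xr (-t) * S.ev u
  rw [S.si_xv_xr, neg_neg]
  simp only [mul_assoc]

lemma ev_wvw (t1 t2 s1 s2 : ℝ) (u : List Gate) :
    S.ev (wvw t1 t2 s1 s2 u) = S.wv t1 t2 s1 s2 (S.ev u) := by
  unfold wvw wv
  rw [ev_psw, ev_psw, ev_psw, ev_psw]

lemma si_plain_B {b : ℝ} {u : List Gate} (h : Plain u) : Plain (Gate.B b :: u) := by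
  intro g hg k
  rcases List.mem_cons.1 hg with h1 | h1
  · rw [h1]
    intro h2
    cases h2
  · exact h g h1 k

lemma si_plain_C {b : ℝ} {u : List Gate} (h : Plain u) : Plain (Gate.C b :: u) := by
  intro g hg k
  rcases List.mem_cons.1 hg with h1 | h1
  · rw [h1]
    intro h2
    cases h2
  · exact h g h1 k

lemma si_plain_psw {t s : ℝ} {u : List Gate} (h : Plain u) : Plain (psw t s u) :=
  si_plain_B (si_plain_C (si_plain_B h))

lemma si_plain_wvw {t1 t2 s1 s2 : ℝ} {u : List Gate} (h : Plain u) :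
    Plain (wvw t1 t2 s1 s2 u) :=
  si_plain_psw (si_plain_psw (si_plain_psw (si_plain_psw h)))

lemma si_sq_le {x y : H} (hx : ‖x‖ ≤ 1) (hy : ‖y‖ ≤ 1) : |((inner ℂ x y) ^ 2 : ℂ).im| ≤ 1 := by
  refine (Complex.abs_im_le_norm _).trans ?_
  rw [norm_pow]
  have h1 : ‖(inner ℂ x y : ℂ)‖ ≤ 1 := by
    refine (norm_inner_le_norm _ _).trans ?_
    nlinarith [norm_nonneg x, norm_nonneg y]
  exact pow_le_one₀ (norm_nonneg _) h1

lemma eaux_psw (t s : ℝ) (u : List Gate) {y : H} (hy : ‖y‖ ≤ 1) :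
    |S.eaux y (psw t s u) - S.eaux y u| ≤ |s| := by
  show |-(s * ((inner ℂ (S.xv (S.ev (Gate.B (-t) :: u))) y) ^ 2 : ℂ).im) + S.eaux y u -
    S.eaux y u| ≤ |s|
  rw [add_sub_cancel_right, abs_neg, abs_mul]
  have h := si_sq_le (x := S.xv (S.ev (Gate.B (-t) :: u))) (y := y) (S.as_norm_xv _).le hy
  calc |s| * |((inner ℂ (S.xv (S.ev (Gate.B (-t) :: u))) y) ^ 2 : ℂ).im| ≤ |s| * 1 :=
        mul_le_mul_of_nonneg_left h (abs_nonneg _)
    _ = |s| := mul_one _

lemma eaux_wvw (t1 t2 s1 s2 : ℝ) (u : List Gate) {y : H} (hy : ‖y‖ ≤ 1) :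
    |S.eaux y (wvw t1 t2 s1 s2 u) - S.eaux y u| ≤ 2 * |s1| + 2 * |s2| := by
  have h1 := S.eaux_psw t2 s2 u hy
  have h2 := S.eaux_psw t1 s1 (psw t2 s2 u) hy
  have h3 := S.eaux_psw t2 (-s2) (psw t1 s1 (psw t2 s2 u)) hy
  have h4 := S.eaux_psw t1 (-s1) (psw t2 (-s2) (psw t1 s1 (psw t2 s2 u))) hy
  rw [abs_neg] at h3 h4
  rw [abs_le] at *
  unfold wvw
  constructor <;> linarith

/-! ### Alignment -/

/-- total strength of the label gates -/
def asK : List Gate → ℝ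
  | [] => 0
  | Gate.G κ :: u => |κ| + asK u
  | Gate.B _ :: u => asK u
  | Gate.C _ :: u => asK u

lemma asK_nonneg : ∀ u : List Gate, 0 ≤ asK u := by
  intro u
  induction u with
  | nil => exact le_rfl
  | cons g u ih =>
    cases g with
    | B b => exact ih
    | C γ => exact ih
    | G κ => exact add_nonneg (abs_nonneg _) ih

lemma as_laux {w : List Gate} (y : H) :
    ∀ (u p : List Gate), w = p ++ u → (inner ℂ (aSum (S.asX w) u) y : ℂ).im = S.laux y u := by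
  intro u
  induction u with
  | nil =>
    intro p _
    show (inner ℂ (0 : H) y : ℂ).im = 0
    rw [inner_zero_left, Complex.zero_im]
  | cons g u ih =>
    intro p h
    have h1 : w = (p ++ [g]) ++ u := by rw [h, List.append_assoc]; rfl
    have h2 := ih _ h1
    cases g with
    | B b => exact h2
    | C γ => exact h2
    | G κ =>
      show (inner ℂ ((κ : ℂ) • S.asX w u.length + aSum (S.asX w) u) y : ℂ).im =
        κ * (inner ℂ (S.xv (S.ev u)) y : ℂ).im + S.laux y u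
      rw [inner_add_left, inner_smul_left, Complex.add_im, h2, S.asX_eq h1, Complex.conj_ofReal,
        Complex.im_ofReal_mul]

lemma as_adiff {x x' : ℕ → H} {y y' : H} {δ : ℝ} : ∀ (u : List Gate),
    (∀ i < u.length, ‖(inner ℂ (x i) y : ℂ) - inner ℂ (x' i) y'‖ ≤ δ) →
    ‖(inner ℂ (aSum x u) y : ℂ) - inner ℂ (aSum x' u) y'‖ ≤ asK u * δ := by
  intro u
  induction u with
  | nil =>
    intro _
    show ‖(inner ℂ (0 : H) y : ℂ) - inner ℂ (0 : H) y'‖ ≤ 0 * δ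
    rw [inner_zero_left, inner_zero_left, sub_zero, norm_zero, zero_mul]
  | cons g u ih =>
    intro h
    have h2 := ih fun i hi => h i (by rw [List.length_cons]; omega)
    cases g with
    | B b => exact h2
    | C γ => exact h2
    | G κ =>
      have h3 := h u.length (by rw [List.length_cons]; omega)
      show ‖(inner ℂ ((κ : ℂ) • x u.length + aSum x u) y : ℂ) -
        inner ℂ ((κ : ℂ) • x' u.length + aSum x' u) y'‖ ≤ (|κ| + asK u) * δ
      have e : (inner ℂ ((κ : ℂ) • x u.length + aSum x u) y : ℂ) -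
        inner ℂ ((κ : ℂ) • x' u.length + aSum x' u) y' =
        (κ : ℂ) * ((inner ℂ (x u.length) y : ℂ) - inner ℂ (x' u.length) y') +
        ((inner ℂ (aSum x u) y : ℂ) - inner ℂ (aSum x' u) y') := by
        rw [inner_add_left, inner_add_left, inner_smul_left, inner_smul_left,
          Complex.conj_ofReal]
        ring
      rw [e, add_mul]
      refine (norm_add_le _ _).trans (add_le_add ?_ h2)
      rw [norm_mul, Complex.norm_real, Real.norm_eq_abs]
      exact mul_le_mul_of_nonneg_left h3 (abs_nonneg _)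

lemma as_aSum_norm {x : ℕ → H} {c : ℝ} : ∀ (u : List Gate),
    (∀ i < u.length, ‖x i‖ ≤ c) → ‖aSum x u‖ ≤ asK u * c := by
  intro u
  induction u with
  | nil =>
    intro _
    show ‖(0 : H)‖ ≤ 0 * c
    rw [norm_zero, zero_mul]
  | cons g u ih =>
    intro h
    have h2 := ih fun i hi => h i (by rw [List.length_cons]; omega)
    cases g with
    | B b => exact h2
    | C γ => exact h2
    | G κ =>
      have h3 := h u.length (by rw [List.length_cons]; omega)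
      show ‖(κ : ℂ) • x u.length + aSum x u‖ ≤ (|κ| + asK u) * c
      rw [add_mul]
      refine (norm_add_le _ _).trans (add_le_add ?_ h2)
      rw [norm_smul, Complex.norm_real, Real.norm_eq_abs]
      exact mul_le_mul_of_nonneg_left h3 (abs_nonneg _)

/-- The alignment of a labelled word is seen by the simulation.  `g` is a word `p ++ w` (with
`p = []` or `p = [B b]`); only gates of `w` carry labels. -/
lemma si_align (hG : S.GStmt) (w p : List Gate) (hp : asK (p ++ w) = asK w)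
    (ha : ∀ x : ℕ → H, aSum x (p ++ w) = aSum x w) (hal : S.al (p ++ w) ≠ 0)
    {D : ℝ} (hD : 0 ≤ D) : ∃ δ ε₀ : ℝ, 0 < δ ∧ 0 < ε₀ ∧ ∀ ε, 0 < ε → ε ≤ ε₀ →
    ∀ (e : H) (x : ℕ → H) (v : ℕ → K) (y : H) (a : K), ‖e‖ = 1 →
      S.Good (D * ε) (S.iota e) x v (p ++ w) → ‖y‖ = 1 →
      ‖y - S.xv (S.lw v (p ++ w))‖ ≤ D * ε → ‖a + S.iota (aSum x w)‖ ≤ D * ε →
      δ ≤ |(inner ℂ (S.iota y) a : ℂ).im| := by
  have hK := asK_nonneg w
  have hA : 0 < |S.al (p ++ w)| := abs_pos.2 hal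
  obtain ⟨δ1, hδ1, hδ1e⟩ : ∃ δ1 : ℝ, 0 < δ1 ∧ asK w * δ1 ≤ |S.al (p ++ w)| / 4 := by
    refine ⟨|S.al (p ++ w)| / (4 * (asK w + 1)), by positivity, ?_⟩
    have h1 : asK w * (|S.al (p ++ w)| / (4 * (asK w + 1))) =
        |S.al (p ++ w)| / 4 * (asK w / (asK w + 1)) := by
      field_simp
    rw [h1]
    have h2 : asK w / (asK w + 1) ≤ 1 := by
      rw [div_le_one (by linarith)]
      linarith
    nlinarith
  obtain ⟨d, hd, H2⟩ := hG (p ++ w) (S.asX (p ++ w)) (S.asV (p ++ w))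
    (S.as_good (w := p ++ w) (p ++ w) [] rfl) δ1 hδ1
  have hDK : 0 ≤ D * asK w := mul_nonneg hD hK
  obtain ⟨M, hM0, hM1, hM2⟩ : ∃ M : ℝ, 0 < M ∧ D ≤ M ∧ D + 2 * (D * asK w) ≤ M :=
    ⟨D + 2 * (D * asK w) + 1, by linarith, by linarith, by linarith⟩
  refine ⟨|S.al (p ++ w)| / 4, min d (min 1 (|S.al (p ++ w)| / 4)) / M, by positivity,
    by positivity, ?_⟩
  intro ε hε hε0 e x v y a he hGo hy hyx ha'
  have hMε : M * ε ≤ min d (min 1 (|S.al (p ++ w)| / 4)) := by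
    rw [le_div_iff₀ hM0] at hε0
    linarith
  have e1 : M * ε ≤ d := hMε.trans (min_le_left _ _)
  have e2 : M * ε ≤ 1 := hMε.trans ((min_le_right _ _).trans (min_le_left _ _))
  have e3 : M * ε ≤ |S.al (p ++ w)| / 4 :=
    hMε.trans ((min_le_right _ _).trans (min_le_right _ _))
  have hDM : D * ε ≤ M * ε := mul_le_mul_of_nonneg_right hM1 hε.le
  have hie : ‖S.iota e‖ = 1 := by rw [LinearIsometry.norm_map, he]
  have H3 := (H2 (S.iota e) x v hie (S.as_good_mono (hDM.trans e1) _ hGo)).2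
  have hlw : S.lw (S.asV (p ++ w)) (p ++ w) = S.ev (p ++ w) :=
    S.as_lw (w := p ++ w) (p ++ w) [] rfl
  rw [hlw] at H3
  have h4 := as_adiff (p ++ w) (fun i hi => (H3 i hi).le)
  have h5 : (inner ℂ (aSum (S.asX (p ++ w)) (p ++ w)) (S.xv (S.ev (p ++ w))) : ℂ).im =
      S.al (p ++ w) := S.as_laux (w := p ++ w) _ (p ++ w) [] rfl
  have h6 := (Complex.abs_im_le_norm _).trans h4
  rw [Complex.sub_im, h5, hp, ha] at h6
  have hxn : ‖aSum x w‖ ≤ asK w * 2 := by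
    refine as_aSum_norm w fun i hi => ?_
    have h7 := S.as_good_norm (p ++ w) hGo i (by rw [List.length_append]; omega)
    linarith
  have h8 : |(inner ℂ (aSum x w) y : ℂ).im - (inner ℂ (aSum x w) (S.xv (S.lw v (p ++ w))) : ℂ).im|
      ≤ asK w * 2 * (D * ε) := by
    rw [← Complex.sub_im, ← inner_sub_right]
    refine (Complex.abs_im_le_norm _).trans ((norm_inner_le_norm _ _).trans ?_)
    exact mul_le_mul hxn hyx (norm_nonneg _) (by positivity)
  have h9 : (inner ℂ (S.iota y) a : ℂ).im = (inner ℂ (S.iota y) (a + S.iota (aSum x w)) : ℂ).im +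
      (inner ℂ (aSum x w) y : ℂ).im := by
    rw [inner_add_right, Complex.add_im, LinearIsometry.inner_map_map]
    have : (inner ℂ y (aSum x w) : ℂ).im = -(inner ℂ (aSum x w) y : ℂ).im := by
      rw [← inner_conj_symm y (aSum x w), Complex.conj_im]
    rw [this]
    ring
  have h10 : |(inner ℂ (S.iota y) (a + S.iota (aSum x w)) : ℂ).im| ≤ D * ε := by
    refine (Complex.abs_im_le_norm _).trans ((norm_inner_le_norm _ _).trans ?_)
    rw [LinearIsometry.norm_map, hy, one_mul]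
    exact ha'
  have h11 : D * ε + asK w * 2 * (D * ε) ≤ M * ε := by
    have := mul_le_mul_of_nonneg_right hM2 hε.le
    nlinarith
  rw [h9]
  generalize (inner ℂ (S.iota y) (a + S.iota (aSum x w)) : ℂ).im = z1 at *
  generalize (inner ℂ (aSum x w) y : ℂ).im = z2 at *
  generalize (inner ℂ (aSum x w) (S.xv (S.lw v (p ++ w))) : ℂ).im = z3 at *
  have t1 : |S.al (p ++ w)| ≤ |z1 + z2| + |z1| + |z2 - z3| + |z3 - S.al (p ++ w)| := by
    have e5 : S.al (p ++ w) = (z1 + z2) - z1 - (z2 - z3) - (z3 - S.al (p ++ w)) := by ring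
    calc |S.al (p ++ w)| = |(z1 + z2) - z1 - (z2 - z3) - (z3 - S.al (p ++ w))| := by
          rw [← e5]
      _ ≤ |(z1 + z2) - z1 - (z2 - z3)| + |z3 - S.al (p ++ w)| := abs_sub _ _
      _ ≤ |(z1 + z2) - z1| + |z2 - z3| + |z3 - S.al (p ++ w)| := by
          gcongr
          exact abs_sub _ _
      _ ≤ |z1 + z2| + |z1| + |z2 - z3| + |z3 - S.al (p ++ w)| := by
          gcongr
          exact abs_sub _ _
  linarith

/-! ### Monotonicity -/

lemma si_nice_mono {c d : ℝ} {x : H} (h : S.Nice c x) (hcd : c ≤ d) : S.Nice d x where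
  m0 := h.m0.trans hcd
  m1 a := (h.m1 a).trans (mul_le_mul_of_nonneg_right hcd (norm_nonneg _))
  m2 a b := (h.m2 a b).trans (mul_le_mul_of_nonneg_right hcd (by positivity))

lemma si_st_mono {C C' ε : ℝ} (hC : C ≤ C') (hε : 0 ≤ ε) {V T : H ≃ₗᵢ[ℂ] H} {θ : ℂ} {σ : ℝ}
    {a : K} {η e : H} (h : S.St C ε V T θ σ a η e) : S.St C' ε V T θ σ a η e where
  th := h.th
  sg := h.sg
  a_le := h.a_le.trans hC
  eta := S.si_nice_mono h.eta hC
  T_nice c x hx := by
    have hc : 0 ≤ c := (norm_nonneg _).trans hx.m0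
    exact ⟨S.si_nice_mono (h.T_nice c x hx).1 (mul_le_mul_of_nonneg_right hC hc),
      S.si_nice_mono (h.T_nice c x hx).2 (mul_le_mul_of_nonneg_right hC hc)⟩
  i1 := h.i1.trans (mul_le_mul_of_nonneg_right hC (by positivity))
  i2 c x hx := by
    have hc : 0 ≤ c := (norm_nonneg _).trans hx.m0
    exact (h.i2 c x hx).trans
      (mul_le_mul_of_nonneg_right (mul_le_mul_of_nonneg_right hC hc) hε)
  i6 := h.i6.trans (mul_le_mul_of_nonneg_right hC hε)

lemma si_lv_mono {C C' ε : ℝ} (hC : C ≤ C') (hε : 0 ≤ ε) {e : H} (h : S.Lv C ε e) :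
    S.Lv C' ε e where
  n := h.n
  perp c x hx := by
    have hc : 0 ≤ c := (norm_nonneg _).trans hx.m0
    exact (h.perp c x hx).trans
      (mul_le_mul_of_nonneg_right (mul_le_mul_of_nonneg_right hC hc) hε)

/-! ### The steps -/

/-- simulation for all small `ε` -/
def PSim (w : List Gate) : Prop :=
  ∃ C ε₀ : ℝ, 0 ≤ C ∧ 0 < ε₀ ∧ ∀ ε, 0 < ε → ε ≤ ε₀ → S.Sim C ε w

lemma si_upx {α : Type*} (x : ℕ → α) (n : ℕ) (z : α) :
    ∀ i < n, x i = Function.update x n z i := fun i hi => by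
  rw [Function.update_of_ne (Nat.ne_of_lt hi)]

/-- extension of a good assignment by one gate -/
lemma si_common {w : List Gate} {C C1 D ε : ℝ} (h1 : C * ε ≤ D * ε) (h2 : C1 * ε ≤ D * ε)
    {V : H ≃ₗᵢ[ℂ] H} {e : H} {x : ℕ → H} {v : ℕ → K} (z : K)
    (hGo : S.Good (C * ε) (S.iota e) x v w) (hX2 : ‖S.xv V - S.xv (S.lw v w)‖ ≤ C1 * ε)
    (hX3 : ‖(inner ℂ e (S.xv V) : ℂ)‖ ≤ C1 * ε) :
    S.Good (D * ε) (S.iota e) (Function.update x w.length (S.xv V))
      (Function.update v w.length z) w ∧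
    ‖Function.update x w.length (S.xv V) w.length -
      S.xv (S.lw (Function.update v w.length z) w)‖ ≤ D * ε ∧
    ‖(inner ℂ (S.iota e) (S.iota (Function.update x w.length (S.xv V) w.length)) : ℂ)‖ ≤
      D * ε := by
  refine ⟨S.si_good w (si_upx _ _ _) (si_upx _ _ _) (S.as_good_mono h1 w hGo), ?_, ?_⟩
  · rw [Function.update_self, ← S.si_lw w (si_upx v w.length z)]
    exact hX2.trans h2
  · rw [Function.update_self, LinearIsometry.inner_map_map]
    exact hX3.trans h2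

theorem si_C (hN : S.NStmt) (hSC : S.SCStmt) {w : List Gate} (γ : ℝ) (h : S.PSim w) :
    S.PSim (Gate.C γ :: w) := by
  obtain ⟨C, ε₀, hC, hε₀, H1⟩ := h
  obtain ⟨C1, hC1, HX⟩ := S.xStmt hN C hC
  obtain ⟨C2, ε2, hC2, hε2, HS⟩ := hSC C γ hC
  refine ⟨C + C1 + C2, min ε₀ (min 1 ε2), by linarith, by positivity, ?_⟩
  intro ε hε hε'
  have u0 : ε ≤ ε₀ := hε'.trans (min_le_left _ _)
  have u1 : ε ≤ 1 := hε'.trans ((min_le_right _ _).trans (min_le_left _ _))
  have u2 : ε ≤ ε2 := hε'.trans ((min_le_right _ _).trans (min_le_right _ _))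
  obtain ⟨r, θ, σ, a, η, e, x, v, hr, hSt, hL, hGo, ha, hE⟩ := H1 ε hε u0
  obtain ⟨-, hX2, hX3⟩ := HX ε hε u1 _ _ _ _ _ _ _ hSt
  obtain ⟨η', hSt'⟩ := HS ε hε u2 _ _ _ _ _ _ _ hSt
  have k1 : C * ε ≤ (C + C1 + C2) * ε := mul_le_mul_of_nonneg_right (by linarith) hε.le
  have k2 : C1 * ε ≤ (C + C1 + C2) * ε := mul_le_mul_of_nonneg_right (by linarith) hε.le
  obtain ⟨g1, g2, g3⟩ := S.si_common k1 k2 ((γ : ℂ) • S.iota (S.xv (S.ev r))) hGo hX2 (hX3 hL)
  refine ⟨Gate.C γ :: r, θ, σ, a, η', e, Function.update x w.length (S.xv (S.ev r)),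
    Function.update v w.length ((γ : ℂ) • S.iota (S.xv (S.ev r))), si_plain_C hr, ?_,
    S.si_lv_mono (by linarith) hε.le hL, ⟨g1, g2, g3, ?_⟩, ?_, ?_⟩
  · have e1 : S.lw (Function.update v w.length ((γ : ℂ) • S.iota (S.xv (S.ev r))))
        (Gate.C γ :: w) = S.zr ((γ : ℂ) • S.iota (S.xv (S.ev r))) * S.lw v w := by
      show S.zr (Function.update v w.length ((γ : ℂ) • S.iota (S.xv (S.ev r))) w.length) *
        S.lw _ w = _
      rw [Function.update_self, ← S.si_lw w (si_upx v w.length _)]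
    rw [e1]
    exact S.si_st_mono (by linarith) hε.le hSt'
  · rw [Function.update_self, Function.update_self]
  · show ‖a + S.iota (aSum _ w)‖ ≤ _
    rw [← si_aSum w (si_upx x w.length _)]
    exact ha.trans k1
  · intro y hy
    show |(-(γ * ((inner ℂ (S.xv (S.ev r)) y) ^ 2 : ℂ).im) + S.eaux y r) -
      (-(γ * ((inner ℂ (Function.update x w.length (S.xv (S.ev r)) w.length) y) ^ 2 : ℂ).im) +
        eSum (Function.update x w.length (S.xv (S.ev r))) y w)| ≤ _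
    rw [Function.update_self, ← si_eSum y w (si_upx x w.length _), add_sub_add_left_eq_sub]
    refine (hE y hy).trans (add_le_add k1 ?_)
    exact mul_le_mul_of_nonneg_right (by linarith) (norm_nonneg _)

theorem si_B (hN : S.NStmt) (hG : S.GStmt) (hSB : S.SBStmt) {w : List Gate} (b : ℝ)
    (hb : |b| ≤ Real.pi) (hal : S.al (Gate.B b :: w) ≠ 0) (h : S.PSim w) :
    S.PSim (Gate.B b :: w) := by
  obtain ⟨C, ε₀, hC, hε₀, H1⟩ := h
  obtain ⟨C1, hC1, HX⟩ := S.xStmt hN C hC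
  obtain ⟨δ, ε1, hδ, hε1, HA⟩ := S.si_align hG w [Gate.B b] rfl (fun _ => rfl) hal
    (D := C + C1) (by linarith)
  obtain ⟨C2, ε2, hC2, hε2, HS⟩ := hSB C b δ hC hb hδ
  refine ⟨C + C1 + 5 * C2, min ε₀ (min 1 (min ε1 ε2)), by linarith, by positivity, ?_⟩
  intro ε hε hε'
  have u0 : ε ≤ ε₀ := hε'.trans (min_le_left _ _)
  have u1 : ε ≤ 1 := hε'.trans ((min_le_right _ _).trans (min_le_left _ _))
  have u2 : ε ≤ ε1 :=
    hε'.trans ((min_le_right _ _).trans ((min_le_right _ _).trans (min_le_left _ _)))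
  have u3 : ε ≤ ε2 :=
    hε'.trans ((min_le_right _ _).trans ((min_le_right _ _).trans (min_le_right _ _)))
  obtain ⟨r, θ, σ, a, η, e, x, v, hr, hSt, hL, hGo, ha, hE⟩ := H1 ε hε u0
  obtain ⟨hX1, hX2, hX3⟩ := HX ε hε u1 _ _ _ _ _ _ _ hSt
  have k1 : C * ε ≤ (C + C1 + 5 * C2) * ε := mul_le_mul_of_nonneg_right (by linarith) hε.le
  have k2 : C1 * ε ≤ (C + C1 + 5 * C2) * ε := mul_le_mul_of_nonneg_right (by linarith) hε.le
  have k3 : C * ε ≤ (C + C1) * ε := mul_le_mul_of_nonneg_right (by linarith) hε.le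
  have k4 : C1 * ε ≤ (C + C1) * ε := mul_le_mul_of_nonneg_right (by linarith) hε.le
  obtain ⟨g1, g2, g3⟩ := S.si_common k1 k2 (0 : K) hGo hX2 (hX3 hL)
  obtain ⟨f1, f2, f3⟩ := S.si_common k3 k4 (0 : K) hGo hX2 (hX3 hL)
  have e1 : S.lw (Function.update v w.length 0) (Gate.B b :: w) = S.xr b * S.lw v w := by
    show S.xr b * S.lw _ w = _
    rw [← S.si_lw w (si_upx v w.length _)]
  have e2 : ‖S.xv (S.xr b * S.ev r) -
      S.xv (S.lw (Function.update v w.length 0) ([Gate.B b] ++ w))‖ ≤ (C + C1) * ε := by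
    rw [List.singleton_append, e1, S.si_xv_xr, S.si_xv_xr]
    exact (hX1 (-b)).trans k4
  have e3 : ‖a + S.iota (aSum (Function.update x w.length (S.xv (S.ev r))) w)‖ ≤
      (C + C1) * ε := by
    rw [← si_aSum w (si_upx x w.length _)]
    exact ha.trans k3
  have hδa := HA ε hε u2 e (Function.update x w.length (S.xv (S.ev r)))
    (Function.update v w.length 0) (S.xv (S.xr b * S.ev r)) a hL.n ⟨f1, f2, f3⟩
    (S.as_norm_xv _) e2 e3
  obtain ⟨t1, t2, s1, s2, hs1, hs2, hSt'⟩ := HS ε hε u3 _ _ _ _ _ _ _ hSt hδa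
  refine ⟨wvw t1 t2 s1 s2 (Gate.B b :: r), θ, σ, a, η, e,
    Function.update x w.length (S.xv (S.ev r)), Function.update v w.length 0,
    si_plain_wvw (si_plain_B hr), ?_, S.si_lv_mono (by linarith) hε.le hL, ⟨g1, g2, g3⟩, ?_, ?_⟩
  · rw [e1, S.ev_wvw]
    exact S.si_st_mono (by linarith) hε.le hSt'
  · show ‖a + S.iota (aSum _ w)‖ ≤ _
    rw [← si_aSum w (si_upx x w.length _)]
    exact ha.trans k1
  · intro y hy
    show |S.eaux y (wvw t1 t2 s1 s2 (Gate.B b :: r)) -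
        eSum (Function.update x w.length (S.xv (S.ev r))) y w| ≤ _
    rw [← si_eSum y w (si_upx x w.length _)]
    have h1 := hE y hy
    have h2 := S.eaux_wvw t1 t2 s1 s2 (Gate.B b :: r) hy
    have h3 : S.eaux y (Gate.B b :: r) = S.eaux y r := rfl
    rw [h3] at h2
    have h4 := abs_sub_le (S.eaux y (wvw t1 t2 s1 s2 (Gate.B b :: r))) (S.eaux y r) (eSum x y w)
    have h5 : C * ‖(inner ℂ e y : ℂ)‖ ≤ (C + C1 + 5 * C2) * ‖(inner ℂ e y : ℂ)‖ :=
      mul_le_mul_of_nonneg_right (by linarith) (norm_nonneg _)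
    have h6 : C * ε + 4 * (C2 * ε) ≤ (C + C1 + 5 * C2) * ε := by
      have : 0 ≤ (C1 + C2) * ε := mul_nonneg (by linarith) hε.le
      nlinarith
    linarith

theorem si_G0 (hN : S.NStmt) {w : List Gate} (h : S.PSim w) : S.PSim (Gate.G 0 :: w) := by
  obtain ⟨C, ε₀, hC, hε₀, H1⟩ := h
  obtain ⟨C1, hC1, HX⟩ := S.xStmt hN C hC
  refine ⟨C + C1, min ε₀ 1, by linarith, by positivity, ?_⟩
  intro ε hε hε'
  have u0 : ε ≤ ε₀ := hε'.trans (min_le_left _ _)
  have u1 : ε ≤ 1 := hε'.trans (min_le_right _ _)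
  obtain ⟨r, θ, σ, a, η, e, x, v, hr, hSt, hL, hGo, ha, hE⟩ := H1 ε hε u0
  obtain ⟨-, hX2, hX3⟩ := HX ε hε u1 _ _ _ _ _ _ _ hSt
  have k1 : C * ε ≤ (C + C1) * ε := mul_le_mul_of_nonneg_right (by linarith) hε.le
  have k2 : C1 * ε ≤ (C + C1) * ε := mul_le_mul_of_nonneg_right (by linarith) hε.le
  obtain ⟨g1, g2, g3⟩ := S.si_common k1 k2 (0 : K) hGo hX2 (hX3 hL)
  have z0 : S.zr (0 : K) = 1 := by
    ext y
    rw [zr_apply, neg_zero, S.W_zero_apply, S.W_zero_apply]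
    show _ = y
    module
  refine ⟨r, θ, σ, a, η, e, Function.update x w.length (S.xv (S.ev r)),
    Function.update v w.length 0, hr, ?_, S.si_lv_mono (by linarith) hε.le hL,
    ⟨g1, g2, g3, ?_⟩, ?_, ?_⟩
  · have e1 : S.lw (Function.update v w.length 0) (Gate.G 0 :: w) = S.lw v w := by
      show S.zr (Function.update v w.length 0 w.length) * S.lw _ w = _
      rw [Function.update_self, ← S.si_lw w (si_upx v w.length _), z0, one_mul]
    rw [e1]
    exact S.si_st_mono (by linarith) hε.le hSt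
  · rw [Function.update_self, Complex.ofReal_zero, zero_smul, sub_zero, norm_zero]
    exact mul_nonneg (by linarith) hε.le
  · show ‖a + S.iota (((0 : ℝ) : ℂ) • Function.update x w.length (S.xv (S.ev r)) w.length +
      aSum _ w)‖ ≤ _
    rw [Complex.ofReal_zero, zero_smul, zero_add, ← si_aSum w (si_upx x w.length _)]
    exact ha.trans k1
  · intro y hy
    show |S.eaux y r - eSum (Function.update x w.length (S.xv (S.ev r))) y w| ≤ _
    rw [← si_eSum y w (si_upx x w.length _)]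
    refine (hE y hy).trans (add_le_add k1 ?_)
    exact mul_le_mul_of_nonneg_right (by linarith) (norm_nonneg _)

lemma si_pair {x1 x2 y e : H} {τ κ c : ℝ} (h1 : ‖x1‖ ≤ 1) (h2 : ‖x2‖ ≤ 1) (hy : ‖y‖ ≤ 1)
    (h : ‖(τ : ℂ) • (x2 - x1) - (κ : ℂ) • e‖ ≤ c) :
    |τ * ((inner ℂ x2 y) ^ 2 : ℂ).im - τ * ((inner ℂ x1 y) ^ 2 : ℂ).im| ≤
      2 * (|κ| * ‖(inner ℂ e y : ℂ)‖ + c) := by
  have e1 : τ * ((inner ℂ x2 y) ^ 2 : ℂ).im - τ * ((inner ℂ x1 y) ^ 2 : ℂ).im =
      ((inner ℂ ((τ : ℂ) • (x2 - x1)) y) * (inner ℂ x2 y + inner ℂ x1 y) : ℂ).im := by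
    rw [inner_smul_left, inner_sub_left, Complex.conj_ofReal]
    have : (τ : ℂ) * (inner ℂ x2 y - inner ℂ x1 y) * (inner ℂ x2 y + inner ℂ x1 y) =
        (τ : ℂ) * ((inner ℂ x2 y) ^ 2 - (inner ℂ x1 y) ^ 2) := by ring
    rw [this, Complex.im_ofReal_mul, Complex.sub_im]
    ring
  rw [e1]
  refine (Complex.abs_im_le_norm _).trans ?_
  rw [norm_mul]
  have h3 : ‖(inner ℂ x2 y + inner ℂ x1 y : ℂ)‖ ≤ 2 := by
    have a1 : ‖(inner ℂ x1 y : ℂ)‖ ≤ 1 := by
      refine (norm_inner_le_norm _ _).trans ?_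
      nlinarith [norm_nonneg x1, norm_nonneg y]
    have a2 : ‖(inner ℂ x2 y : ℂ)‖ ≤ 1 := by
      refine (norm_inner_le_norm _ _).trans ?_
      nlinarith [norm_nonneg x2, norm_nonneg y]
    refine (norm_add_le _ _).trans ?_
    linarith
  have h4 : ‖(inner ℂ ((τ : ℂ) • (x2 - x1)) y : ℂ)‖ ≤ |κ| * ‖(inner ℂ e y : ℂ)‖ + c := by
    have e2 : (inner ℂ ((τ : ℂ) • (x2 - x1)) y : ℂ) =
        inner ℂ ((κ : ℂ) • e) y + inner ℂ ((τ : ℂ) • (x2 - x1) - (κ : ℂ) • e) y := by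
      rw [← inner_add_left, add_sub_cancel]
    rw [e2]
    refine (norm_add_le _ _).trans (add_le_add ?_ ?_)
    · rw [inner_smul_left, norm_mul, Complex.conj_ofReal, Complex.norm_real, Real.norm_eq_abs]
    · refine (norm_inner_le_norm _ _).trans ?_
      have := norm_nonneg ((τ : ℂ) • (x2 - x1) - (κ : ℂ) • e)
      nlinarith [norm_nonneg y]
  have h5 : 0 ≤ ‖(inner ℂ ((τ : ℂ) • (x2 - x1)) y : ℂ)‖ := norm_nonneg _
  nlinarith [norm_nonneg (inner ℂ x2 y + inner ℂ x1 y : ℂ)]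

theorem si_G (hN : S.NStmt) (hG : S.GStmt) (hSG : S.SGStmt) {w : List Gate} {κ : ℝ}
    (hκ : κ ≠ 0) (hal : S.al w ≠ 0) (h : S.PSim w) : S.PSim (Gate.G κ :: w) := by
  obtain ⟨C, ε₀, hC, hε₀, H1⟩ := h
  obtain ⟨C1, hC1, HX⟩ := S.xStmt hN C hC
  obtain ⟨δ, ε1, hδ, hε1, HA⟩ := S.si_align hG w [] rfl (fun _ => rfl) hal
    (D := C + C1) (by linarith)
  obtain ⟨C2, ε2, hC2, hε2, HS⟩ := hSG C κ δ hC hκ hδ
  have hκ0 := abs_nonneg κ
  have hC20 : 0 ≤ C2 := hC.trans hC2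
  have hκC2 : 0 ≤ |κ| * C2 := mul_nonneg hκ0 hC20
  refine ⟨C + C1 + 6 * C2 + |κ| * C2 + 2 * |κ|, min ε₀ (min 1 (min ε1 ε2)), by linarith,
    by positivity, ?_⟩
  intro ε hε hε'
  have u0 : ε ≤ ε₀ := hε'.trans (min_le_left _ _)
  have u1 : ε ≤ 1 := hε'.trans ((min_le_right _ _).trans (min_le_left _ _))
  have u2 : ε ≤ ε1 :=
    hε'.trans ((min_le_right _ _).trans ((min_le_right _ _).trans (min_le_left _ _)))
  have u3 : ε ≤ ε2 :=
    hε'.trans ((min_le_right _ _).trans ((min_le_right _ _).trans (min_le_right _ _)))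
  obtain ⟨r, θ, σ, a, η, e, x, v, hr, hSt, hL, hGo, ha, hE⟩ := H1 ε hε u0
  obtain ⟨-, hX2, hX3⟩ := HX ε hε u1 _ _ _ _ _ _ _ hSt
  have hle : ∀ c, c ≤ C + C1 + 6 * C2 + |κ| * C2 + 2 * |κ| →
      c * ε ≤ (C + C1 + 6 * C2 + |κ| * C2 + 2 * |κ|) * ε := fun c hc =>
    mul_le_mul_of_nonneg_right hc hε.le
  have k3 : C * ε ≤ (C + C1) * ε := mul_le_mul_of_nonneg_right (by linarith) hε.le
  have k4 : C1 * ε ≤ (C + C1) * ε := mul_le_mul_of_nonneg_right (by linarith) hε.le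
  have hδa := HA ε hε u2 e x v (S.xv (S.ev r)) a hL.n (S.as_good_mono k3 w hGo)
    (S.as_norm_xv _) (hX2.trans k4) (ha.trans k3)
  obtain ⟨t1, t2, s1, s2, τ, hs1, hs2, hτ, HV⟩ := HS ε hε u3 _ _ _ _ _ _ _ hSt hδa
  obtain ⟨b1, b2, θ', η', hSt'⟩ := HV (S.ev (Gate.C (-τ) :: r))
    (S.ev (wvw t1 t2 s1 s2 (Gate.C (-τ) :: r)))
    (S.ev (Gate.C τ :: wvw t1 t2 s1 s2 (Gate.C (-τ) :: r))) rfl (S.ev_wvw _ _ _ _ _) rfl
  have hr' : Plain (Gate.C τ :: wvw t1 t2 s1 s2 (Gate.C (-τ) :: r)) :=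
    si_plain_C (si_plain_wvw (si_plain_C hr))
  set V2 := S.ev (wvw t1 t2 s1 s2 (Gate.C (-τ) :: r)) with hV2
  obtain ⟨g1, g2, g3⟩ := S.si_common (hle C (by linarith)) (hle C1 (by linarith))
    ((τ : ℂ) • S.iota (S.xv V2 - S.xv (S.ev r))) hGo hX2 (hX3 hL)
  refine ⟨Gate.C τ :: wvw t1 t2 s1 s2 (Gate.C (-τ) :: r), θ', -σ,
    a - ((κ / 2 : ℝ) : ℂ) • S.iota (S.xv (S.ev r) + S.xv V2), η', e,
    Function.update x w.length (S.xv (S.ev r)),
    Function.update v w.length ((τ : ℂ) • S.iota (S.xv V2 - S.xv (S.ev r))), hr', ?_,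
    S.si_lv_mono (by linarith) hε.le hL, ⟨g1, g2, g3, ?_⟩, ?_, ?_⟩
  · have e1 : S.lw (Function.update v w.length ((τ : ℂ) • S.iota (S.xv V2 - S.xv (S.ev r))))
        (Gate.G κ :: w) = S.zr ((τ : ℂ) • S.iota (S.xv V2 - S.xv (S.ev r))) * S.lw v w := by
      show S.zr (Function.update v w.length _ w.length) * S.lw _ w = _
      rw [Function.update_self, ← S.si_lw w (si_upx v w.length _)]
    rw [e1]
    exact S.si_st_mono (by linarith) hε.le hSt'
  · rw [Function.update_self, ← map_smul, ← map_smul, ← map_sub, LinearIsometry.norm_map]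
    exact b1.trans (hle C2 (by linarith))
  · show ‖a - ((κ / 2 : ℝ) : ℂ) • S.iota (S.xv (S.ev r) + S.xv V2) +
      S.iota ((κ : ℂ) • Function.update x w.length (S.xv (S.ev r)) w.length + aSum _ w)‖ ≤ _
    rw [Function.update_self, ← si_aSum w (si_upx x w.length _)]
    have e2 : a - ((κ / 2 : ℝ) : ℂ) • S.iota (S.xv (S.ev r) + S.xv V2) +
        S.iota ((κ : ℂ) • S.xv (S.ev r) + aSum x w) =
        (a + S.iota (aSum x w)) - ((κ / 2 : ℝ) : ℂ) • S.iota (S.xv V2 - S.xv (S.ev r)) := by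
      simp only [map_add, map_smul, map_sub]
      push_cast
      module
    rw [e2]
    refine (norm_sub_le _ _).trans ?_
    rw [norm_smul, LinearIsometry.norm_map, Complex.norm_real, Real.norm_eq_abs, abs_div,
      abs_two]
    have h1 : |κ| / 2 * ‖S.xv V2 - S.xv (S.ev r)‖ ≤ |κ| / 2 * (C2 * ε) :=
      mul_le_mul_of_nonneg_left b2 (by positivity)
    have h2 : C * ε + |κ| / 2 * (C2 * ε) ≤ (C + C1 + 6 * C2 + |κ| * C2 + 2 * |κ|) * ε := by
      have : 0 ≤ (C1 + 6 * C2 + |κ| * C2 / 2 + 2 * |κ|) * ε :=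
        mul_nonneg (by linarith) hε.le
      nlinarith
    linarith
  · intro y hy
    have h1 := hE y hy
    have h2 := S.eaux_wvw t1 t2 s1 s2 (Gate.C (-τ) :: r) hy
    have h3 : S.eaux y (Gate.C (-τ) :: r) =
        -((-τ) * ((inner ℂ (S.xv (S.ev r)) y) ^ 2 : ℂ).im) + S.eaux y r := rfl
    have h4 : S.eaux y (Gate.C τ :: wvw t1 t2 s1 s2 (Gate.C (-τ) :: r)) =
        -(τ * ((inner ℂ (S.xv V2) y) ^ 2 : ℂ).im) +
          S.eaux y (wvw t1 t2 s1 s2 (Gate.C (-τ) :: r)) := rfl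
    have h5 := si_pair (S.as_norm_xv (S.ev r)).le (S.as_norm_xv V2).le hy b1
    show |S.eaux y (Gate.C τ :: wvw t1 t2 s1 s2 (Gate.C (-τ) :: r)) -
        eSum (Function.update x w.length (S.xv (S.ev r))) y w| ≤ _
    rw [← si_eSum y w (si_upx x w.length _), h4]
    rw [h3, neg_mul, neg_neg] at h2
    have h6 : (C + 6 * C2) * ε ≤ (C + C1 + 6 * C2 + |κ| * C2 + 2 * |κ|) * ε :=
      hle _ (by linarith)
    have h7 : (C + 2 * |κ|) * ‖(inner ℂ e y : ℂ)‖ ≤
        (C + C1 + 6 * C2 + |κ| * C2 + 2 * |κ|) * ‖(inner ℂ e y : ℂ)‖ :=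
      mul_le_mul_of_nonneg_right (by linarith) (norm_nonneg _)
    have h8 : (C + 6 * C2) * ε = C * ε + 6 * (C2 * ε) := by ring
    have h9 : (C + 2 * |κ|) * ‖(inner ℂ e y : ℂ)‖ =
        C * ‖(inner ℂ e y : ℂ)‖ + 2 * (|κ| * ‖(inner ℂ e y : ℂ)‖) := by ring
    rw [h8] at h6
    rw [h9] at h7
    rw [abs_le] at h1 h2 h5 ⊢
    constructor <;> linarith [h1.1, h1.2, h2.1, h2.2, h5.1, h5.2]

theorem si_base (hN : S.NStmt) (hK : S.KStmt) {κ : ℝ} (hκ : κ ≠ 0) : S.PSim [Gate.G κ] := by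
  obtain ⟨C, ε₀, hC, hε₀, H⟩ := hK κ hκ
  have hκ0 := abs_nonneg κ
  have hκC : 0 ≤ |κ| * C := mul_nonneg hκ0 hC
  refine ⟨3 * C + |κ| * C + 2 * |κ|, ε₀, by positivity, hε₀, ?_⟩
  intro ε hε hε'
  have hle : ∀ c, c ≤ 3 * C + |κ| * C + 2 * |κ| →
      c * ε ≤ (3 * C + |κ| * C + 2 * |κ|) * ε := fun c hc =>
    mul_le_mul_of_nonneg_right hc hε.le
  obtain ⟨θ, η, e, hSt, hL, h1, h2⟩ := H ε hε hε' (-κ / 2 / ε) rfl
  generalize -κ / 2 / ε = τ at hSt h1 h2
  have hx1 : S.xv (S.ev []) = S.Z S.Om := rfl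
  have ek1 : S.ev [Gate.C τ] = S.k1 τ := rfl
  have ek2 : S.ev [Gate.B ε, Gate.C τ] = S.k2 ε τ := rfl
  have ek3 : S.ev [Gate.C (-τ), Gate.B ε, Gate.C τ] = S.k3 ε τ := rfl
  have hr : Plain [Gate.C (-τ), Gate.B ε, Gate.C τ] := by
    refine si_plain_C (si_plain_B (si_plain_C ?_))
    intro g hg
    exact absurd hg (by simp)
  refine ⟨[Gate.C (-τ), Gate.B ε, Gate.C τ], θ, 1,
    ((-κ / 2 : ℝ) : ℂ) • S.iota (S.xv (S.k2 ε τ) + S.Z S.Om), η, e, fun _ => S.Z S.Om,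
    fun _ => -((τ : ℂ) • S.iota (S.xv (S.k2 ε τ) - S.Z S.Om)), hr, ?_,
    S.si_lv_mono (by linarith) hε.le hL, ⟨trivial, ?_, ?_, ?_⟩, ?_, ?_⟩
  · rw [ek3]
    exact S.si_st_mono (by linarith) hε.le hSt
  · show ‖S.Z S.Om - S.xv (S.ev [])‖ ≤ _
    rw [hx1, sub_self, norm_zero]
    positivity
  · rw [LinearIsometry.inner_map_map]
    refine (hL.perp 3 (S.Z S.Om) (hN.comm S.Z S.WZ _ _ hN.om)).trans ?_
    rw [mul_comm C 3]
    exact hle (3 * C) (by linarith)
  · show ‖-((τ : ℂ) • S.iota (S.xv (S.k2 ε τ) - S.Z S.Om)) - (κ : ℂ) • S.iota e‖ ≤ _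
    rw [← map_smul, ← map_smul, ← map_neg, ← map_sub, LinearIsometry.norm_map]
    exact h1.trans (hle C (by linarith))
  · show ‖((-κ / 2 : ℝ) : ℂ) • S.iota (S.xv (S.k2 ε τ) + S.Z S.Om) +
      S.iota ((κ : ℂ) • S.Z S.Om + 0)‖ ≤ _
    have e2 : ((-κ / 2 : ℝ) : ℂ) • S.iota (S.xv (S.k2 ε τ) + S.Z S.Om) +
        S.iota ((κ : ℂ) • S.Z S.Om + 0) =
        ((-κ / 2 : ℝ) : ℂ) • S.iota (S.xv (S.k2 ε τ) - S.Z S.Om) := by
      simp only [map_add, map_smul, map_sub, map_zero]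
      push_cast
      module
    rw [e2, norm_smul, LinearIsometry.norm_map, Complex.norm_real, Real.norm_eq_abs, abs_div,
      abs_neg, abs_two]
    have h3 : |κ| / 2 * ‖S.xv (S.k2 ε τ) - S.Z S.Om‖ ≤ |κ| / 2 * (C * ε) :=
      mul_le_mul_of_nonneg_left h2 (by positivity)
    have h4 : |κ| / 2 * (C * ε) = (|κ| * C / 2) * ε := by ring
    rw [h4] at h3
    exact h3.trans (hle _ (by linarith))
  · intro y hy
    have h3 : ‖((-τ : ℝ) : ℂ) • (S.xv (S.k2 ε τ) - S.Z S.Om) - (κ : ℂ) • e‖ ≤ C * ε := by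
      rw [Complex.ofReal_neg, neg_smul]
      exact h1
    have h4 := si_pair (x1 := S.Z S.Om) (x2 := S.xv (S.k2 ε τ)) (S.as_norm_xv (S.ev [])).le
      (S.as_norm_xv _).le hy h3
    show |(-(-τ * ((inner ℂ (S.xv (S.k2 ε τ)) y) ^ 2 : ℂ).im) +
      (-(τ * ((inner ℂ (S.Z S.Om) y) ^ 2 : ℂ).im) + 0)) - 0| ≤ _
    have h5 : (-(-τ * ((inner ℂ (S.xv (S.k2 ε τ)) y) ^ 2 : ℂ).im) +
        (-(τ * ((inner ℂ (S.Z S.Om) y) ^ 2 : ℂ).im) + 0)) - 0 =
        -(-τ * ((inner ℂ (S.xv (S.k2 ε τ)) y) ^ 2 : ℂ).im -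
          -τ * ((inner ℂ (S.Z S.Om) y) ^ 2 : ℂ).im) := by ring
    rw [h5, abs_neg]
    refine h4.trans ?_
    have h6 := hle (2 * C) (by linarith)
    have h7 : (2 * |κ|) * ‖(inner ℂ e y : ℂ)‖ ≤
        (3 * C + |κ| * C + 2 * |κ|) * ‖(inner ℂ e y : ℂ)‖ :=
      mul_le_mul_of_nonneg_right (by linarith) (norm_nonneg _)
    have h8 : 2 * (|κ| * ‖(inner ℂ e y : ℂ)‖ + C * ε) =
        2 * C * ε + 2 * |κ| * ‖(inner ℂ e y : ℂ)‖ := by ring
    rw [h8]
    exact add_le_add h6 h7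

/-- **master induction** -/
theorem simStmt (hN : S.NStmt) (hG : S.GStmt) (hK : S.KStmt) (hSC : S.SCStmt) (hSB : S.SBStmt)
    (hSG : S.SGStmt) : S.SimStmt := by
  intro u κ hu
  obtain ⟨u0, b0, hu0⟩ := hu.first
  have hκ : κ ≠ 0 := by
    intro h
    refine hu.al [Gate.B b0] (by simp) ⟨u0, hu0.symm⟩ ?_
    rw [h]
    show (0 : ℝ) * _ + 0 = 0
    rw [zero_mul, add_zero]
  have key : ∀ u' : List Gate, u' <:+ u → S.PSim (u' ++ [Gate.G κ]) := by
    intro u'
    induction u' with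
    | nil => intro _; exact S.si_base hN hK hκ
    | cons g u' ih =>
      intro hs
      have hs' : u' <:+ u := (List.suffix_cons g u').trans hs
      have ih' := ih hs'
      cases g with
      | B b =>
        exact S.si_B hN hG hSB b (hu.b_le b (hs.subset (by simp)))
          (hu.al (Gate.B b :: u') (by simp) hs) ih'
      | C γ => exact S.si_C hN hSC γ ih'
      | G κ' =>
        by_cases hκ' : κ' = 0
        · rw [hκ']
          exact S.si_G0 hN ih'
        · have hne : u' ≠ [] := by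
            intro h
            rw [h, hu0] at hs
            obtain ⟨t, ht⟩ := hs
            have h2 := (List.append_inj' ht rfl).2
            simp at h2
          exact S.si_G hN hG hSG hκ' (hu.al u' hne hs') ih'
  exact key u (List.suffix_refl u)

end Sys

end Vale.Agent.P367.A
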