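import Mathlib
import Vale.Agent.P367.A.Skel

/-! P367, Theorem A, block SB: the simulated `B`-gate. -/

namespace Vale.Agent.P367.A

open Complex Filter Topology

namespace Sys

variable {H K : Type*} [NormedAddCommGroup H] [InnerProductSpace ℂ H]
  [NormedAddCommGroup K] [InnerProductSpace ℂ K] (S : Sys H K)

namespace SB

lemma inv_l (U : H ≃ₗᵢ[ℂ] H) (x : H) : U⁻¹ (U x) = x := U.symm_apply_apply x

lemma inv_r (U : H ≃ₗᵢ[ℂ] H) (x : H) : U (U⁻¹ x) = x := U.apply_symm_apply x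

lemma mul_app (U V : H ≃ₗᵢ[ℂ] H) (x : H) : (U * V) x = U (V x) := rfl

lemma mul_inv_app (U V : H ≃ₗᵢ[ℂ] H) (x : H) : (U * V)⁻¹ x = V⁻¹ (U⁻¹ x) := by
  apply inv_apply_eq
  rw [mul_app, inv_r, inv_r]

lemma W_xr (a : K) (b : ℝ) (x : H) : S.W a (S.xr b x) = S.xr b (S.W a x) := by
  simp only [xr_apply, map_sub, map_smul, S.WX]

lemma xr_xr (b c : ℝ) (x : H) : S.xr b (S.xr c x) = S.xr (b + c) x := by
  simp only [xr_apply, map_sub, map_smul, S.XX, Real.cos_add, Real.sin_add, ofReal_sub,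
    ofReal_add, ofReal_mul]
  have hI := Complex.I_mul_I
  have e : (Real.cos b : ℂ) * Real.cos c + (Complex.I * (Real.sin b : ℂ))
      * (Complex.I * (Real.sin c : ℂ)) = Real.cos b * Real.cos c - Real.sin b * Real.sin c := by
    linear_combination (Real.sin b : ℂ) * (Real.sin c) * hI
  rw [← e]
  module

lemma xr_zero (x : H) : S.xr 0 x = x := by
  simp [xr_apply]

lemma xr_neg_xr (b : ℝ) (x : H) : S.xr (-b) (S.xr b x) = x := by
  rw [xr_xr, neg_add_cancel, xr_zero]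

lemma xr_xr_neg (b : ℝ) (x : H) : S.xr b (S.xr (-b) x) = x := by
  rw [xr_xr, add_neg_cancel, xr_zero]

lemma xr_inv (b : ℝ) (x : H) : (S.xr b)⁻¹ x = S.xr (-b) x :=
  inv_apply_eq (xr_xr_neg S b x)

lemma Z_xr (b : ℝ) (x : H) : S.Z (S.xr b x) = S.xr (-b) (S.Z x) := by
  simp only [xr_apply, map_sub, map_smul, S.ZX, Real.cos_neg, Real.sin_neg, ofReal_neg]
  module

lemma Zt_app (t : ℝ) (x : H) : S.Zt t x = S.xr (2 * t) (S.Z x) := by
  change S.xr t (S.Z (S.xr (-t) x)) = _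
  rw [Z_xr, neg_neg, xr_xr, two_mul]

lemma zr_zero (x : H) : S.zr 0 x = x := by
  rw [zr_apply, neg_zero]
  simp only [S.W_zero_apply, sub_self, smul_zero, add_zero]
  module

lemma nice_mono {c d : ℝ} {x : H} (h : S.Nice c x) (hcd : c ≤ d) : S.Nice d x where
  m0 := h.m0.trans hcd
  m1 a := (h.m1 a).trans (mul_le_mul_of_nonneg_right hcd (norm_nonneg _))
  m2 a b := (h.m2 a b).trans (mul_le_mul_of_nonneg_right hcd (by positivity))

lemma nice_c0 {c : ℝ} {x : H} (h : S.Nice c x) : 0 ≤ c := (norm_nonneg _).trans h.m0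

lemma nice_zero {c : ℝ} (hc : 0 ≤ c) : S.Nice c (0 : H) where
  m0 := by simpa using hc
  m1 a := by simp only [map_zero, sub_zero, norm_zero]; positivity
  m2 a b := by simp only [map_zero, sub_zero, norm_zero]; positivity

lemma nice_xr (hN : S.NStmt) {c : ℝ} {x : H} (h : S.Nice c x) (b : ℝ) : S.Nice c (S.xr b x) :=
  hN.comm (S.xr b) (fun a y => W_xr S a b y) c x h

lemma nice_Z (hN : S.NStmt) {c : ℝ} {x : H} (h : S.Nice c x) : S.Nice c (S.Z x) :=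
  hN.comm S.Z S.WZ c x h

lemma frm_of_nice {c : ℝ} {x : H} (h : S.Nice c x) : S.Frm 0 c x := by
  refine ⟨x, 0, h, nice_zero S (nice_c0 S h), ?_⟩
  rw [S.W_zero_apply, map_zero, add_zero]

lemma frm_xr (hN : S.NStmt) {b : K} {c : ℝ} {z : H} (h : S.Frm b c z) (t : ℝ) :
    S.Frm b c (S.xr t z) := by
  obtain ⟨x, y, hx, hy, rfl⟩ := h
  refine ⟨S.xr t x, S.xr t y, nice_xr S hN hx t, nice_xr S hN hy t, ?_⟩
  rw [map_add, W_xr, W_xr]

lemma frm_Z (hN : S.NStmt) {b : K} {c : ℝ} {z : H} (h : S.Frm b c z) :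
    S.Frm b c (S.Z z) := by
  obtain ⟨x, y, hx, hy, rfl⟩ := h
  refine ⟨S.Z x, S.Z y, nice_Z S hN hx, nice_Z S hN hy, ?_⟩
  rw [map_add, S.WZ, S.WZ]

lemma frm_zr (hN : S.NStmt) {c : ℝ} {x : H} (h : S.Nice c x) (u : K) :
    S.Frm u c (S.zr (-u) x) := by
  have hZ := nice_Z S hN h
  have h1 := hN.smul _ _ (1 / 2 : ℂ) (hN.add _ _ _ _ h hZ)
  have h2 := hN.smul _ _ (1 / 2 : ℂ) (hN.add _ _ _ _ h (hN.smul _ _ (-1 : ℂ) hZ))
  have n2 : ‖(1 / 2 : ℂ)‖ = 1 / 2 := by simp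
  have n1 : ‖(-1 : ℂ)‖ = 1 := by simp
  refine ⟨(1 / 2 : ℂ) • (x + S.Z x), (1 / 2 : ℂ) • (x + (-1 : ℂ) • S.Z x),
    nice_mono S h1 (le_of_eq ?_), nice_mono S h2 (le_of_eq ?_), ?_⟩
  · rw [n2]; ring
  · rw [n2, n1]; ring
  · rw [zr_apply, neg_neg]
    simp only [map_smul, map_add]
    module

/-- dependence of the alignment on the axis -/
lemma alp_form (V : H ≃ₗᵢ[ℂ] H) (c : K) : ∃ B : ℝ, ∀ t : ℝ,
    S.alp t V c = 2 * (inner ℂ (S.iota (S.xv V)) c : ℂ).im * Real.cos (2 * t)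
      - B * Real.sin (2 * t) := by
  refine ⟨2 * (inner ℂ (S.iota (Complex.I • V⁻¹ (S.X (S.Z (V S.Om))))) c : ℂ).im, fun t => ?_⟩
  unfold alp xt
  rw [Zt_app, xr_apply, map_sub, map_smul, map_smul]
  have h1 : V⁻¹ (S.Z (V S.Om)) = S.xv V := rfl
  rw [h1]
  have h2 : (Complex.I * (Real.sin (2 * t) : ℂ)) • V⁻¹ (S.X (S.Z (V S.Om)))
      = (Real.sin (2 * t) : ℂ) • (Complex.I • V⁻¹ (S.X (S.Z (V S.Om)))) := by
    rw [smul_smul, mul_comm]
  rw [h2, map_sub, map_smul, map_smul, inner_sub_left, inner_smul_left, inner_smul_left,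
    Complex.conj_ofReal, Complex.conj_ofReal, Complex.sub_im, Complex.im_ofReal_mul,
    Complex.im_ofReal_mul]
  ring

/-- choice of the axes -/
lemma axes (V : H ≃ₗᵢ[ℂ] H) (c : K) (β δ : ℝ) (hβ : |β| ≤ Real.pi / 4)
    (hδ : 0 < δ) (hal : δ ≤ |(inner ℂ (S.iota (S.xv V)) c : ℂ).im|) :
    ∃ t1 t2 : ℝ, t1 - t2 = -β ∧ δ ≤ |S.alp t1 V c| ∧ δ ≤ |S.alp t2 V c| := by
  obtain ⟨B, hB⟩ := alp_form S V c
  set A : ℝ := 2 * (inner ℂ (S.iota (S.xv V)) c : ℂ).im with hA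
  set z : ℂ := ⟨A, B⟩ with hz
  have h1 : ‖z‖ * Real.cos z.arg = A := by rw [Complex.norm_mul_cos_arg]
  have h2 : ‖z‖ * Real.sin z.arg = B := by rw [Complex.norm_mul_sin_arg]
  have hval : ∀ t, S.alp t V c = ‖z‖ * Real.cos (2 * t + z.arg) := by
    intro t
    rw [hB, Real.cos_add, ← h1, ← h2]
    ring
  have hcos : Real.sqrt 2 / 2 ≤ Real.cos β := by
    rw [← Real.cos_abs β, ← Real.cos_pi_div_four]
    apply Real.cos_le_cos_of_nonneg_of_le_pi (abs_nonneg _) _ hβ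
    linarith [Real.pi_pos]
  have hAz : |A| ≤ ‖z‖ := by
    have := Complex.abs_re_le_norm z
    simpa [hz] using this
  have hA2 : 2 * δ ≤ |A| := by
    rw [hA, abs_mul, abs_two]
    linarith
  have hs2 : 1 ≤ Real.sqrt 2 := by
    rw [Real.one_le_sqrt]; norm_num
  have hbig : δ ≤ |‖z‖ * Real.cos β| := by
    rw [abs_of_nonneg (mul_nonneg (norm_nonneg _) (by linarith [Real.sqrt_nonneg 2]))]
    calc δ ≤ (2 * δ) * (Real.sqrt 2 / 2) := by nlinarith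
      _ ≤ ‖z‖ * Real.cos β := by
        apply mul_le_mul (hA2.trans hAz) hcos (by positivity) (norm_nonneg _)
  refine ⟨-z.arg / 2 - β / 2, -z.arg / 2 + β / 2, by ring, ?_, ?_⟩
  · rw [hval]
    have : 2 * (-z.arg / 2 - β / 2) + z.arg = -β := by ring
    rwa [this, Real.cos_neg]
  · rw [hval]
    have : 2 * (-z.arg / 2 + β / 2) + z.arg = β := by ring
    rwa [this]

lemma norm_smul_re {E : Type*} [NormedAddCommGroup E] [InnerProductSpace ℂ E]
    (r : ℝ) (x : E) : ‖(r : ℂ) • x‖ = |r| * ‖x‖ := by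
  rw [norm_smul, Complex.norm_real, Real.norm_eq_abs]

end SB

open SB in
/-- Block SB -/
theorem sb (hN : S.NStmt) (hWW : S.WWStmt) : S.SBStmt := by
  intro C b δ hC hb hδ
  obtain ⟨D, ε₁, hD, hε₁, hW⟩ := hWW (4 * C + Real.pi) δ (by positivity) hδ
  refine ⟨C + 4 * (D * C) + Real.pi / (2 * δ), min ε₁ 1, ?_, lt_min hε₁ one_pos, ?_⟩
  · have : 0 ≤ Real.pi / (2 * δ) := by positivity
    nlinarith [mul_nonneg hD hC]
  intro ε hε hε' V T θ σ a η e hSt hal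
  have hεε : ε ≤ ε₁ := hε'.trans (min_le_left _ _)
  have hε1 : ε ≤ 1 := hε'.trans (min_le_right _ _)
  have hDC : 0 ≤ D * C := mul_nonneg hD hC
  have hpd : 0 ≤ Real.pi / (2 * δ) := by positivity
  set VB : H ≃ₗᵢ[ℂ] H := S.xr b * V with hVB
  set c : K := (σ : ℂ) • a with hc
  have hσ : |σ| = 1 := by rcases hSt.sg with h | h <;> rw [h] <;> norm_num
  have halc : δ ≤ |(inner ℂ (S.iota (S.xv VB)) c : ℂ).im| := by
    rw [hc, inner_smul_right, Complex.im_ofReal_mul, abs_mul, hσ, one_mul]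
    exact hal
  obtain ⟨t1, t2, ht, ha1, ha2⟩ := axes S VB c (b / 4) δ (by rw [abs_div]; norm_num; linarith)
    hδ halc
  set U : H := S.zr (-(((σ / ε : ℝ) : ℂ) • a)) η with hU
  have hfrU : S.Frm (((1 / ε : ℝ) : ℂ) • c) C U := by
    have h := frm_zr S hN hSt.eta (((σ / ε : ℝ) : ℂ) • a)
    have e1 : (((1 / ε : ℝ) : ℂ) • c) = ((σ / ε : ℝ) : ℂ) • a := by
      rw [hc, smul_smul]
      congr 1
      push_cast
      ring
    rw [e1]
    exact h
  have hψ : S.Nice (3 * C) (θ • S.xr b (T S.Om)) := by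
    have h1 := (hSt.T_nice 3 S.Om hN.om).1
    have h2 := hN.smul _ _ θ (nice_xr S hN h1 b)
    rw [hSt.th, one_mul, mul_comm C 3] at h2
    exact h2
  have hsplit : V S.Om - θ • T S.Om - (ε : ℂ) • U
      = (V S.Om - θ • T S.Om - (ε : ℂ) • U) := rfl
  have hVBOm : VB S.Om - θ • S.xr b (T S.Om) - (ε : ℂ) • S.xr b U
      = S.xr b (V S.Om - θ • T S.Om - (ε : ℂ) • U) := by
    rw [map_sub, map_sub, map_smul, map_smul, hVB, mul_app]
  have hres : ‖VB S.Om - θ • S.xr b (T S.Om) - (ε : ℂ) • S.xr b U‖ ≤ C * ε ^ 2 := by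
    rw [hVBOm, LinearIsometryEquiv.norm_map]
    exact hSt.i1
  have hctx : S.Ctx (4 * C + Real.pi) δ ε 0 VB c t1 t2 := by
    refine ⟨?_, Or.inl rfl, ?_, ⟨θ • S.xr b (T S.Om), S.xr b U, ?_, ?_, ?_⟩, halc, ha1, ha2⟩
    · rw [abs_zero]; positivity
    · rw [hc, norm_smul_re, hσ, one_mul]
      linarith [hSt.a_le, Real.pi_pos]
    · exact nice_mono S hψ (by linarith [Real.pi_pos])
    · obtain ⟨x, y, hx, hy, hxy⟩ := frm_xr S hN hfrU b
      exact ⟨x, y, nice_mono S hx (by linarith [Real.pi_pos]),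
        nice_mono S hy (by linarith [Real.pi_pos]), hxy⟩
    · have e0 : -(((0 / ε : ℝ) : ℂ) • S.iota (S.xv VB)) = 0 := by simp
      rw [e0, zr_zero]
      refine hres.trans ?_
      have : 0 ≤ ε ^ 2 := by positivity
      nlinarith [Real.pi_pos]
  set s1 : ℝ := ε * (Real.pi / 2 / S.alp t1 VB c) with hs1
  set s2 : ℝ := ε * (Real.pi / 2 / S.alp t2 VB c) with hs2
  have hsb : ∀ A : ℝ, δ ≤ |A| → |ε * (Real.pi / 2 / A)| ≤
      (C + 4 * (D * C) + Real.pi / (2 * δ)) * ε := by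
    intro A hA
    rw [abs_mul, abs_of_pos hε, abs_div, abs_of_pos (by positivity : (0:ℝ) < Real.pi / 2)]
    have h1 : Real.pi / 2 / |A| ≤ Real.pi / (2 * δ) := by
      rw [div_div]
      apply div_le_div_of_nonneg_left Real.pi_pos.le (by positivity)
      linarith
    nlinarith
  obtain ⟨w1, w2⟩ := hW ε hε hεε 0 VB c t1 t2 hctx s1 s2 hs1 hs2
  obtain ⟨Wd, hWd⟩ : ∃ Wd : H ≃ₗᵢ[ℂ] H, Wd = S.wv t1 t2 s1 s2 VB * VB⁻¹ := ⟨_, rfl⟩
  rw [← hWd] at w1 w2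
  have hrot : 4 * (t1 - t2) = -b := by rw [ht]; ring
  simp only [hrot] at w2
  have w1' : ∀ c0 z, S.Nice c0 z → ‖Wd z - z‖ ≤ D * c0 * ε ^ 2 := by
    intro c0 z hz
    apply w1 c0 z
    have e0 : (((0 / ε : ℝ) : ℂ) • S.iota (S.xv VB)) = 0 := by simp
    rw [e0]
    exact frm_of_nice S hz
  have hnew : ∀ x, S.wv t1 t2 s1 s2 VB x = Wd (VB x) := by
    intro x
    rw [hWd, mul_app, inv_l]
  refine ⟨t1, t2, s1, s2, hsb _ ha1, hsb _ ha2, ?_⟩
  have hCC : C ≤ C + 4 * (D * C) + Real.pi / (2 * δ) := by nlinarith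
  refine ⟨hSt.th, hSt.sg, hSt.a_le.trans hCC, nice_mono S hSt.eta hCC, ?_, ?_, ?_, ?_⟩
  · intro c0 x hx
    have hc0 := nice_c0 S hx
    refine ⟨?_, ?_⟩
    · rw [mul_app]
      exact nice_mono S (nice_xr S hN (hSt.T_nice c0 x hx).1 b)
        (mul_le_mul_of_nonneg_right hCC hc0)
    · rw [mul_inv_app, xr_inv]
      exact nice_mono S (hSt.T_nice c0 _ (nice_xr S hN hx (-b))).2
        (mul_le_mul_of_nonneg_right hCC hc0)
  · -- i1
    rw [hnew]
    change ‖Wd (VB S.Om) - θ • S.xr b (T S.Om) - (ε : ℂ) • U‖ ≤ _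
    set r : H := VB S.Om - θ • S.xr b (T S.Om) - (ε : ℂ) • S.xr b U with hr
    have e1 : Wd (VB S.Om) - θ • S.xr b (T S.Om) - (ε : ℂ) • U
        = Wd r + θ • (Wd (S.xr b (T S.Om)) - S.xr b (T S.Om))
          + (ε : ℂ) • (Wd (S.xr b U) - U) := by
      rw [hr]
      simp only [map_sub, map_smul]
      module
    have n1 : ‖Wd r‖ ≤ C * ε ^ 2 := by rw [LinearIsometryEquiv.norm_map]; exact hres
    have n2 : ‖Wd (S.xr b (T S.Om)) - S.xr b (T S.Om)‖ ≤ D * (C * 3) * ε ^ 2 :=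
      w1' _ _ (nice_xr S hN (hSt.T_nice 3 S.Om hN.om).1 b)
    have n3 : ‖Wd (S.xr b U) - U‖ ≤ D * C * ε := by
      have := w2 C (S.xr b U) (frm_xr S hN hfrU b)
      rwa [xr_neg_xr] at this
    rw [e1]
    calc ‖Wd r + θ • (Wd (S.xr b (T S.Om)) - S.xr b (T S.Om)) + (ε : ℂ) • (Wd (S.xr b U) - U)‖
        ≤ ‖Wd r‖ + ‖θ • (Wd (S.xr b (T S.Om)) - S.xr b (T S.Om))‖
          + ‖(ε : ℂ) • (Wd (S.xr b U) - U)‖ :=
          (norm_add_le _ _).trans (add_le_add (norm_add_le _ _) le_rfl)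
      _ ≤ C * ε ^ 2 + D * (C * 3) * ε ^ 2 + ε * (D * C * ε) := by
          rw [norm_smul, hSt.th, one_mul, norm_smul_re, abs_of_pos hε]
          gcongr
      _ ≤ _ := by nlinarith [sq_nonneg ε, mul_nonneg hpd (sq_nonneg ε)]
  · -- i2
    intro c0 x hx
    have hc0 := nice_c0 S hx
    rw [hnew]
    change ‖Wd (S.xr b (V x)) - θ • S.xr b (T x)‖ ≤ _
    have e1 : Wd (S.xr b (V x)) - θ • S.xr b (T x)
        = Wd (S.xr b (V x - θ • T x)) + θ • (Wd (S.xr b (T x)) - S.xr b (T x)) := by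
      simp only [map_sub, map_smul]
      module
    have n1 : ‖Wd (S.xr b (V x - θ • T x))‖ ≤ C * c0 * ε := by
      rw [LinearIsometryEquiv.norm_map, LinearIsometryEquiv.norm_map]
      exact hSt.i2 c0 x hx
    have n2 : ‖Wd (S.xr b (T x)) - S.xr b (T x)‖ ≤ D * (C * c0) * ε ^ 2 :=
      w1' _ _ (nice_xr S hN (hSt.T_nice c0 x hx).1 b)
    rw [e1]
    calc _ ≤ ‖Wd (S.xr b (V x - θ • T x))‖ + ‖θ • (Wd (S.xr b (T x)) - S.xr b (T x))‖ :=
          norm_add_le _ _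
      _ ≤ C * c0 * ε + D * (C * c0) * ε ^ 2 := by
          rw [norm_smul, hSt.th, one_mul]
          gcongr
      _ ≤ C * c0 * ε + D * (C * c0) * ε := by
          have : ε ^ 2 ≤ ε := by nlinarith
          have h0 : 0 ≤ D * (C * c0) := by positivity
          nlinarith
      _ ≤ _ := by
          have h1 : 0 ≤ c0 * ε := by positivity
          have h2 : 0 ≤ (3 * (D * C) + Real.pi / (2 * δ)) * (c0 * ε) := by positivity
          nlinarith
  · -- i6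
    rw [← hU]
    set z : H := S.xr b (S.Z U) with hz
    have hfz : S.Frm (((1 / ε : ℝ) : ℂ) • c) C z := frm_xr S hN (frm_Z S hN hfrU) b
    have n1 : ‖Wd z - S.Z U‖ ≤ D * C * ε := by
      have := w2 C z hfz
      rwa [hz, xr_neg_xr] at this
    have e2 : S.wv t1 t2 s1 s2 VB = Wd * VB := by
      ext x
      exact hnew x
    have e3 : (S.wv t1 t2 s1 s2 VB)⁻¹ (S.Z U) - (σ : ℂ) • e
        = (VB⁻¹ (Wd⁻¹ (S.Z U)) - VB⁻¹ z) + (V⁻¹ (S.Z U) - (σ : ℂ) • e) := by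
      rw [e2, mul_inv_app]
      have : VB⁻¹ z = V⁻¹ (S.Z U) := by
        rw [hVB, mul_inv_app, hz, inv_l]
      rw [this]
      abel
    have n2 : ‖VB⁻¹ (Wd⁻¹ (S.Z U)) - VB⁻¹ z‖ ≤ D * C * ε := by
      rw [← map_sub, LinearIsometryEquiv.norm_map]
      have : Wd⁻¹ (S.Z U) - z = Wd⁻¹ (S.Z U - Wd z) := by
        rw [map_sub, inv_l]
      rw [this, LinearIsometryEquiv.norm_map, norm_sub_rev]
      exact n1
    rw [e3]
    refine (norm_add_le _ _).trans ((add_le_add n2 hSt.i6).trans ?_)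
    nlinarith [mul_nonneg hpd hε.le]

end Sys

end Vale.Agent.P367.A
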