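import Mathlib
import Vale.Agent.P367.A.Basic
import Vale.Agent.P367.A.StepB

/-! P367, Theorem A, block SC: the `C`-gate. -/

namespace Vale.Agent.P367.A

open Complex Filter Topology

namespace Sys

variable {H K : Type*} [NormedAddCommGroup H] [InnerProductSpace ℂ H]
  [NormedAddCommGroup K] [InnerProductSpace ℂ K] (S : Sys H K)

open SB in
/-- Block SC -/
theorem sc (hN : S.NStmt) : S.SCStmt := by
  intro C γ hC
  set A : ℝ := 2 * (1 + 2 * |γ|) ^ 2 with hA
  have hA1 : 1 ≤ A := by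
    rw [hA]
    nlinarith [abs_nonneg γ, sq_nonneg (1 + 2 * |γ|)]
  have hCA : C ≤ A * C := by nlinarith
  refine ⟨A * C, 1, hCA, one_pos, ?_⟩
  intro ε hε hε1 V T θ σ a η e hSt
  set v : K := (γ : ℂ) • S.iota (S.xv V) with hv
  have hvn : ‖v‖ = |γ| := by
    rw [hv, norm_smul, Complex.norm_real, Real.norm_eq_abs, S.iota.norm_map]
    have : ‖S.xv V‖ = 1 := S.norm_xv V
    rw [this, mul_one]
  set u : K := ((σ / ε : ℝ) : ℂ) • a with hu
  set ph : ℂ := Complex.exp (-(2 * Complex.I * (th v (-u) : ℂ))) with hph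
  have hphn : ‖ph‖ = 1 := by
    rw [hph, show -(2 * Complex.I * (th v (-u) : ℂ)) = ((-(2 * th v (-u)) : ℝ) : ℂ) * Complex.I by
      push_cast; ring]
    exact Complex.norm_exp_ofReal_mul_I _
  have hex : ∀ x, S.zr v (S.zr (-u) x) = S.zr (-u) (ph • S.zr v x) := by
    intro x
    rw [map_smul, zr_zr, zr_zr, smul_smul, hph, ← Complex.exp_add, add_comm (-u) v,
      th_swap (-u) v]
    congr 2
    push_cast
    ring
  have hzr : ∀ c x, S.Nice c x → S.Nice (A * c) (S.zr v x) := by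
    intro c x hx
    have := hN.zr c x v hx
    rwa [hvn] at this
  have hzr' : ∀ c x, S.Nice c x → S.Nice (A * c) (S.zr (-v) x) := by
    intro c x hx
    have := hN.zr c x (-v) hx
    rwa [norm_neg, hvn] at this
  refine ⟨ph • S.zr v η, hSt.th, hSt.sg, hSt.a_le.trans hCA, ?_, ?_, ?_, ?_, ?_⟩
  · have := hN.smul _ _ ph (hzr _ _ hSt.eta)
    rwa [hphn, one_mul] at this
  · intro c x hx
    refine ⟨?_, ?_⟩
    · have := hzr _ _ (hSt.T_nice c x hx).1
      rwa [← mul_assoc] at this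
    · rw [mul_inv_app, zr_inv]
      have := (hSt.T_nice _ _ (hzr' c x hx)).2
      refine nice_mono S this (le_of_eq ?_)
      ring
  · change ‖S.zr v (V S.Om) - θ • S.zr v (T S.Om) - (ε : ℂ) • S.zr (-u) (ph • S.zr v η)‖ ≤ _
    have e : S.zr v (V S.Om) - θ • S.zr v (T S.Om) - (ε : ℂ) • S.zr (-u) (ph • S.zr v η)
        = S.zr v (V S.Om - θ • T S.Om - (ε : ℂ) • S.zr (-u) η) := by
      rw [← hex, map_sub, map_sub, map_smul, map_smul]
    rw [e, LinearIsometryEquiv.norm_map]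
    refine hSt.i1.trans ?_
    exact mul_le_mul_of_nonneg_right hCA (sq_nonneg _)
  · intro c x hx
    have hc := nice_c0 S hx
    change ‖S.zr v (V x) - θ • S.zr v (T x)‖ ≤ _
    have e : S.zr v (V x) - θ • S.zr v (T x) = S.zr v (V x - θ • T x) := by
      rw [map_sub, map_smul]
    rw [e, LinearIsometryEquiv.norm_map]
    refine (hSt.i2 c x hx).trans ?_
    gcongr
  · have e1 : (S.zr v * V)⁻¹ (S.Z (S.zr (-u) (ph • S.zr v η))) = V⁻¹ (S.Z (S.zr (-u) η)) := by
      rw [← hex, mul_inv_app, zr_inv]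
      congr 1
      rw [S.Z_zr, zr_neg_zr]
    rw [e1]
    refine hSt.i6.trans ?_
    gcongr

end Sys

end Vale.Agent.P367.A
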