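import Vale.Agent.P367.A.WWm4

/-! P367, Theorem A, block WW (helper739): the four-pulse word at a state. -/

namespace Vale.Agent.P367.A

open Complex Filter Topology

open Vale.Agent.P367.NI (Gate)

namespace Sys

variable {H K : Type*} [NormedAddCommGroup H] [InnerProductSpace ℂ H]
  [NormedAddCommGroup K] [InnerProductSpace ℂ K] {S : Sys H K}

lemma ww3_one (τ : ℝ) (v : K) : ww3 S τ 0 0 v 0 0 = S.pul τ v := by
  ext z
  rw [ww3_apply, ww_pul_zero, ww_pul_zero]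

lemma ww3_two (τ τ' : ℝ) (v v' : K) : ww3 S τ τ' 0 v v' 0 = S.pul τ' v' * S.pul τ v := by
  ext z
  rw [ww3_apply, ww_pul_zero]
  rfl

lemma ww_im_smul (s k : ℝ) (x y : K) :
    (inner ℂ ((s : ℂ) • x) ((k : ℂ) • y) : ℂ).im = s * k * (inner ℂ x y : ℂ).im := by
  rw [inner_smul_left, inner_smul_right, Complex.conj_ofReal, Complex.im_ofReal_mul,
    Complex.im_ofReal_mul]
  ring

/-- size of a pulse vector -/
lemma ww_mu_state {κ ε M D s s' : ℝ} (hε : 0 < ε) (hκ : 0 ≤ κ) (hM : 0 ≤ M)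
    (hs : |s| ≤ κ * ε) (hs' : |s'| ≤ M) {x x0 : H} (hx : ‖x‖ ≤ 1)
    (hD : s' ≠ 0 → |(inner ℂ x x0 : ℂ).im| ≤ D * ε) (hD0 : 0 ≤ D) :
    mu (((s' / ε : ℝ) : ℂ) • S.iota x0) ((s : ℂ) • S.iota x) ≤ κ * (1 + M * D) * ε := by
  unfold mu
  have h1 : ‖(s : ℂ) • S.iota x‖ ≤ κ * ε := by
    rw [norm_smul, S.iota.norm_map, Complex.norm_real, Real.norm_eq_abs]
    calc |s| * ‖x‖ ≤ (κ * ε) * 1 := mul_le_mul hs hx (norm_nonneg _) (by positivity)
      _ = κ * ε := mul_one _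
  have h2 : |(inner ℂ ((s : ℂ) • S.iota x) (((s' / ε : ℝ) : ℂ) • S.iota x0) : ℂ).im|
      ≤ κ * M * D * ε := by
    rw [ww_im_smul, S.iota.inner_map_map, abs_mul, abs_mul, abs_div, abs_of_pos hε]
    rcases eq_or_ne s' 0 with h0 | h0
    · rw [h0]
      simp
      positivity
    · have h3 := hD h0
      have h4 : |s| * (|s'| / ε) ≤ κ * M := by
        have h5 : |s| * (|s'| / ε) ≤ (κ * ε) * (M / ε) := by
          refine mul_le_mul hs (div_le_div_of_nonneg_right hs' hε.le)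
            (by positivity) (by positivity)
        have h6 : (κ * ε) * (M / ε) = κ * M := by field_simp
        rwa [h6] at h5
      calc |s| * (|s'| / ε) * |(inner ℂ x x0 : ℂ).im| ≤ (κ * M) * (D * ε) :=
            mul_le_mul h4 h3 (abs_nonneg _) (by positivity)
        _ = _ := by ring
  have h3 : κ * (1 + M * D) * ε = κ * ε + κ * M * D * ε := by ring
  rw [h3]
  exact add_le_add h1 h2

/-- size of the difference of two pulse vectors -/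
lemma ww_mu_diff {κ ε M D s s' : ℝ} (hε : 0 < ε) (hκ : 0 ≤ κ) (hM : 0 ≤ M)
    (hs : |s| ≤ κ * ε) (hs' : |s'| ≤ M) {x y x0 : H} (hx : ‖x - y‖ ≤ D * ε)
    (hD : s' ≠ 0 → |(inner ℂ x x0 : ℂ).im - (inner ℂ y x0 : ℂ).im| ≤ D * ε ^ 2)
    (hD0 : 0 ≤ D) :
    mu (((s' / ε : ℝ) : ℂ) • S.iota x0) ((s : ℂ) • S.iota x - (s : ℂ) • S.iota y)
      ≤ κ * (1 + M) * D * ε ^ 2 := by
  have e : (s : ℂ) • S.iota x - (s : ℂ) • S.iota y = (s : ℂ) • S.iota (x - y) := by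
    rw [map_sub, smul_sub]
  rw [e]
  unfold mu
  have h1 : ‖(s : ℂ) • S.iota (x - y)‖ ≤ κ * D * ε ^ 2 := by
    rw [norm_smul, S.iota.norm_map, Complex.norm_real, Real.norm_eq_abs]
    calc |s| * ‖x - y‖ ≤ (κ * ε) * (D * ε) := mul_le_mul hs hx (norm_nonneg _) (by positivity)
      _ = κ * D * ε ^ 2 := by ring
  have h2 : |(inner ℂ ((s : ℂ) • S.iota (x - y)) (((s' / ε : ℝ) : ℂ) • S.iota x0) : ℂ).im|
      ≤ κ * M * D * ε ^ 2 := by
    rw [ww_im_smul, S.iota.inner_map_map, inner_sub_left, Complex.sub_im, abs_mul, abs_mul,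
      abs_div, abs_of_pos hε]
    rcases eq_or_ne s' 0 with h0 | h0
    · rw [h0]
      simp
      positivity
    · have h3 := hD h0
      have h4 : |s| * (|s'| / ε) ≤ κ * M := by
        have h5 : |s| * (|s'| / ε) ≤ (κ * ε) * (M / ε) := by
          refine mul_le_mul hs (div_le_div_of_nonneg_right hs' hε.le)
            (by positivity) (by positivity)
        have h6 : (κ * ε) * (M / ε) = κ * M := by field_simp
        rwa [h6] at h5
      calc |s| * (|s'| / ε) * |(inner ℂ x x0 : ℂ).im - (inner ℂ y x0 : ℂ).im|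
            ≤ (κ * M) * (D * ε ^ 2) :=
            mul_le_mul h4 h3 (abs_nonneg _) (by positivity)
        _ = _ := by ring
  have h3 : κ * (1 + M) * D * ε ^ 2 = κ * D * ε ^ 2 + κ * M * D * ε ^ 2 := by ring
  rw [h3]
  exact add_le_add h1 h2

/-- phases seen by the register frame -/
lemma ww_phase {M δ ε D s : ℝ} (hε : 0 < ε) (hδ : 0 < δ) (hM : 0 ≤ M) (hD0 : 0 ≤ D)
    {V : H ≃ₗᵢ[ℂ] H} {c : K} {t : ℝ} (hc : ‖c‖ ≤ M) (hal : δ ≤ |S.alp t V c|)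
    (hs : s = ε * (Real.pi / 2 / S.alp t V c)) {x : H} (hx : ‖x - S.xt t V‖ ≤ D * ε) :
    |2 * (inner ℂ ((s : ℂ) • S.iota x) (((1 / ε : ℝ) : ℂ) • c) : ℂ).im - Real.pi / 2|
      ≤ 4 * D * M / δ * ε := by
  have ha0 : S.alp t V c ≠ 0 := by
    intro h
    rw [h, abs_zero] at hal
    linarith
  have hapos : 0 < |S.alp t V c| := lt_of_lt_of_le hδ hal
  rw [ww_im_smul]
  have e1 : (inner ℂ (S.iota x) c : ℂ).im
      = (inner ℂ (S.iota (x - S.xt t V)) c : ℂ).im + S.alp t V c / 2 := by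
    rw [alp, map_sub, inner_sub_left, Complex.sub_im]
    ring
  have e2 : 2 * (s * (1 / ε) * (inner ℂ (S.iota x) c : ℂ).im) - Real.pi / 2
      = Real.pi * (inner ℂ (S.iota (x - S.xt t V)) c : ℂ).im / S.alp t V c := by
    rw [e1, hs]
    field_simp
    ring
  rw [e2, abs_div, abs_mul, abs_of_pos Real.pi_pos]
  have h1 : |(inner ℂ (S.iota (x - S.xt t V)) c : ℂ).im| ≤ (D * ε) * M := by
    refine (Complex.abs_im_le_norm _).trans ((norm_inner_le_norm _ _).trans ?_)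
    rw [S.iota.norm_map]
    exact mul_le_mul hx hc (norm_nonneg _) (by positivity)
  have h2 : Real.pi * |(inner ℂ (S.iota (x - S.xt t V)) c : ℂ).im| ≤ 4 * (D * ε * M) :=
    mul_le_mul Real.pi_le_four h1 (abs_nonneg _) (by norm_num)
  calc _ ≤ 4 * (D * ε * M) / δ := by
        refine div_le_div₀ (by positivity) h2 hδ hal
    _ = _ := by ring

lemma ww_s_bound {M δ ε s a : ℝ} (hε : 0 < ε) (hδ : 0 < δ) (hal : δ ≤ |a|)
    (hs : s = ε * (Real.pi / 2 / a)) : |s| ≤ 2 / δ * ε := by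
  have _ := M
  rw [hs, abs_mul, abs_of_pos hε, abs_div, abs_of_pos (by positivity : 0 < Real.pi / 2)]
  have : Real.pi / 2 / |a| ≤ 2 / δ :=
    div_le_div₀ (by norm_num) (by linarith [Real.pi_le_four]) hδ hal
  nlinarith

/-- the estimates along the four pulses -/
lemma ww_pulses (hN : S.NStmt) (hO : S.OStmt) (hP : S.PStmt) {M δ κ : ℝ} (hM : 0 ≤ M)
    (hδ : 0 < δ) (hκ : 0 ≤ κ) : ∃ m D : ℝ, 0 ≤ m ∧ 0 ≤ D ∧ ∀ ε, 0 < ε → ε ≤ 1 → m * ε ≤ 1 →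
    ∀ (s' : ℝ) (V : H ≃ₗᵢ[ℂ] H) (c : K) (t1 t2 : ℝ), S.Ctx M δ ε s' V c t1 t2 →
    ∀ s1 s2 : ℝ, |s1| ≤ κ * ε → |s2| ≤ κ * ε → ∀ (V1 V2 V3 : H ≃ₗᵢ[ℂ] H) (v1 v2 v3 v4 b : K),
      b = ((s' / ε : ℝ) : ℂ) • S.iota (S.xv V) →
      v1 = (s2 : ℂ) • S.iota (S.xt t2 V) → V1 = S.pul t2 v1 * V →
      v2 = (s1 : ℂ) • S.iota (S.xt t1 V1) → V2 = S.pul t1 v2 * V1 →
      v3 = (s2 : ℂ) • S.iota (S.xt t2 V2) → V3 = S.pul t2 (-v3) * V2 →
      v4 = (s1 : ℂ) • S.iota (S.xt t1 V3) →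
      (mu b v1 ≤ m * ε ∧ mu b v2 ≤ m * ε ∧ mu b v3 ≤ m * ε ∧ mu b v4 ≤ m * ε) ∧
      (mu b (v3 - v1) ≤ κ * (1 + M) * D * ε ^ 2 ∧ mu b (v4 - v2) ≤ κ * (1 + M) * D * ε ^ 2) ∧
      ‖S.xt t1 V1 - S.xt t1 V‖ ≤ D * ε ∧ ‖S.xt t2 V2 - S.xt t2 V‖ ≤ D * ε ∧
      ‖S.xt t1 V3 - S.xt t1 V‖ ≤ D * ε := by
  obtain ⟨C0, hC0, K0⟩ := ww_key hN hO hP hM hδ (m := 0) le_rfl
  set m1 : ℝ := κ * (1 + M * C0) with hm1
  have hm1' : 0 ≤ m1 := by positivity
  obtain ⟨D1, hD1, K1⟩ := ww_key hN hO hP hM hδ hm1'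
  set m2 : ℝ := m1 + κ * (1 + M * (2 * D1)) with hm2
  have hm2' : 0 ≤ m2 := by positivity
  obtain ⟨D2, hD2, K2⟩ := ww_key hN hO hP hM hδ hm2'
  set m3 : ℝ := m2 + κ * (1 + M * (2 * D2)) with hm3
  have hm3' : 0 ≤ m3 := by positivity
  obtain ⟨D3, hD3, K3⟩ := ww_key hN hO hP hM hδ hm3'
  set m4 : ℝ := m3 + κ * (1 + M * (2 * D3)) with hm4
  have hm4' : 0 ≤ m4 := by positivity
  have hm12 : m1 ≤ m2 := by rw [hm2]; linarith [show 0 ≤ κ * (1 + M * (2 * D1)) by positivity]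
  have hm23 : m2 ≤ m3 := by rw [hm3]; linarith [show 0 ≤ κ * (1 + M * (2 * D2)) by positivity]
  have hm34 : m3 ≤ m4 := by rw [hm4]; linarith [show 0 ≤ κ * (1 + M * (2 * D3)) by positivity]
  refine ⟨m4, D1 + D2 + D3, hm4', by positivity, ?_⟩
  intro ε hε hεone hm4ε s' V c t1 t2 hctx s1 s2 hs1b hs2b V1 V2 V3 v1 v2 v3 v4 b hb hv1 hV1 hv2
    hV2 hv3 hV3 hv4
  have mε : ∀ m, m ≤ m4 → m * ε ≤ 1 := fun m h =>
    (mul_le_mul_of_nonneg_right h hε.le).trans hm4ε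
  have hε2' : ε ^ 2 ≤ ε := by
    rw [pow_two]
    exact mul_le_of_le_one_left hε.le hεone
  have zb : ∀ m : ℝ, 0 ≤ m → mu b (0 : K) ≤ m * ε := by
    intro m hm
    rw [ww_mu_zero]
    positivity
  have zb' := zb
  rw [hb] at zb'
  have im2 : ∀ D : ℝ, 0 ≤ D → ∀ x y : ℝ, |y| ≤ D * ε → |x - y| ≤ D * ε ^ 2 → |x| ≤ 2 * D * ε := by
    intro D hD x y hy hxy
    have h1 : |x| ≤ |x - y| + |y| := by
      have := abs_add_le (x - y) y
      rwa [sub_add_cancel] at this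
    have h2 : D * ε ^ 2 ≤ D * ε := mul_le_mul_of_nonneg_left hε2' hD
    linarith
  -- first pulse
  have B0 := K0 ε hε hεone (by simp) s' V c t1 t2 hctx 0 0 0 0 0 0 (zb' 0 le_rfl) (zb' 0 le_rfl)
    (zb' 0 le_rfl)
  have b1 : mu b v1 ≤ m1 * ε := by
    rw [hb, hv1]
    exact ww_mu_state hε hκ hM hs2b hctx.s'_le (ww_norm_xt t2 V).le (B0 t2).2.1 hC0
  have b1' : mu b v1 ≤ m2 * ε := b1.trans (mul_le_mul_of_nonneg_right hm12 hε.le)
  have b1'' : mu b v1 ≤ m3 * ε := b1'.trans (mul_le_mul_of_nonneg_right hm23 hε.le)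
  -- second pulse
  have B1 := K1 ε hε hεone (mε m1 (hm12.trans (hm23.trans hm34))) s' V c t1 t2 hctx t2 0 0 v1 0 0
    (by rw [← hb]; exact b1) (zb' m1 hm1') (zb' m1 hm1')
  rw [ww3_one, ← hV1] at B1
  have b2 : mu b v2 ≤ m2 * ε := by
    rw [hb, hv2]
    have h := ww_mu_state (S := S) (D := 2 * D1) hε hκ hM hs1b hctx.s'_le (ww_norm_xt t1 V1).le
      (fun h0 => im2 D1 hD1 _ _ ((B1 t1).2.1 h0) ((B1 t1).2.2 h0)) (by positivity)
    refine h.trans (mul_le_mul_of_nonneg_right ?_ hε.le)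
    rw [hm2]
    linarith
  have b2'' : mu b v2 ≤ m3 * ε := b2.trans (mul_le_mul_of_nonneg_right hm23 hε.le)
  -- third pulse
  have B2 := K2 ε hε hεone (mε m2 (hm23.trans hm34)) s' V c t1 t2 hctx t2 t1 0 v1 v2 0
    (by rw [← hb]; exact b1') (by rw [← hb]; exact b2) (zb' m2 hm2')
  rw [ww3_two, mul_assoc, ← hV1, ← hV2] at B2
  have b3 : mu b v3 ≤ m3 * ε := by
    rw [hb, hv3]
    have h := ww_mu_state (S := S) (D := 2 * D2) hε hκ hM hs2b hctx.s'_le (ww_norm_xt t2 V2).le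
      (fun h0 => im2 D2 hD2 _ _ ((B2 t2).2.1 h0) ((B2 t2).2.2 h0)) (by positivity)
    refine h.trans (mul_le_mul_of_nonneg_right ?_ hε.le)
    rw [hm3]
    linarith
  -- fourth pulse
  have B3 := K3 ε hε hεone (mε m3 hm34) s' V c t1 t2 hctx t2 t1 t2 v1 v2 (-v3)
    (by rw [← hb]; exact b1'') (by rw [← hb]; exact b2'')
    (by rw [← hb, ww_mu_neg]; exact b3)
  rw [ww3, mul_assoc, mul_assoc, ← hV1, ← hV2, ← hV3] at B3
  have b4 : mu b v4 ≤ m4 * ε := by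
    rw [hb, hv4]
    have h := ww_mu_state (S := S) (D := 2 * D3) hε hκ hM hs1b hctx.s'_le (ww_norm_xt t1 V3).le
      (fun h0 => im2 D3 hD3 _ _ ((B3 t1).2.1 h0) ((B3 t1).2.2 h0)) (by positivity)
    refine h.trans (mul_le_mul_of_nonneg_right ?_ hε.le)
    rw [hm4]
    linarith
  have kM : 0 ≤ κ * (1 + M) := by positivity
  have d31 : mu b (v3 - v1) ≤ κ * (1 + M) * D2 * ε ^ 2 := by
    rw [hb, hv3, hv1]
    exact ww_mu_diff hε hκ hM hs2b hctx.s'_le (B2 t2).1 (B2 t2).2.2 hD2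
  have d42 : mu b (v4 - v2) ≤ κ * (1 + M) * (D3 + D1) * ε ^ 2 := by
    rw [hb, hv4, hv2]
    refine ww_mu_diff hε hκ hM hs1b hctx.s'_le ?_ ?_ (by positivity)
    · have h1 := (B3 t1).1
      have h2 := (B1 t1).1
      have h3 : S.xt t1 V3 - S.xt t1 V1
          = (S.xt t1 V3 - S.xt t1 V) - (S.xt t1 V1 - S.xt t1 V) := by abel
      rw [h3]
      refine (norm_sub_le _ _).trans ?_
      linarith
    · intro h0
      have h1 := (B3 t1).2.2 h0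
      have h2 := (B1 t1).2.2 h0
      have h3 : (inner ℂ (S.xt t1 V3) (S.xv V) : ℂ).im - (inner ℂ (S.xt t1 V1) (S.xv V) : ℂ).im
          = ((inner ℂ (S.xt t1 V3) (S.xv V) : ℂ).im - (inner ℂ (S.xt t1 V) (S.xv V) : ℂ).im)
            - ((inner ℂ (S.xt t1 V1) (S.xv V) : ℂ).im
              - (inner ℂ (S.xt t1 V) (S.xv V) : ℂ).im) := by ring
      rw [h3]
      refine (abs_sub _ _).trans ?_
      linarith
  have up : ∀ D : ℝ, D ≤ D1 + D2 + D3 → ∀ r : ℝ, r ≤ D * ε → r ≤ (D1 + D2 + D3) * ε :=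
    fun D hD r hr => hr.trans (mul_le_mul_of_nonneg_right hD hε.le)
  have m3ε : m3 * ε ≤ m4 * ε := mul_le_mul_of_nonneg_right hm34 hε.le
  refine ⟨⟨b1''.trans m3ε, b2''.trans m3ε, b3.trans m3ε, b4⟩, ⟨?_, ?_⟩,
    up D1 (by linarith) _ (B1 t1).1, up D2 (by linarith) _ (B2 t2).1,
    up D3 (by linarith) _ (B3 t1).1⟩
  · refine d31.trans (mul_le_mul_of_nonneg_right ?_ (by positivity))
    exact mul_le_mul_of_nonneg_left (by linarith) kM
  · refine d42.trans (mul_le_mul_of_nonneg_right ?_ (by positivity))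
    exact mul_le_mul_of_nonneg_left (by linarith) kM

theorem ww_stmt (hN : S.NStmt) (hO : S.OStmt) (hP : S.PStmt) (hC1 : C1Stmt S) (hC2 : C2Stmt S) :
    WWStmt S := by
  intro M δ hM hδ
  obtain ⟨m, D, hm, hD, hpul⟩ := ww_pulses hN hO hP (κ := 2 / δ) hM hδ (by positivity)
  obtain ⟨E1, ε1, hE1, hε1, F1⟩ := hC1 (m + 2 / δ * (1 + M) * D) (by positivity)
  obtain ⟨E2, ε2, hE2, hε2, F2⟩ := hC2 (m + 4 * D * M / δ) (by positivity)
  refine ⟨E1 + E2, min (min 1 (1 / (m + 1))) (min ε1 ε2), by positivity, by positivity, ?_⟩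
  intro ε hε hεle s' V c t1 t2 hctx s1 s2 hs1 hs2
  have hεone : ε ≤ 1 := hεle.trans ((min_le_left _ _).trans (min_le_left _ _))
  have hεm : ε ≤ 1 / (m + 1) := hεle.trans ((min_le_left _ _).trans (min_le_right _ _))
  have hεε1 : ε ≤ ε1 := hεle.trans ((min_le_right _ _).trans (min_le_left _ _))
  have hεε2 : ε ≤ ε2 := hεle.trans ((min_le_right _ _).trans (min_le_right _ _))
  have hmε : m * ε ≤ 1 := by
    have h1 : (m + 1) * ε ≤ (m + 1) * (1 / (m + 1)) :=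
      mul_le_mul_of_nonneg_left hεm (by positivity)
    have h2 : (m + 1) * (1 / (m + 1)) = 1 := by field_simp
    have h3 : (m + 1) * ε = m * ε + ε := by ring
    linarith
  have hs1b : |s1| ≤ 2 / δ * ε := ww_s_bound (M := M) hε hδ hctx.al1 hs1
  have hs2b : |s2| ≤ 2 / δ * ε := ww_s_bound (M := M) hε hδ hctx.al2 hs2
  set b : K := ((s' / ε : ℝ) : ℂ) • S.iota (S.xv V) with hb
  set v1 : K := (s2 : ℂ) • S.iota (S.xt t2 V) with hv1
  set V1 : H ≃ₗᵢ[ℂ] H := S.pul t2 v1 * V with hV1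
  set v2 : K := (s1 : ℂ) • S.iota (S.xt t1 V1) with hv2
  set V2 : H ≃ₗᵢ[ℂ] H := S.pul t1 v2 * V1 with hV2
  set v3 : K := (s2 : ℂ) • S.iota (S.xt t2 V2) with hv3
  set V3 : H ≃ₗᵢ[ℂ] H := S.pul t2 (-v3) * V2 with hV3
  set v4 : K := (s1 : ℂ) • S.iota (S.xt t1 V3) with hv4
  obtain ⟨⟨b1, b2, b3, b4⟩, ⟨d31, d42⟩, x1, x2, x3⟩ := hpul ε hε hεone hmε s' V c t1 t2 hctx s1 s2
    hs1b hs2b V1 V2 V3 v1 v2 v3 v4 b hb hv1 hV1 hv2 hV2 hv3 hV3 hv4
  -- the word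
  have eneg : ∀ (s : ℝ) (x : H), ((-s : ℝ) : ℂ) • S.iota x = -((s : ℂ) • S.iota x) := by
    intro s x
    rw [Complex.ofReal_neg, neg_smul]
  have eW : S.wv t1 t2 s1 s2 V = S.pul t1 (-v4) * V3 := by
    have e1 : S.ps t2 s2 V = V1 := rfl
    have e2 : S.ps t1 s1 V1 = V2 := rfl
    have e3 : S.ps t2 (-s2) V2 = V3 := by rw [ps, eneg]
    have e4 : S.ps t1 (-s1) V3 = S.pul t1 (-v4) * V3 := by rw [ps, eneg]
    rw [wv, e1, e2, e3, e4]
  have eWz : ∀ z, (S.wv t1 t2 s1 s2 V * V⁻¹) z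
      = S.pul t1 (-v4) (S.pul t2 (-v3) (S.pul t1 v2 (S.pul t2 v1 z))) := by
    intro z
    rw [eW, hV3, hV2, hV1]
    simp only [ww_mul_apply, ww_apply_inv]
  have nv : ∀ v : K, ‖v‖ ≤ mu b v := by
    intro v
    unfold mu
    linarith [abs_nonneg (inner ℂ v b : ℂ).im]
  have kM : 0 ≤ 2 / δ * (1 + M) * D := by positivity
  have kM2 : 0 ≤ 4 * D * M / δ := by positivity
  refine ⟨?_, ?_⟩
  · intro c0 z hz
    rw [eWz]
    have hc0 := ww_Frm_c0 hz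
    have up1 : ∀ {x : ℝ}, x ≤ m * ε → x ≤ (m + 2 / δ * (1 + M) * D) * ε := fun h =>
      h.trans (mul_le_mul_of_nonneg_right (by linarith) hε.le)
    have up3 : ∀ {x : ℝ}, x ≤ 2 / δ * (1 + M) * D * ε ^ 2
        → x ≤ (m + 2 / δ * (1 + M) * D) * ε ^ 2 := fun h =>
      h.trans (mul_le_mul_of_nonneg_right (by linarith) (by positivity))
    have h := F1 ε hε hεε1 b c0 z t1 t2 v1 v2 v3 v4 hz (up1 b1) (up1 b2) (up1 b3) (up1 b4)
      (up3 d31) (up3 d42)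
    refine h.trans ?_
    have e : (E1 + E2) * c0 * ε ^ 2 = E1 * c0 * ε ^ 2 + E2 * c0 * ε ^ 2 := by ring
    rw [e]
    have : 0 ≤ E2 * c0 * ε ^ 2 := by positivity
    linarith
  · intro c0 z hz
    rw [eWz]
    have hc0 := ww_Frm_c0 hz
    have up2 : ∀ {x : ℝ}, x ≤ m * ε → x ≤ (m + 4 * D * M / δ) * ε := fun h =>
      h.trans (mul_le_mul_of_nonneg_right (by linarith) hε.le)
    have up4 : ∀ {x : ℝ}, x ≤ 4 * D * M / δ * ε → x ≤ (m + 4 * D * M / δ) * ε := fun h =>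
      h.trans (mul_le_mul_of_nonneg_right (by linarith) hε.le)
    have p1 := ww_phase hε hδ hM hD hctx.c_le hctx.al2 hs2 (x := S.xt t2 V)
      (by rw [sub_self, norm_zero]; positivity)
    have p2 := ww_phase hε hδ hM hD hctx.c_le hctx.al1 hs1 x1
    have p3 := ww_phase hε hδ hM hD hctx.c_le hctx.al2 hs2 x2
    have p4 := ww_phase hε hδ hM hD hctx.c_le hctx.al1 hs1 x3
    have h := F2 ε hε hεε2 (((1 / ε : ℝ) : ℂ) • c) c0 z t1 t2 v1 v2 v3 v4 hz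
      (up2 ((nv v1).trans b1)) (up2 ((nv v2).trans b2)) (up2 ((nv v3).trans b3))
      (up2 ((nv v4).trans b4)) (up4 p1) (up4 p2) (up4 p3) (up4 p4)
    refine h.trans ?_
    have e : (E1 + E2) * c0 * ε = E1 * c0 * ε + E2 * c0 * ε := by ring
    rw [e]
    have : 0 ≤ E1 * c0 * ε := by positivity
    linarith

end Sys

end Vale.Agent.P367.A
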