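import Vale.Agent.P367.A.Nice
import Vale.Agent.P367.A.LemO
import Vale.Agent.P367.A.Pulse
import Vale.Agent.P367.A.WW
import Vale.Agent.P367.A.Gram
import Vale.Agent.P367.A.Kick
import Vale.Agent.P367.A.StepB
import Vale.Agent.P367.A.StepC
import Vale.Agent.P367.A.SG
import Vale.Agent.P367.A.Sim
import Vale.Agent.P367.A.AssA
import Vale.Agent.P367.A.FinalV

/-! P367, THEOREM A: assembly of all blocks. -/

namespace Vale.Agent.P367.A

namespace Sys

variable {H K : Type*} [NormedAddCommGroup H] [InnerProductSpace ℂ H]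
  [NormedAddCommGroup K] [InnerProductSpace ℂ K] (S : Sys H K)

/-- THEOREM A for every spin-Weyl system -/
theorem aStmt : S.AStmt := by
  have hN := S.nStmt
  have hO := S.ostmt
  have hP := S.pStmt
  have hWW := ww_stmt hN hO hP S.c1Stmt S.c2Stmt
  have hG := S.gStmt
  have hK := S.kStmt hN hO
  have hSC := S.sc hN
  have hSB := S.sb hN hWW
  have hSG := S.sg hN hWW
  exact S.aStmt_of hN hG (S.simStmt hN hG hK hSC hSB hSG)

end Sys

open Vale.Agent.P367.NI (Gate)

/-- every labelled word is simulated by plain words of the same Weyl system -/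
theorem plain_of_labelled {F K : Type} [NormedAddCommGroup F] [InnerProductSpace ℂ F]
    [NormedAddCommGroup K] [InnerProductSpace ℂ K] (S : NI.Weyl F K) (W : List Gate) {d : ℝ}
    (hd : 0 < d) : ∃ p γ β, |S.energy (NI.plain γ β p) - S.energy W| < d :=
  final_of S (toSys S).aStmt W hd

end Vale.Agent.P367.A
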