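import Vale.Agent.P367.A.Skel

/-! P367, Theorem A, block N: niceness calculus. -/

namespace Vale.Agent.P367.A

open Complex

namespace Sys

variable {H K : Type*} [NormedAddCommGroup H] [InnerProductSpace ℂ H]
  [NormedAddCommGroup K] [InnerProductSpace ℂ K] (S : Sys H K)

variable {S}

lemma Nice.nrm {c : ℝ} {x : H} (h : S.Nice c x) : ‖x‖ ≤ c := h.m0

lemma Nice.one {c : ℝ} {x : H} (h : S.Nice c x) (a : K) : ‖S.W a x - x‖ ≤ c * ‖a‖ := h.m1 a

lemma Nice.two {c : ℝ} {x : H} (h : S.Nice c x) (a b : K) :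
    ‖S.W a (S.W b x - x) - (S.W b x - x)‖ ≤ c * ‖a‖ * ‖b‖ := by
  rw [mul_assoc]; exact h.m2 a b

lemma Nice.mk' {c : ℝ} {x : H} (h0 : ‖x‖ ≤ c) (h1 : ∀ a, ‖S.W a x - x‖ ≤ c * ‖a‖)
    (h2 : ∀ a b, ‖S.W a (S.W b x - x) - (S.W b x - x)‖ ≤ c * ‖a‖ * ‖b‖) : S.Nice c x :=
  ⟨h0, h1, fun a b => by rw [← mul_assoc]; exact h2 a b⟩

lemma Nice.c0 {c : ℝ} {x : H} (h : S.Nice c x) : 0 ≤ c := (norm_nonneg x).trans h.nrm

lemma Nice.mono {c d : ℝ} {x : H} (h : S.Nice c x) (hcd : c ≤ d) : S.Nice d x where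
  m0 := h.nrm.trans hcd
  m1 a := (h.one a).trans (mul_le_mul_of_nonneg_right hcd (norm_nonneg a))
  m2 a b := (h.m2 a b).trans (mul_le_mul_of_nonneg_right hcd (by positivity))

variable (S) in
lemma nice_zero : S.Nice 0 (0 : H) where
  m0 := by simp
  m1 a := by simp
  m2 a b := by simp

lemma Nice.add {c d : ℝ} {x y : H} (hx : S.Nice c x) (hy : S.Nice d y) :
    S.Nice (c + d) (x + y) where
  m0 := (norm_add_le x y).trans (add_le_add hx.nrm hy.nrm)
  m1 a := by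
    have e : S.W a (x + y) - (x + y) = (S.W a x - x) + (S.W a y - y) := by
      rw [map_add]; abel
    rw [e]
    refine (norm_add_le _ _).trans ?_
    have h1 := hx.one a
    have h2 := hy.one a
    nlinarith
  m2 a b := by
    have e : S.W a (S.W b (x + y) - (x + y)) - (S.W b (x + y) - (x + y))
        = (S.W a (S.W b x - x) - (S.W b x - x)) + (S.W a (S.W b y - y) - (S.W b y - y)) := by
      simp only [map_add, map_sub]; abel
    rw [e]
    refine (norm_add_le _ _).trans ?_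
    have h1 := hx.two a b
    have h2 := hy.two a b
    nlinarith

lemma Nice.smul {c : ℝ} {x : H} (hx : S.Nice c x) (k : ℂ) : S.Nice (‖k‖ * c) (k • x) where
  m0 := by
    rw [norm_smul]
    exact mul_le_mul_of_nonneg_left hx.nrm (norm_nonneg k)
  m1 a := by
    have e : S.W a (k • x) - k • x = k • (S.W a x - x) := by
      rw [map_smul, smul_sub]
    rw [e, norm_smul, mul_assoc]
    exact mul_le_mul_of_nonneg_left (hx.one a) (norm_nonneg k)
  m2 a b := by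
    have e : S.W a (S.W b (k • x) - k • x) - (S.W b (k • x) - k • x)
        = k • (S.W a (S.W b x - x) - (S.W b x - x)) := by
      simp only [map_smul, map_sub, smul_sub]
    rw [e, norm_smul]
    have := mul_le_mul_of_nonneg_left (hx.two a b) (norm_nonneg k)
    calc _ ≤ _ := this
      _ = _ := by ring

lemma Nice.neg {c : ℝ} {x : H} (hx : S.Nice c x) : S.Nice c (-x) := by
  have := hx.smul (-1)
  simpa using this

lemma Nice.sub {c d : ℝ} {x y : H} (hx : S.Nice c x) (hy : S.Nice d y) :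
    S.Nice (c + d) (x - y) := by
  rw [sub_eq_add_neg]
  exact hx.add hy.neg

lemma Nice.sum {ι : Type*} (s : Finset ι) (c : ι → ℝ) (x : ι → H)
    (h : ∀ i ∈ s, S.Nice (c i) (x i)) : S.Nice (∑ i ∈ s, c i) (∑ i ∈ s, x i) := by
  classical
  induction s using Finset.induction_on with
  | empty => simpa using S.nice_zero
  | insert i s hi ih =>
    rw [Finset.sum_insert hi, Finset.sum_insert hi]
    exact (h i (Finset.mem_insert_self i s)).add
      (ih fun j hj => h j (Finset.mem_insert_of_mem hj))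

/-- isometries commuting with the Weyl operators preserve niceness. -/
lemma Nice.comm {c : ℝ} {x : H} (hx : S.Nice c x) (U : H ≃ₗᵢ[ℂ] H)
    (hU : ∀ a y, S.W a (U y) = U (S.W a y)) : S.Nice c (U x) where
  m0 := by rw [U.norm_map]; exact hx.nrm
  m1 a := by
    rw [hU, ← map_sub, U.norm_map]
    exact hx.one a
  m2 a b := by
    rw [hU b, ← map_sub, hU a, ← map_sub, U.norm_map]
    exact hx.m2 a b

variable (S) in
lemma n_W_X (a : K) (x : H) : S.W a (S.X x) = S.X (S.W a x) := S.WX a x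

variable (S) in
lemma n_W_xr (t : ℝ) (a : K) (x : H) : S.W a (S.xr t x) = S.xr t (S.W a x) := by
  rw [S.xr_apply, S.xr_apply, map_sub, map_smul, map_smul, S.WX]

variable (S) in
lemma n_W_Zt (t : ℝ) (a : K) (x : H) : S.W a (S.Zt t x) = S.Zt t (S.W a x) := by
  change S.W a (S.xr t (S.Z (S.xr (-t) x))) = S.xr t (S.Z (S.xr (-t) (S.W a x)))
  rw [S.n_W_xr, S.WZ, S.n_W_xr]

lemma Nice.X {c : ℝ} {x : H} (hx : S.Nice c x) : S.Nice c (S.X x) := hx.comm S.X S.WX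

lemma Nice.Z {c : ℝ} {x : H} (hx : S.Nice c x) : S.Nice c (S.Z x) := hx.comm S.Z S.WZ

lemma Nice.xr {c : ℝ} {x : H} (hx : S.Nice c x) (t : ℝ) : S.Nice c (S.xr t x) :=
  hx.comm _ (S.n_W_xr t)

lemma Nice.Zt {c : ℝ} {x : H} (hx : S.Nice c x) (t : ℝ) : S.Nice c (S.Zt t x) :=
  hx.comm _ (S.n_W_Zt t)

/-! ### Weyl operators -/

lemma n_norm_expI (t : ℝ) : ‖Complex.exp (Complex.I * (t : ℂ)) - 1‖ ≤ |t| := by
  have := Real.norm_exp_I_mul_ofReal_sub_one_le (x := t)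
  simpa [Real.norm_eq_abs] using this

variable (S) in
/-- commutation of Weyl operators -/
lemma n_W_comm (a b : K) (x : H) : S.W a (S.W b x)
    = Complex.exp (Complex.I * ((-(2 * (inner ℂ a b : ℂ).im) : ℝ) : ℂ)) • S.W b (S.W a x) := by
  rw [S.WW, S.WW, smul_smul, ← Complex.exp_add, add_comm b a]
  congr 2
  have : (inner ℂ b a : ℂ).im = -(inner ℂ a b : ℂ).im := by
    rw [← inner_conj_symm, conj_im]
  rw [this]
  push_cast
  ring

lemma n_abs_im_le (a b : K) : |(inner ℂ a b : ℂ).im| ≤ ‖a‖ * ‖b‖ :=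
  (Complex.abs_im_le_norm _).trans (norm_inner_le_norm a b)

/-- the phase of `n_W_comm` -/
noncomputable def n_ph (a b : K) : ℂ :=
  Complex.exp (Complex.I * ((-(2 * (inner ℂ a b : ℂ).im) : ℝ) : ℂ))

variable (S) in
lemma n_W_comm' (a b : K) (x : H) : S.W a (S.W b x) = n_ph a b • S.W b (S.W a x) := S.n_W_comm a b x

lemma n_norm_ph (a b : K) : ‖n_ph a b‖ = 1 := by
  unfold n_ph
  rw [mul_comm]
  exact Complex.norm_exp_ofReal_mul_I _

lemma n_norm_ph_sub_one (a b : K) : ‖n_ph a b - 1‖ ≤ 2 * ‖b‖ * ‖a‖ := by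
  refine (n_norm_expI _).trans ?_
  rw [abs_neg, abs_mul, abs_two]
  have := n_abs_im_le a b
  nlinarith

lemma Nice.W {c : ℝ} {x : H} (hx : S.Nice c x) (b : K) :
    S.Nice (c * (1 + 2 * ‖b‖) ^ 2) (S.W b x) := by
  have hc := hx.c0
  have hb := norm_nonneg b
  have h1 : (1 : ℝ) ≤ 1 + 2 * ‖b‖ := by linarith
  have h2 : (1 + 2 * ‖b‖) ≤ (1 + 2 * ‖b‖) ^ 2 := by nlinarith
  have key1 : ∀ a y d, ‖S.W a y - y‖ ≤ d * ‖a‖ → ‖y‖ ≤ d →
      ‖n_ph a b • S.W a y - y‖ ≤ d * (1 + 2 * ‖b‖) * ‖a‖ := by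
    intro a y d h h'
    have e : n_ph a b • S.W a y - y = n_ph a b • (S.W a y - y) + (n_ph a b - 1) • y := by
      rw [smul_sub, sub_smul, one_smul]; abel
    rw [e]
    refine (norm_add_le _ _).trans ?_
    rw [norm_smul, norm_smul, n_norm_ph, one_mul]
    have h3 := n_norm_ph_sub_one a b
    have h4 : ‖n_ph a b - 1‖ * ‖y‖ ≤ (2 * ‖b‖ * ‖a‖) * d :=
      mul_le_mul h3 h' (norm_nonneg _) (by positivity)
    nlinarith
  refine Nice.mk' ?_ ?_ ?_
  · rw [LinearIsometryEquiv.norm_map]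
    refine hx.nrm.trans ?_
    nlinarith
  · intro a
    rw [S.n_W_comm' a b, ← map_smul, ← map_sub, LinearIsometryEquiv.norm_map]
    refine (key1 a x c (hx.one a) hx.nrm).trans ?_
    have ha := norm_nonneg a
    have : c * (1 + 2 * ‖b‖) ≤ c * (1 + 2 * ‖b‖) ^ 2 := mul_le_mul_of_nonneg_left h2 hc
    exact mul_le_mul_of_nonneg_right this ha
  · intro a a'
    rw [S.n_W_comm' a' b, ← map_smul, ← map_sub, S.n_W_comm' a b, ← map_smul, ← map_sub,
      LinearIsometryEquiv.norm_map]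
    set y := n_ph a' b • S.W a' x - x with hy
    have ha := norm_nonneg a
    have ha' := norm_nonneg a'
    have hy1 : ‖y‖ ≤ c * (1 + 2 * ‖b‖) * ‖a'‖ := key1 a' x c (hx.one a') hx.nrm
    have hy2 : ‖S.W a y - y‖ ≤ (c * (1 + 2 * ‖b‖) * ‖a'‖) * ‖a‖ := by
      have e : S.W a y - y = n_ph a' b • (S.W a (S.W a' x - x) - (S.W a' x - x))
          + (n_ph a' b - 1) • (S.W a x - x) := by
        rw [hy]
        simp only [map_sub, map_smul, smul_sub, sub_smul, one_smul]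
        abel
      rw [e]
      refine (norm_add_le _ _).trans ?_
      rw [norm_smul, norm_smul, n_norm_ph, one_mul]
      have h3 := n_norm_ph_sub_one a' b
      have h4 := hx.two a a'
      have h5 := hx.one a
      have h6 : ‖n_ph a' b - 1‖ * ‖S.W a x - x‖ ≤ (2 * ‖b‖ * ‖a'‖) * (c * ‖a‖) :=
        mul_le_mul h3 h5 (norm_nonneg _) (by positivity)
      nlinarith
    have := key1 a y (c * (1 + 2 * ‖b‖) * ‖a'‖) hy2 hy1
    refine this.trans (le_of_eq ?_)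
    ring

/-! ### pulses -/

lemma Nice.zr {c : ℝ} {x : H} (hx : S.Nice c x) (v : K) :
    S.Nice (2 * c * (1 + 2 * ‖v‖) ^ 2) (S.zr v x) := by
  rw [S.zr_apply]
  have h1 := hx.W (-v)
  have h2 := hx.W v
  have h3 := hx.Z.W (-v)
  have h4 := hx.Z.W v
  rw [norm_neg] at h1 h3
  have := ((h1.add h2).smul (1 / 2)).add ((h3.sub h4).smul (1 / 2))
  refine this.mono (le_of_eq ?_)
  norm_num
  ring

lemma Nice.pul {c : ℝ} {x : H} (hx : S.Nice c x) (t : ℝ) (v : K) :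
    S.Nice (2 * c * (1 + 2 * ‖v‖) ^ 2) (S.pul t v x) := by
  change S.Nice _ (S.xr t (S.zr v (S.xr (-t) x)))
  exact ((hx.xr (-t)).zr v).xr t

/-! ### the vacuum -/

variable (S) in
lemma n_re_vac (a : K) : (inner ℂ S.Om (S.W a S.Om)).re = Real.exp (-(‖a‖ ^ 2 / 2)) := by
  rw [S.vac, ← Complex.ofReal_neg, ← Complex.ofReal_exp, Complex.ofReal_re]

lemma n_norm_sub_sq (U : H ≃ₗᵢ[ℂ] H) (y : H) :
    ‖U y - y‖ ^ 2 = 2 * ‖y‖ ^ 2 - 2 * (inner ℂ y (U y)).re := by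
  have h := norm_sub_sq (𝕜 := ℂ) (U y) y
  rw [U.norm_map] at h
  have e : RCLike.re (inner ℂ (U y) y : ℂ) = (inner ℂ y (U y)).re := by
    rw [← inner_conj_symm y (U y)]
    exact (Complex.conj_re _).symm
  rw [e] at h
  linarith

variable (S) in
lemma n_one_Om_sq (a : K) : ‖S.W a S.Om - S.Om‖ ^ 2 = 2 - 2 * Real.exp (-(‖a‖ ^ 2 / 2)) := by
  rw [n_norm_sub_sq, S.nOm, S.n_re_vac]
  ring

variable (S) in
lemma n_one_Om (a : K) : ‖S.W a S.Om - S.Om‖ ≤ ‖a‖ := by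
  have h := S.n_one_Om_sq a
  have h1 := Real.add_one_le_exp (-(‖a‖ ^ 2 / 2))
  refine abs_le_of_sq_le_sq' ?_ (norm_nonneg a) |>.2
  rw [h]
  linarith

variable (S) in
/-- the four vacuum expectations in the second difference -/
lemma n_two_Om_re (a b : K) :
    (inner ℂ (S.W b S.Om - S.Om) (S.W a (S.W b S.Om - S.Om))).re
      = (1 + Real.cos (2 * (inner ℂ a b : ℂ).im)) * Real.exp (-(‖a‖ ^ 2 / 2))
        - Real.cos (inner ℂ a b : ℂ).im
          * (Real.exp (-(‖a - b‖ ^ 2 / 2)) + Real.exp (-(‖a + b‖ ^ 2 / 2))) := by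
  set w := (inner ℂ a b : ℂ).im with hw
  have cs : ∀ t r : ℝ, (Complex.exp (Complex.I * (t : ℂ)) * Complex.exp (-((r : ℝ) : ℂ))).re
      = Real.cos t * Real.exp (-r) := by
    intro t r
    rw [← Complex.ofReal_neg, ← Complex.ofReal_exp, Complex.re_mul_ofReal, mul_comm Complex.I,
      Complex.exp_ofReal_mul_I_re]
  have t1 : (inner ℂ (S.W b S.Om) (S.W a (S.W b S.Om))).re
      = Real.cos (2 * w) * Real.exp (-(‖a‖ ^ 2 / 2)) := by
    rw [S.n_W_comm a b, inner_smul_right, (S.W b).inner_map_map, S.vac]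
    rw [cs, Real.cos_neg]
  have t2 : (inner ℂ (S.W b S.Om) (S.W a S.Om)).re
      = Real.cos w * Real.exp (-(‖a - b‖ ^ 2 / 2)) := by
    rw [S.inner_W, S.WW, inner_smul_right, S.vac]
    have e : (inner ℂ (-b) a : ℂ).im = w := by
      rw [inner_neg_left, ← inner_conj_symm, Complex.neg_im, Complex.conj_im, neg_neg]
    rw [e]
    have e2 : -b + a = a - b := by abel
    rw [e2]
    have e3 : -(Complex.I * (w : ℂ)) = Complex.I * ((-w : ℝ) : ℂ) := by push_cast; ring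
    rw [e3, cs, Real.cos_neg]
  have t3 : (inner ℂ S.Om (S.W a (S.W b S.Om))).re
      = Real.cos w * Real.exp (-(‖a + b‖ ^ 2 / 2)) := by
    rw [S.WW, inner_smul_right, S.vac]
    have e3 : -(Complex.I * ((inner ℂ a b : ℂ).im : ℂ)) = Complex.I * ((-w : ℝ) : ℂ) := by
      push_cast; ring
    rw [e3, cs, Real.cos_neg]
  have t4 := S.n_re_vac a
  simp only [map_sub, inner_sub_left, inner_sub_right, Complex.sub_re]
  rw [t1, t2, t3, t4]
  ring

variable (S) in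
lemma n_two_Om_sq (a b : K) :
    ‖S.W a (S.W b S.Om - S.Om) - (S.W b S.Om - S.Om)‖ ^ 2
      = 4 * (1 - Real.exp (-(‖b‖ ^ 2 / 2)))
        - 2 * (1 + Real.cos (2 * (inner ℂ a b : ℂ).im)) * Real.exp (-(‖a‖ ^ 2 / 2))
        + 2 * Real.cos (inner ℂ a b : ℂ).im
          * (Real.exp (-(‖a - b‖ ^ 2 / 2)) + Real.exp (-(‖a + b‖ ^ 2 / 2))) := by
  rw [n_norm_sub_sq, S.n_two_Om_re, S.n_one_Om_sq]
  ring

lemma n_two_Om_real {A B r w : ℝ} (hA : 0 ≤ A) (hB : 0 ≤ B) (h1 : 0 ≤ A + B - r)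
    (h2 : 0 ≤ A + B + r) (h : r ^ 2 + w ^ 2 ≤ 4 * (A * B)) :
    4 * (1 - Real.exp (-B)) - 2 * (1 + Real.cos (2 * w)) * Real.exp (-A)
      + 2 * Real.cos w * (Real.exp (-(A + B - r)) + Real.exp (-(A + B + r))) ≤ 20 * (A * B) := by
  have eA : Real.exp (-A) ≤ 1 := Real.exp_le_one_iff.2 (by linarith)
  have eA0 := Real.exp_pos (-A)
  have eB : Real.exp (-B) ≤ 1 := Real.exp_le_one_iff.2 (by linarith)
  have eB0 := Real.exp_pos (-B)
  have lA : 1 - Real.exp (-A) ≤ A := by linarith [Real.add_one_le_exp (-A)]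
  have lB : 1 - Real.exp (-B) ≤ B := by linarith [Real.add_one_le_exp (-B)]
  have p1 : (1 - Real.exp (-A)) * (1 - Real.exp (-B)) ≤ A * B :=
    mul_le_mul lA lB (by linarith) hA
  have c2 : Real.cos (2 * w) = 2 * Real.cos w ^ 2 - 1 := Real.cos_two_mul w
  have sq : Real.sin w ^ 2 ≤ w ^ 2 := by
    have := Real.abs_sin_le_abs (x := w)
    exact sq_le_sq.2 this
  have cs : Real.cos w ^ 2 = 1 - Real.sin w ^ 2 := by linarith [Real.sin_sq_add_cos_sq w]
  have x1 : Real.exp (-(A + B - r)) ≤ 1 := Real.exp_le_one_iff.2 (by linarith)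
  have x2 : Real.exp (-(A + B + r)) ≤ 1 := Real.exp_le_one_iff.2 (by linarith)
  have ch : Real.exp (-(A + B - r)) + Real.exp (-(A + B + r))
      = 2 * (Real.exp (-A) * Real.exp (-B) * Real.cosh r) := by
    rw [Real.cosh_eq, ← Real.exp_add]
    have e1 : -(A + B - r) = (-A + -B) + r := by ring
    have e2 : -(A + B + r) = (-A + -B) + -r := by ring
    rw [e1, e2, Real.exp_add (-A + -B) r, Real.exp_add (-A + -B) (-r)]
    ring
  have ch0 : 1 ≤ Real.cosh r := Real.one_le_cosh r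
  have ch1 : Real.cosh r - 1 ≤ r ^ 2 / 2 * Real.cosh r := by
    have k1 := Real.cosh_le_exp_half_sq r
    have k2 : Real.cosh r * Real.exp (-(r ^ 2 / 2)) ≤ 1 := by
      calc _ ≤ Real.exp (r ^ 2 / 2) * Real.exp (-(r ^ 2 / 2)) :=
            mul_le_mul_of_nonneg_right k1 (Real.exp_pos _).le
        _ = 1 := by rw [← Real.exp_add]; simp
    have k3 : 1 - r ^ 2 / 2 ≤ Real.exp (-(r ^ 2 / 2)) := by
      linarith [Real.add_one_le_exp (-(r ^ 2 / 2))]
    have k4 : Real.cosh r * (1 - r ^ 2 / 2) ≤ Real.cosh r * Real.exp (-(r ^ 2 / 2)) :=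
      mul_le_mul_of_nonneg_left k3 (by linarith)
    nlinarith
  have q0 : 0 ≤ Real.exp (-A) * Real.exp (-B) := by positivity
  have q1 : Real.exp (-A) * Real.exp (-B) * Real.cosh r ≤ 1 := by linarith
  have q2 : Real.exp (-A) * Real.exp (-B) * (Real.cos w * Real.cosh r - 1) ≤ r ^ 2 / 2 := by
    have m1 : Real.cos w * Real.cosh r - 1 ≤ r ^ 2 / 2 * Real.cosh r := by
      have : Real.cos w * Real.cosh r ≤ 1 * Real.cosh r :=
        mul_le_mul_of_nonneg_right (Real.cos_le_one w) (by linarith)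
      linarith
    calc _ ≤ Real.exp (-A) * Real.exp (-B) * (r ^ 2 / 2 * Real.cosh r) :=
          mul_le_mul_of_nonneg_left m1 q0
      _ = (r ^ 2 / 2) * (Real.exp (-A) * Real.exp (-B) * Real.cosh r) := by ring
      _ ≤ (r ^ 2 / 2) * 1 := mul_le_mul_of_nonneg_left q1 (by positivity)
      _ = _ := by ring
  have q3 : Real.exp (-A) * Real.sin w ^ 2 ≤ w ^ 2 := by
    calc _ ≤ 1 * Real.sin w ^ 2 := mul_le_mul_of_nonneg_right eA (by positivity)
      _ ≤ w ^ 2 := by linarith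
  have e : 4 * (1 - Real.exp (-B)) - 2 * (1 + Real.cos (2 * w)) * Real.exp (-A)
      + 2 * Real.cos w * (Real.exp (-(A + B - r)) + Real.exp (-(A + B + r)))
      = 4 * ((1 - Real.exp (-A)) * (1 - Real.exp (-B)) + Real.exp (-A) * Real.sin w ^ 2
        + Real.exp (-A) * Real.exp (-B) * (Real.cos w * Real.cosh r - 1)) := by
    rw [c2, ch, cs]
    ring
  rw [e]
  nlinarith [sq_nonneg w, sq_nonneg r]

variable (S) in
lemma n_two_Om (a b : K) :
    ‖S.W a (S.W b S.Om - S.Om) - (S.W b S.Om - S.Om)‖ ≤ 3 * ‖a‖ * ‖b‖ := by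
  have h := S.n_two_Om_sq a b
  set r := (inner ℂ a b : ℂ).re with hr
  set w := (inner ℂ a b : ℂ).im with hw
  have n1 : ‖a - b‖ ^ 2 = ‖a‖ ^ 2 - 2 * r + ‖b‖ ^ 2 := norm_sub_sq (𝕜 := ℂ) a b
  have n2 : ‖a + b‖ ^ 2 = ‖a‖ ^ 2 + 2 * r + ‖b‖ ^ 2 := norm_add_sq (𝕜 := ℂ) a b
  have m1 : ‖a - b‖ ^ 2 / 2 = ‖a‖ ^ 2 / 2 + ‖b‖ ^ 2 / 2 - r := by linarith
  have m2 : ‖a + b‖ ^ 2 / 2 = ‖a‖ ^ 2 / 2 + ‖b‖ ^ 2 / 2 + r := by linarith
  have cs : r ^ 2 + w ^ 2 ≤ 4 * ((‖a‖ ^ 2 / 2) * (‖b‖ ^ 2 / 2)) := by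
    have k : ‖(inner ℂ a b : ℂ)‖ ^ 2 = r ^ 2 + w ^ 2 := by
      rw [Complex.sq_norm, Complex.normSq_apply]
      ring
    have k2 : ‖(inner ℂ a b : ℂ)‖ ≤ ‖a‖ * ‖b‖ := norm_inner_le_norm a b
    have k3 : ‖(inner ℂ a b : ℂ)‖ ^ 2 ≤ (‖a‖ * ‖b‖) ^ 2 :=
      pow_le_pow_left₀ (norm_nonneg _) k2 2
    nlinarith
  have key := n_two_Om_real (A := ‖a‖ ^ 2 / 2) (B := ‖b‖ ^ 2 / 2) (r := r) (w := w)
    (by positivity) (by positivity) (by rw [← m1]; positivity) (by rw [← m2]; positivity) cs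
  rw [m1, m2] at h
  rw [← h] at key
  have p := mul_nonneg (norm_nonneg a) (norm_nonneg b)
  refine abs_le_of_sq_le_sq' ?_ (by nlinarith) |>.2
  nlinarith

variable (S) in
lemma nice_Om : S.Nice 3 S.Om where
  m0 := by rw [S.nOm]; norm_num
  m1 a := (S.n_one_Om a).trans (by linarith [norm_nonneg a])
  m2 a b := by rw [← mul_assoc]; exact S.n_two_Om a b

/-! ### pulses minus one -/

variable (S) in
lemma n_zr_sub_one (v : K) (x : H) : S.zr v x - x
    = (1 / 2 : ℂ) • ((S.W (-v) x - x) + (S.W v x - x))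
      + (1 / 2 : ℂ) • ((S.W (-v) (S.Z x) - S.Z x) - (S.W v (S.Z x) - S.Z x)) := by
  rw [S.zr_apply]
  module

variable (S) in
lemma n_xr_xr_neg (t : ℝ) (x : H) : S.xr t (S.xr (-t) x) = x := S.xrL_xrL_neg t x

variable (S) in
lemma n_pul_sub_one (t : ℝ) (v : K) (x : H) : S.pul t v x - x
    = (1 / 2 : ℂ) • ((S.W (-v) x - x) + (S.W v x - x))
      + (1 / 2 : ℂ) • ((S.W (-v) (S.Zt t x) - S.Zt t x) - (S.W v (S.Zt t x) - S.Zt t x)) := by
  have e : S.pul t v x - x = S.xr t (S.zr v (S.xr (-t) x) - S.xr (-t) x) := by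
    rw [map_sub, S.n_xr_xr_neg]; rfl
  have z : S.xr t (S.Z (S.xr (-t) x)) = S.Zt t x := rfl
  rw [e, S.n_zr_sub_one]
  simp only [map_add, map_sub, map_smul, ← S.n_W_xr, S.n_xr_xr_neg, z]

lemma Nice.zr_sub {c : ℝ} {x : H} (hx : S.Nice c x) (v : K) :
    ‖S.zr v x - x‖ ≤ 2 * c * ‖v‖ := by
  rw [S.n_zr_sub_one]
  have h1 := hx.one (-v)
  have h2 := hx.one v
  have h3 := hx.Z.one (-v)
  have h4 := hx.Z.one v
  rw [norm_neg] at h1 h3
  refine (norm_add_le _ _).trans ?_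
  rw [norm_smul, norm_smul]
  have k1 := norm_add_le (S.W (-v) x - x) (S.W v x - x)
  have k2 := norm_sub_le (S.W (-v) (S.Z x) - S.Z x) (S.W v (S.Z x) - S.Z x)
  have k3 : ‖(1 / 2 : ℂ)‖ = 1 / 2 := by norm_num
  rw [k3]
  linarith

lemma Nice.pul_sub {c : ℝ} {x : H} (hx : S.Nice c x) (t : ℝ) (v : K) :
    ‖S.pul t v x - x‖ ≤ 2 * c * ‖v‖ := by
  have e : S.pul t v x - x = S.xr t (S.zr v (S.xr (-t) x) - S.xr (-t) x) := by
    rw [map_sub, S.n_xr_xr_neg]; rfl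
  rw [e, LinearIsometryEquiv.norm_map]
  exact (hx.xr (-t)).zr_sub v

variable (S) in
/-- first differences of a pulse minus one -/
lemma n_pul_aux (t : ℝ) (v : K) (y : H) (d : ℝ)
    (h : ∀ a, ‖S.W a y - y‖ ≤ d * ‖a‖) : ‖S.pul t v y - y‖ ≤ 2 * d * ‖v‖ := by
  have hZ : ∀ a, ‖S.W a (S.Zt t y) - S.Zt t y‖ ≤ d * ‖a‖ := by
    intro a
    rw [S.n_W_Zt, ← map_sub, LinearIsometryEquiv.norm_map]
    exact h a
  rw [S.n_pul_sub_one]
  have h1 := h (-v)
  have h2 := h v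
  have h3 := hZ (-v)
  have h4 := hZ v
  rw [norm_neg] at h1 h3
  refine (norm_add_le _ _).trans ?_
  rw [norm_smul, norm_smul]
  have k1 := norm_add_le (S.W (-v) y - y) (S.W v y - y)
  have k2 := norm_sub_le (S.W (-v) (S.Zt t y) - S.Zt t y) (S.W v (S.Zt t y) - S.Zt t y)
  have k3 : ‖(1 / 2 : ℂ)‖ = 1 / 2 := by norm_num
  rw [k3]
  linarith

/-- product of two pulses minus one is of second order -/
lemma Nice.pul_pul_sub {c : ℝ} {x : H} (hx : S.Nice c x) (t t' : ℝ) (v v' : K) :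
    ‖S.pul t v (S.pul t' v' x - x) - (S.pul t' v' x - x)‖ ≤ 4 * c * ‖v‖ * ‖v'‖ := by
  have key : ∀ a, ‖S.W a (S.pul t' v' x - x) - (S.pul t' v' x - x)‖ ≤ (2 * c * ‖v'‖) * ‖a‖ := by
    intro a
    rw [S.n_pul_sub_one t' v' x]
    have hZ := hx.Zt t'
    have h1 := hx.two a (-v')
    have h2 := hx.two a v'
    have h3 := hZ.two a (-v')
    have h4 := hZ.two a v'
    rw [norm_neg] at h1 h3
    have e : S.W a ((1 / 2 : ℂ) • ((S.W (-v') x - x) + (S.W v' x - x))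
        + (1 / 2 : ℂ) • ((S.W (-v') (S.Zt t' x) - S.Zt t' x) - (S.W v' (S.Zt t' x) - S.Zt t' x)))
        - ((1 / 2 : ℂ) • ((S.W (-v') x - x) + (S.W v' x - x))
        + (1 / 2 : ℂ) • ((S.W (-v') (S.Zt t' x) - S.Zt t' x) - (S.W v' (S.Zt t' x) - S.Zt t' x)))
        = (1 / 2 : ℂ) • ((S.W a (S.W (-v') x - x) - (S.W (-v') x - x))
            + (S.W a (S.W v' x - x) - (S.W v' x - x)))
          + (1 / 2 : ℂ) • ((S.W a (S.W (-v') (S.Zt t' x) - S.Zt t' x)
              - (S.W (-v') (S.Zt t' x) - S.Zt t' x))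
            - (S.W a (S.W v' (S.Zt t' x) - S.Zt t' x) - (S.W v' (S.Zt t' x) - S.Zt t' x))) := by
      simp only [map_add, map_sub, map_smul]
      module
    rw [e]
    refine (norm_add_le _ _).trans ?_
    rw [norm_smul, norm_smul]
    have k1 := norm_add_le (S.W a (S.W (-v') x - x) - (S.W (-v') x - x))
      (S.W a (S.W v' x - x) - (S.W v' x - x))
    have k2 := norm_sub_le (S.W a (S.W (-v') (S.Zt t' x) - S.Zt t' x)
      - (S.W (-v') (S.Zt t' x) - S.Zt t' x))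
      (S.W a (S.W v' (S.Zt t' x) - S.Zt t' x) - (S.W v' (S.Zt t' x) - S.Zt t' x))
    have k3 : ‖(1 / 2 : ℂ)‖ = 1 / 2 := by norm_num
    rw [k3]
    linarith
  refine (S.n_pul_aux t v _ _ key).trans (le_of_eq ?_)
  ring

variable (S) in
/-- BLOCK N -/
theorem nStmt : S.NStmt where
  om := S.nice_Om
  comm U hU c x hx := hx.comm U hU
  smul c x k hx := hx.smul k
  add c d x y hx hy := hx.add hy
  weyl c x b hx := (hx.W b).mono (le_of_eq (by ring))
  zr c x v hx := (hx.zr v).mono (le_of_eq (by ring))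
  pul c x t v hx := (hx.pul t v).mono (le_of_eq (by ring))
  p1 c x t v hx := hx.pul_sub t v
  p2 c x t v t' v' hx := (hx.pul_pul_sub t' t v' v).trans (le_of_eq (by ring))

end Sys

end Vale.Agent.P367.A
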