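import Vale.Agent.P367.A.Basic

/-! P367, Theorem A, block WW: sub-statements (helper96). -/

namespace Vale.Agent.P367.A

open Complex

namespace Sys

variable {H K : Type*} [NormedAddCommGroup H] [InnerProductSpace ℂ H]
  [NormedAddCommGroup K] [InnerProductSpace ℂ K] (S : Sys H K)

/-- pulse vectors of the four-pulse word `wv t1 t2 s1 s2 V` -/
noncomputable def w1 (t2 s2 : ℝ) (V : H ≃ₗᵢ[ℂ] H) : K := (s2 : ℂ) • S.iota (S.xt t2 V)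

noncomputable def w2 (t1 t2 s1 s2 : ℝ) (V : H ≃ₗᵢ[ℂ] H) : K :=
  (s1 : ℂ) • S.iota (S.xt t1 (S.ps t2 s2 V))

noncomputable def w3 (t1 t2 s1 s2 : ℝ) (V : H ≃ₗᵢ[ℂ] H) : K :=
  (s2 : ℂ) • S.iota (S.xt t2 (S.ps t1 s1 (S.ps t2 s2 V)))

noncomputable def w4 (t1 t2 s1 s2 : ℝ) (V : H ≃ₗᵢ[ℂ] H) : K :=
  (s1 : ℂ) • S.iota (S.xt t1 (S.ps t2 (-s2) (S.ps t1 s1 (S.ps t2 s2 V))))

/-- the frame vector `b = (s'/ε) ι x(V)` -/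
noncomputable def fb (ε s' : ℝ) (V : H ≃ₗᵢ[ℂ] H) : K := ((s' / ε : ℝ) : ℂ) • S.iota (S.xv V)

lemma wv_mul_inv (t1 t2 s1 s2 : ℝ) (V : H ≃ₗᵢ[ℂ] H) (z : H) :
    (S.wv t1 t2 s1 s2 V * V⁻¹) z
      = S.pul t1 (-S.w4 t1 t2 s1 s2 V) (S.pul t2 (-S.w3 t1 t2 s1 s2 V)
          (S.pul t1 (S.w2 t1 t2 s1 s2 V) (S.pul t2 (S.w1 t2 s2 V) z))) := by
  have h : ∀ (s : ℝ) (v : K), (((-s : ℝ) : ℂ)) • v = -((s : ℂ) • v) := by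
    intro s v; push_cast; rw [neg_smul]
  simp only [wv, w1, w2, w3, w4, ps, mulA, Ainv, h]

/-- first order facts -/
def WW1Stmt : Prop := ∀ M δ : ℝ, 0 ≤ M → 0 < δ → ∃ C ε₀ : ℝ, 0 ≤ C ∧ 0 < ε₀ ∧
  ∀ ε, 0 < ε → ε ≤ ε₀ → ∀ (s' : ℝ) (V : H ≃ₗᵢ[ℂ] H) (c : K) (t1 t2 : ℝ),
    S.Ctx M δ ε s' V c t1 t2 → ∀ s1 s2 : ℝ,
      s1 = ε * (Real.pi / 2 / S.alp t1 V c) → s2 = ε * (Real.pi / 2 / S.alp t2 V c) →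
      |s1| ≤ C * ε ∧ |s2| ≤ C * ε ∧
      mu (S.fb ε s' V) (S.w1 t2 s2 V) ≤ C * ε ∧
      mu (S.fb ε s' V) (S.w2 t1 t2 s1 s2 V) ≤ C * ε ∧
      mu (S.fb ε s' V) (S.w3 t1 t2 s1 s2 V) ≤ C * ε ∧
      mu (S.fb ε s' V) (S.w4 t1 t2 s1 s2 V) ≤ C * ε ∧
      ‖S.w3 t1 t2 s1 s2 V - S.w1 t2 s2 V‖ ≤ C * ε ^ 2 ∧
      ‖S.w4 t1 t2 s1 s2 V - S.w2 t1 t2 s1 s2 V‖ ≤ C * ε ^ 2 ∧
      |2 * th (S.w1 t2 s2 V) (((1 / ε : ℝ) : ℂ) • c) - Real.pi / 2| ≤ C * ε ∧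
      |2 * th (S.w2 t1 t2 s1 s2 V) (((1 / ε : ℝ) : ℂ) • c) - Real.pi / 2| ≤ C * ε ∧
      |2 * th (S.w3 t1 t2 s1 s2 V) (((1 / ε : ℝ) : ℂ) • c) - Real.pi / 2| ≤ C * ε ∧
      |2 * th (S.w4 t1 t2 s1 s2 V) (((1 / ε : ℝ) : ℂ) • c) - Real.pi / 2| ≤ C * ε

/-- second order facts (nontrivial only if `s' ≠ 0`) -/
def WW2Stmt : Prop := ∀ M δ : ℝ, 0 ≤ M → 0 < δ → ∃ C ε₀ : ℝ, 0 ≤ C ∧ 0 < ε₀ ∧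
  ∀ ε, 0 < ε → ε ≤ ε₀ → ∀ (s' : ℝ) (V : H ≃ₗᵢ[ℂ] H) (c : K) (t1 t2 : ℝ),
    S.Ctx M δ ε s' V c t1 t2 → ∀ s1 s2 : ℝ,
      s1 = ε * (Real.pi / 2 / S.alp t1 V c) → s2 = ε * (Real.pi / 2 / S.alp t2 V c) →
      |th (S.w3 t1 t2 s1 s2 V - S.w1 t2 s2 V) (S.fb ε s' V)| ≤ C * ε ^ 2 ∧
      |th (S.w4 t1 t2 s1 s2 V - S.w2 t1 t2 s1 s2 V) (S.fb ε s' V)| ≤ C * ε ^ 2

end Sys

end Vale.Agent.P367.A
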