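import Vale.Agent.P367.A.SkelWW

/-! P367, Theorem A, block WW2: second order estimate (R) for the four-pulse word. -/

namespace Vale.Agent.P367.A

open Complex

namespace Sys

variable {H K : Type*} [NormedAddCommGroup H] [InnerProductSpace ℂ H]
  [NormedAddCommGroup K] [InnerProductSpace ℂ K] (S : Sys H K)

namespace WW2

/-! ### small tools -/

variable {S}

lemma nice_nonneg {c : ℝ} {x : H} (h : S.Nice c x) : 0 ≤ c := (norm_nonneg x).trans h.m0

lemma nice_mono {c d : ℝ} {x : H} (h : S.Nice c x) (hcd : c ≤ d) : S.Nice d x where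
  m0 := h.m0.trans hcd
  m1 a := (h.m1 a).trans (mul_le_mul_of_nonneg_right hcd (norm_nonneg a))
  m2 a b := (h.m2 a b).trans (mul_le_mul_of_nonneg_right hcd (by positivity))

lemma frm_nonneg {b : K} {c : ℝ} {z : H} (h : S.Frm b c z) : 0 ≤ c := by
  obtain ⟨x, y, hx, _, _⟩ := h
  exact nice_nonneg hx

lemma frm_mono {b : K} {c d : ℝ} {z : H} (h : S.Frm b c z) (hcd : c ≤ d) : S.Frm b d z := by
  obtain ⟨x, y, hx, hy, hz⟩ := h
  exact ⟨x, y, nice_mono hx hcd, nice_mono hy hcd, hz⟩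

lemma frm_norm {b : K} {c : ℝ} {z : H} (h : S.Frm b c z) : ‖z‖ ≤ 2 * c := by
  obtain ⟨x, y, hx, hy, rfl⟩ := h
  refine (norm_add_le _ _).trans ?_
  rw [(S.W b).norm_map, (S.W (-b)).norm_map]
  linarith [hx.m0, hy.m0]

lemma frm_comm (hN : S.NStmt) {b : K} {c : ℝ} {z : H} (U : H ≃ₗᵢ[ℂ] H)
    (hU : ∀ a x, S.W a (U x) = U (S.W a x)) (h : S.Frm b c z) : S.Frm b c (U z) := by
  obtain ⟨x, y, hx, hy, rfl⟩ := h
  exact ⟨U x, U y, hN.comm U hU c x hx, hN.comm U hU c y hy, by rw [map_add, hU, hU]⟩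

lemma frm_smul (hN : S.NStmt) {b : K} {c : ℝ} {z : H} (k : ℂ) (h : S.Frm b c z) :
    S.Frm b (‖k‖ * c) (k • z) := by
  obtain ⟨x, y, hx, hy, rfl⟩ := h
  exact ⟨k • x, k • y, hN.smul c x k hx, hN.smul c y k hy, by rw [map_smul, map_smul, smul_add]⟩

variable (S) in
/-- difference of Weyl operators -/
noncomputable def dd (v : K) (z : H) : H := S.W (-v) z - S.W v z

lemma dd_add (v : K) (x y : H) : dd S v (x + y) = dd S v x + dd S v y := by
  simp only [dd, map_add]; abel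

lemma norm_dd (v : K) (x : H) : ‖dd S v x‖ ≤ 2 * ‖x‖ := by
  refine (norm_sub_le _ _).trans ?_
  rw [(S.W _).norm_map, (S.W _).norm_map]; linarith

variable (S) in
/-- product of pulses -/
noncomputable def pp : List (ℝ × K) → H → H
  | [], z => z
  | q :: L, z => S.pul q.1 q.2 (pp L z)

lemma pp_add (L : List (ℝ × K)) (x y : H) : pp S L (x + y) = pp S L x + pp S L y := by
  induction L with
  | nil => rfl
  | cons q L ih => simp only [pp, ih, map_add]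

lemma norm_pp (L : List (ℝ × K)) (x : H) : ‖pp S L x‖ = ‖x‖ := by
  induction L with
  | nil => rfl
  | cons q L ih => simp only [pp, (S.pul _ _).norm_map, ih]

lemma frm_pp (hP : S.PStmt) {b : K} {c : ℝ} {z : H} (L : List (ℝ × K))
    (hL : ∀ q ∈ L, ‖q.2‖ ≤ 1) (h : S.Frm b c z) : S.Frm b (18 ^ L.length * c) (pp S L z) := by
  induction L with
  | nil => simpa [pp] using h
  | cons q L ih =>
    have ih' := ih (fun r hr => hL r (List.mem_cons_of_mem _ hr))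
    have := hP.p0 _ _ b q.1 q.2 ih' (hL q List.mem_cons_self)
    simp only [pp, List.length_cons]
    have e : (18 : ℝ) ^ (L.length + 1) * c = 18 * (18 ^ L.length * c) := by ring
    rw [e]
    exact this

lemma pp_sub_le (hP : S.PStmt) {b : K} {c m : ℝ} {z : H} (hm : 0 ≤ m) (L : List (ℝ × K))
    (hL : ∀ q ∈ L, ‖q.2‖ ≤ 1) (hL' : ∀ q ∈ L, mu b q.2 ≤ m) (h : S.Frm b c z) :
    ‖pp S L z - z‖ ≤ 4 * L.length * 18 ^ L.length * c * m := by
  have hc := frm_nonneg h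
  induction L with
  | nil => simp [pp]
  | cons q L ih =>
    have ih' := ih (fun r hr => hL r (List.mem_cons_of_mem _ hr))
      (fun r hr => hL' r (List.mem_cons_of_mem _ hr))
    have hf := frm_pp hP L (fun r hr => hL r (List.mem_cons_of_mem _ hr)) h
    have h1 := hP.p1 _ _ b q.1 q.2 hf
    have hq := hL' q List.mem_cons_self
    have e : pp S (q :: L) z - z = (S.pul q.1 q.2 (pp S L z) - pp S L z) + (pp S L z - z) := by
      simp only [pp]; abel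
    rw [e]
    refine (norm_add_le _ _).trans ?_
    have h2 : ‖S.pul q.1 q.2 (pp S L z) - pp S L z‖ ≤ 4 * (18 ^ L.length * c) * m :=
      h1.trans (mul_le_mul_of_nonneg_left hq (by positivity))
    have h3 : (4 : ℝ) * (18 ^ L.length * c) * m + 4 * L.length * 18 ^ L.length * c * m
        ≤ 4 * ((L.length : ℝ) + 1) * 18 ^ (L.length + 1) * c * m := by
      have : (4 : ℝ) * ((L.length : ℝ) + 1) * 18 ^ (L.length + 1) * c * m
          - (4 * (18 ^ L.length * c) * m + 4 * L.length * 18 ^ L.length * c * m)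
          = 68 * ((L.length : ℝ) + 1) * 18 ^ L.length * c * m := by ring
      have h0 : 0 ≤ 68 * ((L.length : ℝ) + 1) * 18 ^ L.length * c * m := by positivity
      linarith
    simp only [List.length_cons, Nat.cast_add, Nat.cast_one]
    linarith

lemma dd_pp_sub_le (hP : S.PStmt) {C2 : ℝ} (hC2 : 0 ≤ C2)
    (hd2 : ∀ c z b t v v', S.Frm b c z → ‖v‖ ≤ 1 →
      ‖S.W (-v') (S.pul t v z - z) - S.W v' (S.pul t v z - z)‖ ≤ C2 * c * (mu b v' * mu b v))
    {b : K} {c m m' : ℝ} {z : H} (hm : 0 ≤ m) (hm' : 0 ≤ m') (v : K) (hv : mu b v ≤ m')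
    (L : List (ℝ × K))
    (hL : ∀ q ∈ L, ‖q.2‖ ≤ 1) (hL' : ∀ q ∈ L, mu b q.2 ≤ m) (h : S.Frm b c z) :
    ‖dd S v (pp S L z - z)‖ ≤ C2 * L.length * 18 ^ L.length * c * (m' * m) := by
  have hc := frm_nonneg h
  induction L with
  | nil => simp [pp, dd]
  | cons q L ih =>
    have ih' := ih (fun r hr => hL r (List.mem_cons_of_mem _ hr))
      (fun r hr => hL' r (List.mem_cons_of_mem _ hr))
    have hf := frm_pp hP L (fun r hr => hL r (List.mem_cons_of_mem _ hr)) h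
    have h1 := hd2 _ _ b q.1 q.2 v hf (hL q List.mem_cons_self)
    have hq := hL' q List.mem_cons_self
    have e : pp S (q :: L) z - z = (S.pul q.1 q.2 (pp S L z) - pp S L z) + (pp S L z - z) := by
      simp only [pp]; abel
    rw [e, dd_add]
    refine (norm_add_le _ _).trans ?_
    have hmu : 0 ≤ mu b q.2 := by unfold mu; positivity
    have h2 : ‖dd S v (S.pul q.1 q.2 (pp S L z) - pp S L z)‖
        ≤ C2 * (18 ^ L.length * c) * (m' * m) := by
      refine h1.trans (mul_le_mul_of_nonneg_left (mul_le_mul hv hq hmu hm') (by positivity))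
    have h3 : C2 * (18 ^ L.length * c) * (m' * m)
        + C2 * L.length * 18 ^ L.length * c * (m' * m)
        ≤ C2 * ((L.length : ℝ) + 1) * 18 ^ (L.length + 1) * c * (m' * m) := by
      have : C2 * ((L.length : ℝ) + 1) * 18 ^ (L.length + 1) * c * (m' * m)
          - (C2 * (18 ^ L.length * c) * (m' * m)
          + C2 * L.length * 18 ^ L.length * c * (m' * m))
          = 17 * C2 * ((L.length : ℝ) + 1) * 18 ^ L.length * c * (m' * m) := by ring
      have h0 : 0 ≤ 17 * C2 * ((L.length : ℝ) + 1) * 18 ^ L.length * c * (m' * m) := by positivity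
      linarith
    simp only [List.length_cons, Nat.cast_add, Nat.cast_one]
    linarith

/-! ### the main term -/

lemma nice_Pp (hN : S.NStmt) {c : ℝ} {x : H} (h : S.Nice c x) : S.Nice c (S.Pp 0 x) := by
  have h1 := hN.comm (S.Zt 0) (fun a x => S.W_ZtA a 0 x) c x h
  have h2 := hN.smul _ _ (1 / 2 : ℂ) (hN.add c c _ _ h h1)
  have e : ‖(1 / 2 : ℂ)‖ * (c + c) = c := by
    rw [norm_div, norm_one, Complex.norm_ofNat]; ring
  rwa [e] at h2

lemma nice_Pm (hN : S.NStmt) {c : ℝ} {x : H} (h : S.Nice c x) : S.Nice c (S.Pm 0 x) := by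
  have h1 := hN.comm (S.Zt 0) (fun a x => S.W_ZtA a 0 x) c x h
  have h1' := hN.smul _ _ (-1 : ℂ) h1
  have h2 := hN.smul _ _ (1 / 2 : ℂ) (hN.add c _ _ _ h h1')
  have e : ‖(1 / 2 : ℂ)‖ * (c + ‖(-1 : ℂ)‖ * c) = c := by
    rw [norm_div, norm_one, Complex.norm_ofNat, norm_neg, norm_one]; ring
  have e' : (1 / 2 : ℂ) • (x + (-1 : ℂ) • S.Zt 0 x) = S.Pm 0 x := by
    rw [Pm]; module
  rwa [e, e'] at h2

lemma zr_neg_eq (b : K) (x : H) :
    S.zr (-b) x = S.W b (S.Pp 0 x) + S.W (-b) (S.Pm 0 x) := by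
  rw [← pul_time_zero, pul_eq_P, neg_neg]

lemma frm_zr (hN : S.NStmt) {c : ℝ} {x : H} (b : K) (h : S.Nice c x) :
    S.Frm b c (S.zr (-b) x) :=
  ⟨S.Pp 0 x, S.Pm 0 x, nice_Pp hN h, nice_Pm hN h, zr_neg_eq b x⟩

variable (S) in
/-- the vector `e^{2 i f} W (-v) p - e^{-2 i f} W v p` -/
noncomputable def z1 (f : ℝ) (v : K) (p : H) : H :=
  Complex.exp (2 * Complex.I * (f : ℂ)) • S.W (-v) p
    - Complex.exp (-(2 * Complex.I * (f : ℂ))) • S.W v p

lemma norm_exp_two (f : ℝ) : ‖Complex.exp (2 * Complex.I * (f : ℂ))‖ = 1 := by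
  rw [show 2 * Complex.I * (f : ℂ) = ((2 * f : ℝ) : ℂ) * Complex.I by push_cast; ring,
    Complex.norm_exp_ofReal_mul_I]

lemma norm_exp_two' (f : ℝ) : ‖Complex.exp (-(2 * Complex.I * (f : ℂ)))‖ = 1 := by
  rw [show -(2 * Complex.I * (f : ℂ)) = ((-(2 * f) : ℝ) : ℂ) * Complex.I by push_cast; ring,
    Complex.norm_exp_ofReal_mul_I]

lemma norm_exp_sub (f : ℝ) : ‖Complex.exp (2 * Complex.I * (f : ℂ))
    - Complex.exp (-(2 * Complex.I * (f : ℂ)))‖ ≤ 4 * |f| := by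
  have e : Complex.exp (2 * Complex.I * (f : ℂ)) - Complex.exp (-(2 * Complex.I * (f : ℂ)))
      = 2 * Complex.I * (Real.sin (2 * f) : ℂ) := by
    rw [show 2 * Complex.I * (f : ℂ) = ((2 * f : ℝ) : ℂ) * Complex.I by push_cast; ring,
      show -(((2 * f : ℝ) : ℂ) * Complex.I) = ((-(2 * f) : ℝ) : ℂ) * Complex.I by push_cast; ring,
      Complex.exp_mul_I, Complex.exp_mul_I, ← Complex.ofReal_cos, ← Complex.ofReal_sin,
      ← Complex.ofReal_cos, ← Complex.ofReal_sin, Real.cos_neg, Real.sin_neg]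
    push_cast; ring
  rw [e, norm_mul, norm_mul, Complex.norm_I, Complex.norm_real, Complex.norm_ofNat,
    Real.norm_eq_abs]
  have := Real.abs_sin_le_abs (x := 2 * f)
  rw [abs_mul, abs_of_pos (by norm_num : (0 : ℝ) < 2)] at this
  linarith

lemma z1_bound {c m : ℝ} (f : ℝ) (v : K) (p : H) (h0 : ‖p‖ ≤ c)
    (h1 : ‖S.W v p - p‖ ≤ c * ‖v‖) (h2 : ‖S.W (-v) p - p‖ ≤ c * ‖v‖) (hm : ‖v‖ + |f| ≤ m) :
    ‖z1 S f v p‖ ≤ 4 * c * m := by
  have hc : 0 ≤ c := (norm_nonneg _).trans h0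
  have e : z1 S f v p = Complex.exp (2 * Complex.I * (f : ℂ)) • (S.W (-v) p - p)
      - Complex.exp (-(2 * Complex.I * (f : ℂ))) • (S.W v p - p)
      + (Complex.exp (2 * Complex.I * (f : ℂ)) - Complex.exp (-(2 * Complex.I * (f : ℂ)))) • p := by
    rw [z1]; module
  rw [e]
  refine (norm_add_le _ _).trans ?_
  have a1 := norm_sub_le (Complex.exp (2 * Complex.I * (f : ℂ)) • (S.W (-v) p - p))
    (Complex.exp (-(2 * Complex.I * (f : ℂ))) • (S.W v p - p))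
  rw [norm_smul, norm_smul, norm_exp_two, norm_exp_two', one_mul, one_mul] at a1
  have a2 : ‖(Complex.exp (2 * Complex.I * (f : ℂ))
      - Complex.exp (-(2 * Complex.I * (f : ℂ)))) • p‖ ≤ 4 * |f| * c := by
    rw [norm_smul]
    exact mul_le_mul (norm_exp_sub f) h0 (norm_nonneg _) (by positivity)
  have a3 : c * (‖v‖ + |f|) ≤ c * m := mul_le_mul_of_nonneg_left hm hc
  have a4 : 0 ≤ c * ‖v‖ := by positivity
  nlinarith

/-- `W (-v) (W b p) - W v (W b p) = W b (z1 (th v b) v p)` -/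
lemma dd_W (v b : K) (p : H) : dd S v (S.W b p) = S.W b (z1 S (th v b) v p) := by
  rw [dd, S.Wx (-v) b, S.Wx v b, z1, map_sub, map_smul, map_smul, th_neg_left]
  congr 3
  push_cast
  ring

lemma z1_W (f : ℝ) (v a : K) (p : H) : S.W a (z1 S f v p) - z1 S f v p
    = Complex.exp (2 * Complex.I * (f : ℂ)) • (S.W a (S.W (-v) p) - S.W (-v) p)
      - Complex.exp (-(2 * Complex.I * (f : ℂ))) • (S.W a (S.W v p) - S.W v p) := by
  simp only [z1, map_sub, map_smul]; module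

/-- first difference of `z1` -/
lemma z1_m1 {c m : ℝ} (f : ℝ) (v : K) (p : H) (h : S.Nice c p) (hm : ‖v‖ + |f| ≤ m) (a : K) :
    ‖S.W a (z1 S f v p) - z1 S f v p‖ ≤ 4 * c * m * ‖a‖ := by
  have hc := nice_nonneg h
  have e : S.W a (z1 S f v p) - z1 S f v p
      = Complex.exp (2 * Complex.I * (f : ℂ)) • (S.W a (S.W (-v) p - p) - (S.W (-v) p - p))
      - Complex.exp (-(2 * Complex.I * (f : ℂ))) • (S.W a (S.W v p - p) - (S.W v p - p))
      + (Complex.exp (2 * Complex.I * (f : ℂ)) - Complex.exp (-(2 * Complex.I * (f : ℂ))))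
        • (S.W a p - p) := by
    rw [z1_W]; simp only [map_sub]; module
  rw [e]
  refine (norm_add_le _ _).trans ?_
  have a1 := norm_sub_le
    (Complex.exp (2 * Complex.I * (f : ℂ)) • (S.W a (S.W (-v) p - p) - (S.W (-v) p - p)))
    (Complex.exp (-(2 * Complex.I * (f : ℂ))) • (S.W a (S.W v p - p) - (S.W v p - p)))
  rw [norm_smul, norm_smul, norm_exp_two, norm_exp_two', one_mul, one_mul] at a1
  have b1 := h.m2 a (-v)
  have b2 := h.m2 a v
  rw [norm_neg] at b1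
  have a2 : ‖(Complex.exp (2 * Complex.I * (f : ℂ))
      - Complex.exp (-(2 * Complex.I * (f : ℂ)))) • (S.W a p - p)‖ ≤ 4 * |f| * (c * ‖a‖) := by
    rw [norm_smul]
    exact mul_le_mul (norm_exp_sub f) (h.m1 a) (norm_nonneg _) (by positivity)
  have a3 : (c * ‖a‖) * (‖v‖ + |f|) ≤ (c * ‖a‖) * m :=
    mul_le_mul_of_nonneg_left hm (by positivity)
  have a4 : 0 ≤ c * ‖a‖ * ‖v‖ := by positivity
  nlinarith

/-- the main term of (R) -/
lemma main_term (hN : S.NStmt) (hO : S.OStmt) {c m : ℝ} {ψ : H} (b v : K) (hb : b ≠ 0)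
    (h : S.Nice c ψ) (hv : mu b v ≤ m) :
    ‖(inner ℂ (S.X (dd S v (S.zr (-b) ψ))) (S.Z (S.zr (-b) ψ)) : ℂ)‖ ≤ 8 * c ^ 2 * m / ‖b‖ := by
  have hc := nice_nonneg h
  have hbn : 0 < ‖b‖ := norm_pos_iff.2 hb
  set p := S.Pp 0 ψ with hp
  set q := S.Pm 0 ψ with hq
  have np : S.Nice c p := nice_Pp hN h
  have nq : S.Nice c q := nice_Pm hN h
  have hz : S.zr (-b) ψ = S.W b p + S.W (-b) q := zr_neg_eq b ψ
  have hv' : ‖v‖ + |th v b| ≤ m := hv
  have hv'' : ‖v‖ + |th v (-b)| ≤ m := by rw [th_neg_right, abs_neg]; exact hv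
  have hd : dd S v (S.zr (-b) ψ) = S.W b (z1 S (th v b) v p) + S.W (-b) (z1 S (th v (-b)) v q) := by
    rw [hz, dd_add, dd_W, dd_W]
  have hzZ : S.Z (S.zr (-b) ψ) = S.W b p - S.W (-b) q := by
    rw [hz, map_add, ← S.WZ, ← S.WZ, ← S.Zt_zero p, ← S.Zt_zero q, hp, hq, Zt_Pp, Zt_Pm, map_neg]
    abel
  -- `X z1` lies in the opposite spectral subspace
  have hx1 : S.X (z1 S (th v b) v p) = S.Pm 0 (S.X (z1 S (th v b) v ψ)) := by
    rw [← X_Pp]
    congr 1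
    rw [z1, z1, hp, W_Pp, W_Pp, ← Pp_smul, ← Pp_smul]
    simp only [Pp, map_sub]; module
  have hx2 : S.X (z1 S (th v (-b)) v q) = S.Pp 0 (S.X (z1 S (th v (-b)) v ψ)) := by
    rw [← X_Pm]
    congr 1
    rw [z1, z1, hq, W_Pm, W_Pm, ← Pm_smul, ← Pm_smul]
    simp only [Pm, map_sub]; module
  have i1 : (inner ℂ (S.X (z1 S (th v b) v p)) p : ℂ) = 0 := by rw [hx1, hp, inner_Pm_Pp]
  have i2 : (inner ℂ (S.X (z1 S (th v (-b)) v q)) q : ℂ) = 0 := by rw [hx2, hq, inner_Pp_Pm]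
  have e : (inner ℂ (S.X (dd S v (S.zr (-b) ψ))) (S.Z (S.zr (-b) ψ)) : ℂ)
      = -inner ℂ (S.W b (S.X (z1 S (th v b) v p))) (S.W (-b) q)
        + inner ℂ (S.W (-b) (S.X (z1 S (th v (-b)) v q))) (S.W b p) := by
    rw [hd, hzZ, map_add, ← S.WX, ← S.WX, inner_add_left, inner_sub_right, inner_sub_right,
      (S.W b).inner_map_map, (S.W (-b)).inner_map_map, i1, i2]
    ring
  have hbb : b ≠ -b := by
    intro hh
    apply hb
    have h2 : (2 : ℂ) • b = 0 := by rw [two_smul]; nth_rewrite 2 [hh]; abel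
    exact (smul_eq_zero.1 h2).resolve_left two_ne_zero
  have hdist : ‖b - -b‖ = 2 * ‖b‖ := by
    rw [sub_neg_eq_add, ← two_smul ℂ b, norm_smul, Complex.norm_ofNat]
  have hdist' : ‖-b - b‖ = 2 * ‖b‖ := by
    rw [← norm_neg, neg_sub, hdist]
  have hm0 : 0 ≤ m := le_trans (by unfold mu; positivity) hv
  -- bounds for the two overlaps
  have w1 : ∀ a : K, ‖S.W a (S.X (z1 S (th v b) v p)) - S.X (z1 S (th v b) v p)‖
      ≤ 4 * c * m * ‖a‖ := by
    intro a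
    rw [S.WX, ← map_sub, S.X.norm_map]
    exact z1_m1 _ v p np hv' a
  have w2 : ∀ a : K, ‖S.W a (S.X (z1 S (th v (-b)) v q)) - S.X (z1 S (th v (-b)) v q)‖
      ≤ 4 * c * m * ‖a‖ := by
    intro a
    rw [S.WX, ← map_sub, S.X.norm_map]
    exact z1_m1 _ v q nq hv'' a
  have n1 : ‖S.X (z1 S (th v b) v p)‖ ≤ 4 * c * m := by
    rw [S.X.norm_map]
    have := np.m1 (-v)
    rw [norm_neg] at this
    exact z1_bound _ v p np.m0 (np.m1 v) this hv'
  have n2 : ‖S.X (z1 S (th v (-b)) v q)‖ ≤ 4 * c * m := by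
    rw [S.X.norm_map]
    have := nq.m1 (-v)
    rw [norm_neg] at this
    exact z1_bound _ v q nq.m0 (nq.m1 v) this hv''
  have o1 := hO.inn1 (4 * c * m) (4 * c * m) c c _ q b (-b) w1 n1 nq.m1 nq.m0 hbb
  have o2 := hO.inn1 (4 * c * m) (4 * c * m) c c _ p (-b) b w2 n2 np.m1 np.m0 (Ne.symm hbb)
  rw [hdist] at o1
  rw [hdist'] at o2
  rw [e]
  refine (norm_add_le _ _).trans ?_
  rw [norm_neg]
  have e8 : 8 * c ^ 2 * m / ‖b‖ = (4 * c * m * c + 4 * c * m * c) / (2 * ‖b‖)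
      + (4 * c * m * c + 4 * c * m * c) / (2 * ‖b‖) := by
    field_simp; ring
  rw [e8]
  exact add_le_add o1 o2

/-! ### the estimate (R) -/

variable (S) in
/-- `X d(v) Q` -/
noncomputable def AA (v : K) (L : List (ℝ × K)) (y : H) : H :=
  S.X ((1 / 2 : ℂ) • dd S v (pp S L y))

lemma AA_add (v : K) (L : List (ℝ × K)) (x y : H) :
    AA S v L (x + y) = AA S v L x + AA S v L y := by
  simp only [AA, pp_add, dd_add, smul_add, map_add]

lemma norm_half : ‖(1 / 2 : ℂ)‖ = 1 / 2 := by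
  rw [norm_div, norm_one, Complex.norm_ofNat]

lemma norm_AA_eq (v : K) (L : List (ℝ × K)) (y : H) :
    ‖AA S v L y‖ = 1 / 2 * ‖dd S v (pp S L y)‖ := by
  rw [AA, S.X.norm_map, norm_smul, norm_half]

lemma norm_AA (v : K) (L : List (ℝ × K)) (y : H) : ‖AA S v L y‖ ≤ ‖y‖ := by
  rw [norm_AA_eq]
  have := norm_dd (S := S) v (pp S L y)
  rw [norm_pp] at this
  linarith

lemma AA_split (v : K) (L : List (ℝ × K)) (y : H) :
    AA S v L y = S.X ((1 / 2 : ℂ) • dd S v y) + S.X ((1 / 2 : ℂ) • dd S v (pp S L y - y)) := by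
  rw [AA, ← map_add, ← smul_add, ← dd_add]
  congr 3
  abel_nf

lemma pow_le_N {n : ℕ} (hn : n ≤ 3) : (18 : ℝ) ^ n ≤ 5832 := by
  calc (18 : ℝ) ^ n ≤ 18 ^ 3 := pow_le_pow_right₀ (by norm_num) hn
    _ = 5832 := by norm_num

lemma inner_bd {x y : H} {p q r : ℝ} (hx : ‖x‖ ≤ p) (hy : ‖y‖ ≤ q) (hp : 0 ≤ p)
    (h : p * q ≤ r) : ‖(inner ℂ x y : ℂ)‖ ≤ r :=
  (norm_inner_le_norm x y).trans ((mul_le_mul hx hy (norm_nonneg _) hp).trans h)

/-- estimate (R) -/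
lemma est (hN : S.NStmt) (hO : S.OStmt) (hP : S.PStmt) (M δ m : ℝ) (hM : 0 ≤ M) (hδ : 0 < δ)
    (hm : 0 ≤ m) : ∃ C, 0 ≤ C ∧ ∀ ε : ℝ, 0 < ε → ε ≤ 1 →
    ∀ (b c' v : K) (u ψ φ : H) (L L' : List (ℝ × K)), L.length ≤ 3 → L'.length ≤ 3 →
    (∀ q ∈ L, ‖q.2‖ ≤ 1) → (∀ q ∈ L, mu b q.2 ≤ m * ε) →
    (∀ q ∈ L', ‖q.2‖ ≤ 1) → (∀ q ∈ L', mu b q.2 ≤ m * ε) →
    ‖v‖ ≤ 1 → mu b v ≤ m * ε → S.Nice M ψ → S.Frm c' M φ →
    ‖u - S.zr (-b) ψ - (ε : ℂ) • φ‖ ≤ M * ε ^ 2 → δ / ε ≤ ‖b‖ → δ / ε ≤ ‖c' - b‖ →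
    δ / ε ≤ ‖c' + b‖ →
    ‖(inner ℂ (AA S v L u) (pp S L' (S.Z u)) : ℂ)‖ ≤ C * ε ^ 2 := by
  obtain ⟨C2, hC2, hd2⟩ := hP.d2
  refine ⟨4 * M ^ 2 * m / δ + 3 / 2 * C2 * 5832 * M ^ 2 * m ^ 2 + 48 * 5832 ^ 2 * M ^ 2 * m ^ 2
    + 8 * 5832 * M ^ 2 * m + (24 * 5832 * M ^ 2 * m + 72 * 5832 * M ^ 2 / δ) + 4 * M ^ 2
    + 3 * M ^ 2 + 4 * M ^ 2, by positivity, ?_⟩
  intro ε hε hε1 b c' v u ψ φ L L' hLl hLl' hL hLm hL' hLm' hv hvm hψ hφ hu hb h1 h2
  have hmε : 0 ≤ m * ε := by positivity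
  set g := S.zr (-b) ψ with hg
  set f := (ε : ℂ) • φ with hf
  set r := u - g - f with hr
  have hR : 0 < δ / ε := by positivity
  have hbn : 0 < ‖b‖ := lt_of_lt_of_le hR hb
  have hb0 : b ≠ 0 := norm_pos_iff.1 hbn
  have fg : S.Frm b M g := frm_zr hN b hψ
  have fZg : S.Frm b M (S.Z g) := frm_comm hN S.Z S.WZ fg
  have ng : ‖g‖ ≤ M := by rw [hg, (S.zr (-b)).norm_map]; exact hψ.m0
  have nZg : ‖S.Z g‖ ≤ M := by rw [S.Z.norm_map]; exact ng
  have nφ : ‖φ‖ ≤ 2 * M := frm_norm hφ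
  have nf : ‖f‖ ≤ 2 * M * ε := by
    rw [hf, norm_smul, Complex.norm_real, Real.norm_eq_abs, abs_of_pos hε]
    nlinarith
  have nr : ‖r‖ ≤ M * ε ^ 2 := hu
  have hue : u = g + f + r := by rw [hr]; abel
  have nu : ‖u‖ ≤ 4 * M := by
    rw [hue]
    refine (norm_add_le _ _).trans ?_
    have := norm_add_le g f
    have e1 : M * ε ^ 2 ≤ M := by nlinarith [pow_le_one₀ hε.le hε1 (n := 2)]
    have e2 : 2 * M * ε ≤ 2 * M := by nlinarith
    linarith
  have ngf : ‖g + f‖ ≤ 3 * M := by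
    refine (norm_add_le _ _).trans ?_
    have e2 : 2 * M * ε ≤ 2 * M := by nlinarith
    linarith
  have hN1 := pow_le_N hLl
  have hN2 := pow_le_N hLl'
  have hl1 : (L.length : ℝ) ≤ 3 := by exact_mod_cast hLl
  have hl2 : (L'.length : ℝ) ≤ 3 := by exact_mod_cast hLl'
  -- bound of `AA g`
  have nAg : ‖AA S v L g‖ ≤ 4 * 5832 * M * m * ε := by
    rw [norm_AA_eq]
    have hfr := frm_mono (frm_pp hP L hL fg) (mul_le_mul_of_nonneg_right hN1 hM)
    have := hP.d1 _ _ b v hfr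
    have h3 : 8 * (5832 * M) * mu b v ≤ 8 * (5832 * M) * (m * ε) :=
      mul_le_mul_of_nonneg_left hvm (by positivity)
    have h4 : ‖dd S v (pp S L g)‖ ≤ 8 * (5832 * M) * (m * ε) := this.trans h3
    linarith
  -- bound of `pp L' Zg - Zg`
  have nBg : ‖pp S L' (S.Z g) - S.Z g‖ ≤ 12 * 5832 * M * m * ε := by
    have := pp_sub_le hP hmε L' hL' hLm' fZg
    refine this.trans ?_
    have h3 : (L'.length : ℝ) * 18 ^ L'.length ≤ 3 * 5832 :=
      mul_le_mul hl2 hN2 (by positivity) (by norm_num)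
    have h4 : ((L'.length : ℝ) * 18 ^ L'.length) * (4 * M * (m * ε))
        ≤ (3 * 5832) * (4 * M * (m * ε)) := mul_le_mul_of_nonneg_right h3 (by positivity)
    linarith
  have nAd : ‖S.X ((1 / 2 : ℂ) • dd S v (pp S L g - g))‖ ≤ 3 / 2 * C2 * 5832 * M * m ^ 2 * ε ^ 2 := by
    rw [S.X.norm_map, norm_smul, norm_half]
    have := dd_pp_sub_le hP hC2 hd2 hmε hmε v hvm L hL hLm fg
    have h3 : (L.length : ℝ) * 18 ^ L.length ≤ 3 * 5832 :=
      mul_le_mul hl1 hN1 (by positivity) (by norm_num)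
    have h4 : ((L.length : ℝ) * 18 ^ L.length) * (C2 * M * (m * ε * (m * ε)))
        ≤ (3 * 5832) * (C2 * M * (m * ε * (m * ε))) :=
      mul_le_mul_of_nonneg_right h3 (by positivity)
    have h5 : (3 * 5832 : ℝ) * (C2 * M * (m * ε * (m * ε)))
        = 3 * 5832 * C2 * M * m ^ 2 * ε ^ 2 := by ring
    linarith
  -- the pieces
  have p1 : ‖(inner ℂ (S.X ((1 / 2 : ℂ) • dd S v g)) (S.Z g) : ℂ)‖ ≤ 4 * M ^ 2 * m / δ * ε ^ 2 := by
    rw [map_smul, inner_smul_left, norm_mul, RCLike.norm_conj, norm_half]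
    have := main_term hN hO b v hb0 hψ hvm
    have h3 : 8 * M ^ 2 * (m * ε) / ‖b‖ ≤ 8 * M ^ 2 * (m * ε) / (δ / ε) :=
      div_le_div_of_nonneg_left (by positivity) hR hb
    have h4 : 8 * M ^ 2 * (m * ε) / (δ / ε) = 2 * (4 * M ^ 2 * m / δ * ε ^ 2) := by
      field_simp; ring
    rw [h4] at h3
    linarith
  have p2 : ‖(inner ℂ (S.X ((1 / 2 : ℂ) • dd S v (pp S L g - g))) (S.Z g) : ℂ)‖
      ≤ 3 / 2 * C2 * 5832 * M ^ 2 * m ^ 2 * ε ^ 2 :=
    inner_bd nAd nZg (by positivity) (le_of_eq (by ring))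
  have p3 : ‖(inner ℂ (AA S v L g) (pp S L' (S.Z g) - S.Z g) : ℂ)‖
      ≤ 48 * 5832 ^ 2 * M ^ 2 * m ^ 2 * ε ^ 2 :=
    inner_bd nAg nBg (by positivity) (le_of_eq (by ring))
  have nZf : ‖pp S L' (S.Z f)‖ ≤ 2 * M * ε := by rw [norm_pp, S.Z.norm_map]; exact nf
  have p4 : ‖(inner ℂ (AA S v L g) (pp S L' (S.Z f)) : ℂ)‖ ≤ 8 * 5832 * M ^ 2 * m * ε ^ 2 :=
    inner_bd nAg nZf (by positivity) (le_of_eq (by ring))
  have nAf : ‖AA S v L f‖ ≤ 2 * M * ε := (norm_AA v L f).trans nf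
  have p5 : ‖(inner ℂ (AA S v L f) (pp S L' (S.Z g) - S.Z g) : ℂ)‖
      ≤ 24 * 5832 * M ^ 2 * m * ε ^ 2 :=
    inner_bd nAf nBg (by positivity) (le_of_eq (by ring))
  have p6 : ‖(inner ℂ (AA S v L f) (S.Z g) : ℂ)‖ ≤ 72 * 5832 * M ^ 2 / δ * ε ^ 2 := by
    have eA : AA S v L f = (ε : ℂ) • AA S v L φ := by
      have e1 : ∀ (L : List (ℝ × K)), pp S L f = (ε : ℂ) • pp S L φ := by
        intro L
        induction L with
        | nil => rfl
        | cons q L ih => simp only [pp, ih, map_smul]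
      simp only [AA, dd, e1, map_smul, map_sub]
      module
    rw [eA, inner_smul_left, norm_mul, RCLike.norm_conj, Complex.norm_real, Real.norm_eq_abs,
      abs_of_pos hε]
    have f1 := frm_mono (frm_pp hP L hL hφ) (mul_le_mul_of_nonneg_right hN1 hM)
    have f2 := hP.d0 _ _ c' v f1 hv
    have f3 := frm_smul hN (1 / 2 : ℂ) f2
    have f4 := frm_comm hN S.X S.WX f3
    have := hO.frm _ _ _ _ c' b (δ / ε) hR f4 fZg h1 h2
    rw [norm_half] at this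
    have h4 : 8 * (1 / 2 * (18 * (5832 * M))) * M / (δ / ε) = 72 * 5832 * M ^ 2 / δ * ε := by
      field_simp; ring
    rw [h4] at this
    have h5 : ‖(inner ℂ (AA S v L φ) (S.Z g) : ℂ)‖ ≤ 72 * 5832 * M ^ 2 / δ * ε := this
    have h6 := mul_le_mul_of_nonneg_left h5 hε.le
    have h7 : ε * (72 * 5832 * M ^ 2 / δ * ε) = 72 * 5832 * M ^ 2 / δ * ε ^ 2 := by ring
    linarith
  have p7 : ‖(inner ℂ (AA S v L f) (pp S L' (S.Z f)) : ℂ)‖ ≤ 4 * M ^ 2 * ε ^ 2 :=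
    inner_bd nAf nZf (by positivity) (le_of_eq (by ring))
  have nBr : ‖pp S L' (S.Z r)‖ ≤ M * ε ^ 2 := by rw [norm_pp, S.Z.norm_map]; exact nr
  have p8 : ‖(inner ℂ (AA S v L (g + f)) (pp S L' (S.Z r)) : ℂ)‖ ≤ 3 * M ^ 2 * ε ^ 2 :=
    inner_bd ((norm_AA v L _).trans ngf) nBr (by positivity) (le_of_eq (by ring))
  have nBu : ‖pp S L' (S.Z u)‖ ≤ 4 * M := by rw [norm_pp, S.Z.norm_map]; exact nu
  have p9 : ‖(inner ℂ (AA S v L r) (pp S L' (S.Z u)) : ℂ)‖ ≤ 4 * M ^ 2 * ε ^ 2 :=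
    inner_bd ((norm_AA v L _).trans nr) nBu (by positivity) (le_of_eq (by ring))
  -- assembly
  have eAu : AA S v L u = AA S v L (g + f) + AA S v L r := by rw [← AA_add, ← hue]
  have eBu : pp S L' (S.Z u) = pp S L' (S.Z g) + pp S L' (S.Z f) + pp S L' (S.Z r) := by
    rw [← pp_add, ← map_add, ← pp_add, ← map_add, ← hue]
  have e : (inner ℂ (AA S v L u) (pp S L' (S.Z u)) : ℂ)
      = inner ℂ (S.X ((1 / 2 : ℂ) • dd S v g)) (S.Z g)
        + inner ℂ (S.X ((1 / 2 : ℂ) • dd S v (pp S L g - g))) (S.Z g)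
        + inner ℂ (AA S v L g) (pp S L' (S.Z g) - S.Z g)
        + inner ℂ (AA S v L g) (pp S L' (S.Z f))
        + inner ℂ (AA S v L f) (pp S L' (S.Z g) - S.Z g)
        + inner ℂ (AA S v L f) (S.Z g)
        + inner ℂ (AA S v L f) (pp S L' (S.Z f))
        + inner ℂ (AA S v L (g + f)) (pp S L' (S.Z r))
        + inner ℂ (AA S v L r) (pp S L' (S.Z u)) := by
    have e1 : (inner ℂ (AA S v L u) (pp S L' (S.Z u)) : ℂ)
        = inner ℂ (AA S v L (g + f)) (pp S L' (S.Z u))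
          + inner ℂ (AA S v L r) (pp S L' (S.Z u)) := by
      rw [← inner_add_left, ← eAu]
    have e2 : (inner ℂ (AA S v L (g + f)) (pp S L' (S.Z u)) : ℂ)
        = inner ℂ (AA S v L (g + f)) (pp S L' (S.Z g))
          + inner ℂ (AA S v L (g + f)) (pp S L' (S.Z f))
          + inner ℂ (AA S v L (g + f)) (pp S L' (S.Z r)) := by
      rw [← inner_add_right, ← inner_add_right, ← eBu]
    have e3 : ∀ y : H, (inner ℂ (AA S v L (g + f)) y : ℂ)
        = inner ℂ (AA S v L g) y + inner ℂ (AA S v L f) y := by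
      intro y; rw [← inner_add_left, ← AA_add]
    have e4 : (inner ℂ (AA S v L g) (S.Z g) : ℂ)
        = inner ℂ (S.X ((1 / 2 : ℂ) • dd S v g)) (S.Z g)
        + inner ℂ (S.X ((1 / 2 : ℂ) • dd S v (pp S L g - g))) (S.Z g) := by
      rw [← inner_add_left, ← AA_split]
    rw [e1, e2, e3 (pp S L' (S.Z g)), e3 (pp S L' (S.Z f)), inner_sub_right, inner_sub_right, e4]
    ring
  rw [e]
  have n9 : ∀ a1 a2 a3 a4 a5 a6 a7 a8 a9 : ℂ,
      ‖a1 + a2 + a3 + a4 + a5 + a6 + a7 + a8 + a9‖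
        ≤ ‖a1‖ + ‖a2‖ + ‖a3‖ + ‖a4‖ + ‖a5‖ + ‖a6‖ + ‖a7‖ + ‖a8‖ + ‖a9‖ := by
    intro a1 a2 a3 a4 a5 a6 a7 a8 a9
    have k1 := norm_add_le (a1 + a2 + a3 + a4 + a5 + a6 + a7 + a8) a9
    have k2 := norm_add_le (a1 + a2 + a3 + a4 + a5 + a6 + a7) a8
    have k3 := norm_add_le (a1 + a2 + a3 + a4 + a5 + a6) a7
    have k4 := norm_add_le (a1 + a2 + a3 + a4 + a5) a6
    have k5 := norm_add_le (a1 + a2 + a3 + a4) a5
    have k6 := norm_add_le (a1 + a2 + a3) a4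
    have k7 := norm_add_le (a1 + a2) a3
    have k8 := norm_add_le a1 a2
    linarith
  refine (n9 _ _ _ _ _ _ _ _ _).trans ?_
  have hsum : (4 * M ^ 2 * m / δ + 3 / 2 * C2 * 5832 * M ^ 2 * m ^ 2
    + 48 * 5832 ^ 2 * M ^ 2 * m ^ 2
    + 8 * 5832 * M ^ 2 * m + (24 * 5832 * M ^ 2 * m + 72 * 5832 * M ^ 2 / δ) + 4 * M ^ 2
    + 3 * M ^ 2 + 4 * M ^ 2) * ε ^ 2
    = 4 * M ^ 2 * m / δ * ε ^ 2 + 3 / 2 * C2 * 5832 * M ^ 2 * m ^ 2 * ε ^ 2
      + 48 * 5832 ^ 2 * M ^ 2 * m ^ 2 * ε ^ 2 + 8 * 5832 * M ^ 2 * m * ε ^ 2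
      + 24 * 5832 * M ^ 2 * m * ε ^ 2 + 72 * 5832 * M ^ 2 / δ * ε ^ 2 + 4 * M ^ 2 * ε ^ 2
      + 3 * M ^ 2 * ε ^ 2 + 4 * M ^ 2 * ε ^ 2 := by ring
  rw [hsum]
  linarith

/-! ### application to the four-pulse word -/

/-- the commutator identity -/
lemma inner_xt_pul_sub (s t : ℝ) (v : K) (U : H ≃ₗᵢ[ℂ] H) (y : H) :
    (inner ℂ (S.xt s (S.pul t v * U) - S.xt s U) y : ℂ)
      = (starRingEnd ℂ) (-(2 * Complex.I * (Real.sin (2 * (s - t)) : ℂ)))
        * inner ℂ (S.X ((1 / 2 : ℂ) • dd S v (U S.Om))) (S.pul t v (U y)) := by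
  have h1 : (inner ℂ (S.xt s (S.pul t v * U)) y : ℂ)
      = inner ℂ (S.Zt s (S.pul t v (U S.Om))) (S.pul t v (U y)) := by
    rw [xt, inner_invA, mulA, mulA]
  have h2 : (inner ℂ (S.xt s U) y : ℂ)
      = inner ℂ (S.pul t v (S.Zt s (U S.Om))) (S.pul t v (U y)) := by
    rw [xt, inner_invA, (S.pul t v).inner_map_map]
  rw [inner_sub_left, h1, h2, ← inner_sub_left, Zt_pul_comm, inner_smul_left]
  rfl

lemma norm_coef (s t : ℝ) :
    ‖(starRingEnd ℂ) (-(2 * Complex.I * (Real.sin (2 * (s - t)) : ℂ)))‖ ≤ 2 := by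
  rw [RCLike.norm_conj, norm_neg, norm_mul, norm_mul, Complex.norm_I, Complex.norm_real,
    Complex.norm_ofNat, Real.norm_eq_abs]
  have := Real.abs_sin_le_one (2 * (s - t))
  linarith

lemma mu_neg (b v : K) : mu b (-v) = mu b v := by
  unfold mu
  rw [norm_neg, inner_neg_left, Complex.neg_im, abs_neg]

end WW2

open WW2 in
/-- block WW2 -/
theorem ww2stmt (hN : S.NStmt) (hO : S.OStmt) (hP : S.PStmt) (h1 : S.WW1Stmt) : S.WW2Stmt := by
  intro M δ hM hδ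
  obtain ⟨C1, ε1, hC1, hε1, H1⟩ := h1 M δ hM hδ
  obtain ⟨C, hC, HR⟩ := est hN hO hP M δ C1 hM hδ hC1
  refine ⟨2 * C1 * M * C, min (min ε1 1) (1 / (C1 + 1)), by positivity,
    lt_min (lt_min hε1 one_pos) (by positivity), ?_⟩
  intro ε hε hεle s' V c t1 t2 hctx s1 s2 hs1 hs2
  have hεa : ε ≤ ε1 := hεle.trans ((min_le_left _ _).trans (min_le_left _ _))
  have hεb : ε ≤ 1 := hεle.trans ((min_le_left _ _).trans (min_le_right _ _))
  have hεc : ε ≤ 1 / (C1 + 1) := hεle.trans (min_le_right _ _)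
  have hC1ε : C1 * ε ≤ 1 := by
    have h2 : (C1 + 1) * ε ≤ 1 := by
      calc (C1 + 1) * ε ≤ (C1 + 1) * (1 / (C1 + 1)) :=
            mul_le_mul_of_nonneg_left hεc (by positivity)
        _ = 1 := by field_simp
    nlinarith
  obtain ⟨hs1', hs2', m1, m2, m3, m4, _⟩ := H1 ε hε hεa s' V c t1 t2 hctx s1 s2 hs1 hs2
  set b := S.fb ε s' V with hbdef
  rcases hctx.s'_ge with hs0 | hs'
  · have hb0 : b = 0 := by
      rw [hbdef, fb, hs0, zero_div]
      simp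
    rw [hb0]
    simp only [th, inner_zero_right, Complex.zero_im, abs_zero]
    exact ⟨by positivity, by positivity⟩
  obtain ⟨ψ, φ, hψ, hφ, hu⟩ := hctx.split
  -- distances
  have hx1 : ‖S.iota (S.xv V)‖ = 1 := by rw [S.norm_iota, S.norm_xv]
  have hbn : δ / ε ≤ ‖b‖ := by
    rw [hbdef, fb, norm_smul, hx1, mul_one, Complex.norm_real, Real.norm_eq_abs, abs_div,
      abs_of_pos hε]
    exact div_le_div_of_nonneg_right hs' hε.le
  have key : ∀ σ : ℝ, δ / ε ≤ ‖((1 / ε : ℝ) : ℂ) • c + (σ : ℂ) • b‖ := by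
    intro σ
    have h2 : th (S.iota (S.xv V)) (((1 / ε : ℝ) : ℂ) • c + (σ : ℂ) • b)
        = 1 / ε * (inner ℂ (S.iota (S.xv V)) c : ℂ).im := by
      rw [th_add_right, th_smul_right, th_smul_right, hbdef, fb, th_smul_right, th_self]
      rw [th]; ring
    have h3 := abs_th_le (S.iota (S.xv V)) (((1 / ε : ℝ) : ℂ) • c + (σ : ℂ) • b)
    rw [h2, hx1, one_mul, abs_mul, abs_of_pos (by positivity : (0 : ℝ) < 1 / ε)] at h3
    refine le_trans ?_ h3
    rw [div_eq_mul_one_div, mul_comm]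
    exact mul_le_mul_of_nonneg_left hctx.al0 (by positivity)
  have hcb : δ / ε ≤ ‖((1 / ε : ℝ) : ℂ) • c - b‖ := by
    have := key (-1)
    rwa [Complex.ofReal_neg, Complex.ofReal_one, neg_smul, one_smul, ← sub_eq_add_neg] at this
  have hcb' : δ / ε ≤ ‖((1 / ε : ℝ) : ℂ) • c + b‖ := by
    have := key 1
    rwa [Complex.ofReal_one, one_smul] at this
  -- norms of pulse vectors
  have nle : ∀ v : K, mu b v ≤ C1 * ε → ‖v‖ ≤ 1 := by
    intro v hv
    have : ‖v‖ ≤ mu b v := by unfold mu; linarith [abs_nonneg (inner ℂ v b : ℂ).im]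
    linarith
  set v1 := S.w1 t2 s2 V with hv1
  set v2 := S.w2 t1 t2 s1 s2 V with hv2
  set v3 := S.w3 t1 t2 s1 s2 V with hv3
  have hps1 : S.ps t2 s2 V = S.pul t2 v1 * V := rfl
  have hps2 : S.ps t1 s1 (S.ps t2 s2 V) = S.pul t1 v2 * (S.pul t2 v1 * V) := rfl
  have hps3 : S.ps t2 (-s2) (S.ps t1 s1 (S.ps t2 s2 V))
      = S.pul t2 (-v3) * (S.pul t1 v2 * (S.pul t2 v1 * V)) := by
    have h : ∀ (s : ℝ) (v : K), (((-s : ℝ) : ℂ)) • v = -((s : ℂ) • v) := by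
      intro s v; push_cast; rw [neg_smul]
    rw [ps, h]
    rfl
  have m3' : mu b (-v3) ≤ C1 * ε := by rw [mu_neg]; exact m3
  have hVx : V (S.xv V) = S.Z (V S.Om) := by rw [xv, Ainv]
  -- estimate for the two commutators
  have R1 : ‖(inner ℂ (AA S v2 [(t2, v1)] (V S.Om))
      (pp S [(t1, v2), (t2, v1)] (S.Z (V S.Om))) : ℂ)‖ ≤ C * ε ^ 2 := by
    refine HR ε hε hεb b (((1 / ε : ℝ) : ℂ) • c) v2 (V S.Om) ψ φ _ _ (by simp) (by simp)
      ?_ ?_ ?_ ?_ (nle _ m2) m2 hψ hφ hu hbn hcb hcb'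
    · intro q hq
      simp only [List.mem_singleton] at hq
      subst hq; exact nle _ m1
    · intro q hq
      simp only [List.mem_singleton] at hq
      subst hq; exact m1
    · intro q hq
      simp only [List.mem_cons, List.not_mem_nil, or_false] at hq
      rcases hq with rfl | rfl
      · exact nle _ m2
      · exact nle _ m1
    · intro q hq
      simp only [List.mem_cons, List.not_mem_nil, or_false] at hq
      rcases hq with rfl | rfl
      · exact m2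
      · exact m1
  have R2 : ‖(inner ℂ (AA S (-v3) [(t1, v2), (t2, v1)] (V S.Om))
      (pp S [(t2, -v3), (t1, v2), (t2, v1)] (S.Z (V S.Om))) : ℂ)‖ ≤ C * ε ^ 2 := by
    refine HR ε hε hεb b (((1 / ε : ℝ) : ℂ) • c) (-v3) (V S.Om) ψ φ _ _ (by simp) (by simp)
      ?_ ?_ ?_ ?_ (nle _ m3') m3' hψ hφ hu hbn hcb hcb'
    · intro q hq
      simp only [List.mem_cons, List.not_mem_nil, or_false] at hq
      rcases hq with rfl | rfl
      · exact nle _ m2
      · exact nle _ m1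
    · intro q hq
      simp only [List.mem_cons, List.not_mem_nil, or_false] at hq
      rcases hq with rfl | rfl
      · exact m2
      · exact m1
    · intro q hq
      simp only [List.mem_cons, List.not_mem_nil, or_false] at hq
      rcases hq with rfl | rfl | rfl
      · exact nle _ m3'
      · exact nle _ m2
      · exact nle _ m1
    · intro q hq
      simp only [List.mem_cons, List.not_mem_nil, or_false] at hq
      rcases hq with rfl | rfl | rfl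
      · exact m3'
      · exact m2
      · exact m1
  have I1 : |(inner ℂ (S.xt t2 (S.pul t1 v2 * (S.pul t2 v1 * V)) - S.xt t2 V) (S.xv V) : ℂ).im|
      ≤ 2 * (C * ε ^ 2) := by
    rw [← S.xt_pul_mul t2 v1 V, inner_xt_pul_sub]
    refine (Complex.abs_im_le_norm _).trans ?_
    rw [norm_mul]
    refine mul_le_mul (norm_coef _ _) ?_ (norm_nonneg _) (by norm_num)
    rw [mulA, mulA, hVx]
    exact R1
  have I2 : |(inner ℂ (S.xt t1 (S.pul t2 (-v3) * (S.pul t1 v2 * (S.pul t2 v1 * V)))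
      - S.xt t1 (S.pul t2 v1 * V)) (S.xv V) : ℂ).im| ≤ 2 * (C * ε ^ 2) := by
    rw [← S.xt_pul_mul t1 v2 (S.pul t2 v1 * V), inner_xt_pul_sub]
    refine (Complex.abs_im_le_norm _).trans ?_
    rw [norm_mul]
    refine mul_le_mul (norm_coef _ _) ?_ (norm_nonneg _) (by norm_num)
    rw [mulA, mulA, mulA, mulA, hVx]
    exact R2
  have fin : ∀ (s : ℝ) (y : H), |s| ≤ C1 * ε → |(inner ℂ y (S.xv V) : ℂ).im| ≤ 2 * (C * ε ^ 2) →
      |th ((s : ℂ) • S.iota y) b| ≤ 2 * C1 * M * C * ε ^ 2 := by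
    intro s y hs hy
    rw [hbdef, fb, th_smul_left, th_smul_right, th_iota, abs_mul, abs_mul, abs_div,
      abs_of_pos hε]
    have h4 : |s'| / ε * |(inner ℂ y (S.xv V) : ℂ).im| ≤ M / ε * (2 * (C * ε ^ 2)) :=
      mul_le_mul (div_le_div_of_nonneg_right hctx.s'_le hε.le) hy (abs_nonneg _) (by positivity)
    have h5 : |s| * (|s'| / ε * |(inner ℂ y (S.xv V) : ℂ).im|)
        ≤ (C1 * ε) * (M / ε * (2 * (C * ε ^ 2))) :=
      mul_le_mul hs h4 (by positivity) (by positivity)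
    have h6 : (C1 * ε) * (M / ε * (2 * (C * ε ^ 2))) = 2 * C1 * M * C * ε ^ 2 := by
      field_simp
    linarith
  constructor
  · have e : v3 - v1 = (s2 : ℂ) • S.iota (S.xt t2 (S.pul t1 v2 * (S.pul t2 v1 * V))
        - S.xt t2 V) := by
      rw [map_sub, smul_sub]; rfl
    rw [e]
    exact fin s2 _ hs2' I1
  · have e : S.w4 t1 t2 s1 s2 V - v2 = (s1 : ℂ) • S.iota
        (S.xt t1 (S.pul t2 (-v3) * (S.pul t1 v2 * (S.pul t2 v1 * V)))
          - S.xt t1 (S.pul t2 v1 * V)) := by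
      rw [map_sub, smul_sub, ← hps3]; rfl
    rw [e]
    exact fin s1 _ hs1' I2

end Sys

end Vale.Agent.P367.A
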