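import Vale.Agent.P367.A.SkelWW

/-! P367, Theorem A, block WW, part (d): the two word estimates from the pulse estimates. -/

namespace Vale.Agent.P367.A

open Complex Filter Topology

namespace Sys

variable {H K : Type*} [NormedAddCommGroup H] [InnerProductSpace ℂ H]
  [NormedAddCommGroup K] [InnerProductSpace ℂ K] (S : Sys H K)

lemma ww3_norm_le_mu (b v : K) : ‖v‖ ≤ mu b v := by
  unfold mu
  linarith [abs_nonneg (inner ℂ v b : ℂ).im]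

/-- WW (d) -/
theorem wwStmt_of (h1 : S.C1Stmt) (h2 : S.C2Stmt) (hw1 : S.WW1Stmt) (hw2 : S.WW2Stmt) :
    S.WWStmt := by
  intro M δ hM hδ
  obtain ⟨Ca, εa, hCa, hεa, Ha⟩ := hw1 M δ hM hδ
  obtain ⟨Cb, εb, hCb, hεb, Hb⟩ := hw2 M δ hM hδ
  obtain ⟨C1, ε1, hC1, hε1, H1⟩ := h1 (Ca + Cb) (by linarith)
  obtain ⟨C2, ε2, hC2, hε2, H2⟩ := h2 (Ca + Cb) (by linarith)
  refine ⟨C1 + C2, min (min εa εb) (min ε1 ε2), by linarith,
    lt_min (lt_min hεa hεb) (lt_min hε1 hε2), ?_⟩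
  intro ε hε hle s' V c t1 t2 hctx s1 s2 hs1 hs2
  have la : ε ≤ εa := hle.trans ((min_le_left _ _).trans (min_le_left _ _))
  have lb : ε ≤ εb := hle.trans ((min_le_left _ _).trans (min_le_right _ _))
  have l1 : ε ≤ ε1 := hle.trans ((min_le_right _ _).trans (min_le_left _ _))
  have l2 : ε ≤ ε2 := hle.trans ((min_le_right _ _).trans (min_le_right _ _))
  obtain ⟨-, -, m1, m2, m3, m4, n31, n42, q1, q2, q3, q4⟩ :=
    Ha ε hε la s' V c t1 t2 hctx s1 s2 hs1 hs2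
  obtain ⟨p31, p42⟩ := Hb ε hε lb s' V c t1 t2 hctx s1 s2 hs1 hs2
  have up : ∀ {x : ℝ}, x ≤ Ca * ε → x ≤ (Ca + Cb) * ε := fun hx =>
    hx.trans (mul_le_mul_of_nonneg_right (by linarith) hε.le)
  have d31 : mu (S.fb ε s' V) (S.w3 t1 t2 s1 s2 V - S.w1 t2 s2 V) ≤ (Ca + Cb) * ε ^ 2 := by
    have : mu (S.fb ε s' V) (S.w3 t1 t2 s1 s2 V - S.w1 t2 s2 V)
        = ‖S.w3 t1 t2 s1 s2 V - S.w1 t2 s2 V‖
          + |th (S.w3 t1 t2 s1 s2 V - S.w1 t2 s2 V) (S.fb ε s' V)| := rfl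
    rw [this, add_mul]
    exact add_le_add n31 p31
  have d42 : mu (S.fb ε s' V) (S.w4 t1 t2 s1 s2 V - S.w2 t1 t2 s1 s2 V)
      ≤ (Ca + Cb) * ε ^ 2 := by
    have : mu (S.fb ε s' V) (S.w4 t1 t2 s1 s2 V - S.w2 t1 t2 s1 s2 V)
        = ‖S.w4 t1 t2 s1 s2 V - S.w2 t1 t2 s1 s2 V‖
          + |th (S.w4 t1 t2 s1 s2 V - S.w2 t1 t2 s1 s2 V) (S.fb ε s' V)| := rfl
    rw [this, add_mul]
    exact add_le_add n42 p42
  have fc : ∀ {b : K} {c0 : ℝ} {z : H}, S.Frm b c0 z → 0 ≤ c0 := by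
    rintro b c0 z ⟨x, y, hx, -, -⟩
    exact (norm_nonneg x).trans hx.m0
  constructor
  · intro c0 z hz
    rw [S.wv_mul_inv]
    have c00 := fc hz
    refine (H1 ε hε l1 _ c0 z t1 t2 _ _ _ _ hz (up m1) (up m2) (up m3) (up m4) d31 d42).trans ?_
    have : 0 ≤ c0 * ε ^ 2 := by positivity
    nlinarith
  · intro c0 z hz
    rw [S.wv_mul_inv]
    have c00 := fc hz
    refine (H2 ε hε l2 _ c0 z t1 t2 _ _ _ _ hz ((ww3_norm_le_mu _ _).trans (up m1))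
      ((ww3_norm_le_mu _ _).trans (up m2)) ((ww3_norm_le_mu _ _).trans (up m3))
      ((ww3_norm_le_mu _ _).trans (up m4)) (up q1) (up q2) (up q3) (up q4)).trans ?_
    have : 0 ≤ c0 * ε := by positivity
    nlinarith

end Sys

end Vale.Agent.P367.A
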