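import Vale.Agent.P367.A.Skel

/-! P367, Theorem A, block WW (helper739), part 1: algebra. -/

namespace Vale.Agent.P367.A

open Complex Filter Topology

open Vale.Agent.P367.NI (Gate)

namespace Sys

variable {H K : Type*} [NormedAddCommGroup H] [InnerProductSpace ℂ H]
  [NormedAddCommGroup K] [InnerProductSpace ℂ K] (S : Sys H K)

lemma ww_mul_apply (U V : H ≃ₗᵢ[ℂ] H) (x : H) : (U * V) x = U (V x) := rfl

lemma ww_inv_apply (U : H ≃ₗᵢ[ℂ] H) (x : H) : U⁻¹ (U x) = x := U.symm_apply_apply x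

lemma ww_apply_inv (U : H ≃ₗᵢ[ℂ] H) (x : H) : U (U⁻¹ x) = x := U.apply_symm_apply x

lemma ww_xr_add (s t : ℝ) (x : H) : S.xr s (S.xr t x) = S.xr (s + t) x := by
  simp only [xr_apply, map_sub, map_smul, S.XX, Real.cos_add, Real.sin_add, ofReal_add,
    ofReal_sub, ofReal_mul]
  have hI := Complex.I_mul_I
  have e : ((Real.cos s : ℂ) * Real.cos t - (Real.sin s : ℂ) * Real.sin t) • x
      = ((Real.cos s : ℂ) * Real.cos t) • x
        + ((Complex.I * (Real.sin s : ℂ)) * (Complex.I * (Real.sin t : ℂ))) • x := by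
    rw [← add_smul]
    congr 1
    linear_combination -((Real.sin s : ℂ) * Real.sin t) * hI
  rw [e]
  module

lemma ww_xr_zero (x : H) : S.xr 0 x = x := by
  simp [xr_apply]

lemma ww_X_xr (t : ℝ) (x : H) : S.X (S.xr t x) = S.xr t (S.X x) := by
  simp only [xr_apply, map_sub, map_smul]

lemma ww_W_xr (t : ℝ) (a : K) (x : H) : S.W a (S.xr t x) = S.xr t (S.W a x) := by
  simp only [xr_apply, map_sub, map_smul, S.WX]

lemma ww_Z_xr (t : ℝ) (x : H) : S.Z (S.xr t x) = S.xr (-t) (S.Z x) := by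
  simp only [xr_apply, map_sub, map_smul, S.ZX, Real.cos_neg, Real.sin_neg, ofReal_neg]
  module

lemma ww_Zt (t : ℝ) (x : H) : S.Zt t x = S.xr (2 * t) (S.Z x) := by
  change S.xr t (S.Z (S.xr (-t) x)) = _
  rw [ww_Z_xr, ww_xr_add]
  have : t + -(-t) = 2 * t := by ring
  rw [this]

lemma ww_Zt_Zt (t t' : ℝ) (x : H) : S.Zt t (S.Zt t' x) = S.xr (2 * (t - t')) x := by
  rw [ww_Zt, ww_Zt, ww_Z_xr, S.ZZ, ww_xr_add]
  congr 1
  ring

lemma ww_Zt_self (t : ℝ) (x : H) : S.Zt t (S.Zt t x) = x := by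
  rw [ww_Zt_Zt, sub_self, mul_zero, ww_xr_zero]

lemma ww_W_Zt (t : ℝ) (a : K) (x : H) : S.W a (S.Zt t x) = S.Zt t (S.W a x) := by
  rw [ww_Zt, ww_Zt, ww_W_xr, S.WZ]

lemma ww_inner_Zt (t : ℝ) (x y : H) : inner ℂ (S.Zt t x) y = inner ℂ x (S.Zt t y) := by
  have h := (S.Zt t).inner_map_map x (S.Zt t y)
  rwa [ww_Zt_self] at h

lemma ww_xr_sub_xr (θ : ℝ) (y : H) : S.xr θ y - S.xr (-θ) y
    = (-(2 * Complex.I * (Real.sin θ : ℂ))) • S.X y := by
  simp only [xr_apply, Real.cos_neg, Real.sin_neg, ofReal_neg]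
  module

lemma ww_pul_apply (t : ℝ) (v : K) (x : H) : S.pul t v x
    = (1 / 2 : ℂ) • (S.W (-v) x + S.W v x)
      + (1 / 2 : ℂ) • (S.W (-v) (S.Zt t x) - S.W v (S.Zt t x)) := by
  change S.xr t (S.zr v (S.xr (-t) x)) = _
  rw [zr_apply]
  simp only [map_add, map_sub, map_smul, ← ww_W_xr]
  have h1 : S.xr t (S.xr (-t) x) = x := by
    rw [ww_xr_add, add_neg_cancel, ww_xr_zero]
  have h2 : S.xr t (S.Z (S.xr (-t) x)) = S.Zt t x := rfl
  rw [h1, h2]

lemma ww_pul_zero (t : ℝ) (x : H) : S.pul t 0 x = x := by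
  rw [ww_pul_apply, neg_zero, S.W_zero_apply, S.W_zero_apply]
  module

/-- the even part minus one -/
noncomputable def wwQ (v : K) (z : H) : H := (1 / 2 : ℂ) • (S.W (-v) z + S.W v z) - z

/-- the odd part -/
noncomputable def wwD (v : K) (z : H) : H := (1 / 2 : ℂ) • (S.W (-v) z - S.W v z)

lemma ww_pul_sub (t : ℝ) (v : K) (x : H) :
    S.pul t v x - x = S.wwQ v x + S.wwD v (S.Zt t x) := by
  rw [ww_pul_apply, wwQ, wwD]
  module

lemma ww_inner_D (v : K) (x y : H) : inner ℂ (S.wwD v x) y = -inner ℂ x (S.wwD v y) := by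
  simp only [wwD, inner_smul_left, inner_smul_right, inner_sub_left, inner_sub_right, S.inner_W,
    neg_neg, map_div₀, map_one, Complex.conj_ofNat]
  ring

lemma ww_D_Zt (t : ℝ) (v : K) (x : H) : S.wwD v (S.Zt t x) = S.Zt t (S.wwD v x) := by
  simp only [wwD, ww_W_Zt, map_smul, map_sub]

lemma ww_D_X (v : K) (x : H) : S.wwD v (S.X x) = S.X (S.wwD v x) := by
  simp only [wwD, S.WX, map_smul, map_sub]

lemma ww_D_Z (v : K) (x : H) : S.wwD v (S.Z x) = S.Z (S.wwD v x) := by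
  simp only [wwD, S.WZ, map_smul, map_sub]

lemma ww_D_sub (v : K) (x y : H) : S.wwD v (x - y) = S.wwD v x - S.wwD v y := by
  simp only [wwD, map_sub]
  module

lemma ww_D_add (v : K) (x y : H) : S.wwD v (x + y) = S.wwD v x + S.wwD v y := by
  simp only [wwD, map_add]
  module

lemma ww_D_neg (v : K) (x : H) : S.wwD v (-x) = -S.wwD v x := by
  simp only [wwD, map_neg]
  module

lemma ww_D_smul (v : K) (k : ℂ) (x : H) : S.wwD v (k • x) = k • S.wwD v x := by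
  simp only [wwD, map_smul]
  module

/-- `(pul v - 1)(pul (-v) - 1) = -2 Q` -/
lemma ww_Q_eq (t : ℝ) (v : K) (x : H) :
    S.wwQ v x = (-(1 / 2) : ℂ) • (S.pul t v (S.pul t (-v) x - x) - (S.pul t (-v) x - x)) := by
  have h1 : S.pul t v (S.pul t (-v) x) = x := by
    change S.xr t (S.zr v (S.xr (-t) (S.xr t (S.zr (-v) (S.xr (-t) x))))) = x
    have h2 : ∀ y, S.xr (-t) (S.xr t y) = y := fun y => by
      rw [ww_xr_add, neg_add_cancel, ww_xr_zero]
    rw [h2]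
    have h3 : S.zr v (S.zr (-v) (S.xr (-t) x)) = S.xr (-t) x := S.zrL_zrL_neg v _
    rw [h3, ww_xr_add, add_neg_cancel, ww_xr_zero]
  rw [map_sub, h1, ww_pul_apply, ww_pul_apply, wwQ, neg_neg]
  module

lemma ww_zr_neg (b : K) (ψ : H) : S.zr (-b) ψ
    = S.W b ((1 / 2 : ℂ) • (ψ + S.Z ψ)) + S.W (-b) ((1 / 2 : ℂ) • (ψ - S.Z ψ)) := by
  rw [zr_apply, neg_neg]
  simp only [map_smul, map_add, map_sub]
  module

end Sys

end Vale.Agent.P367.A
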