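import Vale.Agent.P367.A.WWm1

/-! P367, Theorem A, block WW (helper739), part 2: second order estimates on frames. -/

namespace Vale.Agent.P367.A

open Complex Filter Topology

open Vale.Agent.P367.NI (Gate)

namespace Sys

variable {H K : Type*} [NormedAddCommGroup H] [InnerProductSpace ℂ H]
  [NormedAddCommGroup K] [InnerProductSpace ℂ K] {S : Sys H K}

lemma ww_Nice_c0 {c : ℝ} {x : H} (h : S.Nice c x) : 0 ≤ c := (norm_nonneg x).trans h.m0

lemma ww_Frm_c0 {c : ℝ} {b : K} {z : H} (h : S.Frm b c z) : 0 ≤ c := by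
  obtain ⟨x, y, hx, -, -⟩ := h
  exact ww_Nice_c0 hx

lemma ww_Frm_norm {c : ℝ} {b : K} {z : H} (h : S.Frm b c z) : ‖z‖ ≤ 2 * c := by
  obtain ⟨x, y, hx, hy, rfl⟩ := h
  refine (norm_add_le _ _).trans ?_
  rw [(S.W b).norm_map, (S.W (-b)).norm_map]
  linarith [hx.m0, hy.m0]

lemma ww_Frm_op (hN : S.NStmt) {c : ℝ} {b : K} {z : H} (h : S.Frm b c z) (U : H ≃ₗᵢ[ℂ] H)
    (hU : ∀ a x, S.W a (U x) = U (S.W a x)) : S.Frm b c (U z) := by
  obtain ⟨x, y, hx, hy, rfl⟩ := h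
  refine ⟨U x, U y, hN.comm U hU c x hx, hN.comm U hU c y hy, ?_⟩
  rw [map_add, hU, hU]

lemma ww_Frm_Z (hN : S.NStmt) {c : ℝ} {b : K} {z : H} (h : S.Frm b c z) : S.Frm b c (S.Z z) :=
  ww_Frm_op hN h S.Z S.WZ

lemma ww_Frm_X (hN : S.NStmt) {c : ℝ} {b : K} {z : H} (h : S.Frm b c z) : S.Frm b c (S.X z) :=
  ww_Frm_op hN h S.X S.WX

lemma ww_Frm_Zt (hN : S.NStmt) {c : ℝ} {b : K} {z : H} (h : S.Frm b c z) (t : ℝ) :
    S.Frm b c (S.Zt t z) :=
  ww_Frm_op hN h (S.Zt t) (fun a x => S.ww_W_Zt t a x)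

lemma ww_mu_nonneg (b v : K) : 0 ≤ mu b v := by unfold mu; positivity

lemma ww_mu_neg (b v : K) : mu b (-v) = mu b v := by
  simp [mu]

lemma ww_mu_neg' (b v : K) : mu (-b) v = mu b v := by
  simp [mu]

lemma ww_mu_zero (b : K) : mu b (0 : K) = 0 := by
  simp [mu]

/-- exchange relation -/
lemma ww_W_comm (h b : K) (x : H) : S.W h (S.W b x)
    = Complex.exp (-(2 * Complex.I * ((inner ℂ h b).im : ℂ))) • S.W b (S.W h x) := by
  have h1 := S.WW h b x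
  have h2 := S.WW b h x
  have h3 : (inner ℂ b h : ℂ).im = -(inner ℂ h b : ℂ).im := by
    rw [← inner_conj_symm b h, Complex.conj_im]
  rw [h1, h2, h3, smul_smul, ← Complex.exp_add, add_comm b h]
  congr 2
  push_cast
  ring

lemma ww_norm_exp (r : ℝ) : ‖Complex.exp (-(2 * Complex.I * (r : ℂ)))‖ = 1 := by
  rw [Complex.norm_exp]
  simp

lemma ww_norm_exp_sub_one (r : ℝ) :
    ‖Complex.exp (-(2 * Complex.I * (r : ℂ))) - 1‖ ≤ 2 * |r| := by
  have h := Real.norm_exp_I_mul_ofReal_sub_one_le (x := -(2 * r))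
  have e : Complex.I * ((-(2 * r) : ℝ) : ℂ) = -(2 * Complex.I * (r : ℂ)) := by
    push_cast
    ring
  rw [e] at h
  refine h.trans ?_
  rw [Real.norm_eq_abs, abs_neg, abs_mul, abs_two]

/-- the conjugated odd part -/
noncomputable def wwY (S : Sys H K) (b v : K) (u : H) : H :=
  (1 / 2 : ℂ) • (Complex.exp (-(2 * Complex.I * ((inner ℂ (-v) b).im : ℂ))) • S.W (-v) u
    - Complex.exp (-(2 * Complex.I * ((inner ℂ v b).im : ℂ))) • S.W v u)

lemma ww_D_W (b v : K) (u : H) : S.wwD v (S.W b u) = S.W b (wwY S b v u) := by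
  rw [wwD, ww_W_comm (-v) b, ww_W_comm v b, wwY]
  simp only [map_smul, map_sub]

/-- splitting of `wwY` -/
lemma ww_Y_eq (b v : K) (u : H) : wwY S b v u
    = (1 / 2 : ℂ) • ((Complex.exp (-(2 * Complex.I * ((inner ℂ (-v) b).im : ℂ))) - 1)
          • S.W (-v) u)
      - (1 / 2 : ℂ) • ((Complex.exp (-(2 * Complex.I * ((inner ℂ v b).im : ℂ))) - 1)
          • S.W v u)
      + (1 / 2 : ℂ) • ((S.W (-v) u - u) - (S.W v u - u)) := by
  rw [wwY]
  module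

lemma ww_W_diff {M : ℝ} {u : H} (hu : S.Nice M u) {w : K} (hw : ‖w‖ ≤ 1) (a : K) :
    ‖S.W a (S.W w u) - S.W w u‖ ≤ 3 * M * ‖a‖ := by
  have h1 : S.W a (S.W w u) - S.W w u
      = Complex.exp (-(2 * Complex.I * ((inner ℂ a w).im : ℂ))) • S.W w (S.W a u - u)
        + (Complex.exp (-(2 * Complex.I * ((inner ℂ a w).im : ℂ))) - 1) • S.W w u := by
    rw [ww_W_comm a w u, map_sub]
    module
  have hM := ww_Nice_c0 hu
  rw [h1]
  refine (norm_add_le _ _).trans ?_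
  rw [norm_smul, norm_smul, ww_norm_exp, one_mul, (S.W w).norm_map, (S.W w).norm_map]
  have h2 := hu.m1 a
  have h3 := ww_norm_exp_sub_one (inner ℂ a w : ℂ).im
  have h4 : |(inner ℂ a w : ℂ).im| ≤ ‖a‖ := by
    refine (Complex.abs_im_le_norm _).trans ((norm_inner_le_norm _ _).trans ?_)
    nlinarith [norm_nonneg a]
  have h5 : ‖Complex.exp (-(2 * Complex.I * ((inner ℂ a w).im : ℂ))) - 1‖ * ‖u‖
      ≤ (2 * ‖a‖) * M := by
    refine mul_le_mul (h3.trans (by linarith)) hu.m0 (norm_nonneg _) (by positivity)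
  nlinarith

lemma ww_half_norm (x : H) : ‖(1 / 2 : ℂ) • x‖ = ‖x‖ / 2 := by
  rw [norm_smul]
  simp
  ring

lemma ww_Y_norm {M : ℝ} {u : H} (hu : S.Nice M u) (b v : K) :
    ‖wwY S b v u‖ ≤ 2 * M * mu b v := by
  have hM := ww_Nice_c0 hu
  rw [ww_Y_eq]
  refine (norm_add_le _ _).trans ?_
  have e1 := norm_sub_le
    ((1 / 2 : ℂ) • ((Complex.exp (-(2 * Complex.I * ((inner ℂ (-v) b).im : ℂ))) - 1)
      • S.W (-v) u))
    ((1 / 2 : ℂ) • ((Complex.exp (-(2 * Complex.I * ((inner ℂ v b).im : ℂ))) - 1)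
      • S.W v u))
  rw [ww_half_norm, ww_half_norm, norm_smul, norm_smul, (S.W _).norm_map, (S.W _).norm_map] at e1
  rw [ww_half_norm]
  have e2 := norm_sub_le (S.W (-v) u - u) (S.W v u - u)
  have e3 := hu.m1 (-v)
  have e4 := hu.m1 v
  rw [norm_neg] at e3
  have e5 := ww_norm_exp_sub_one (inner ℂ (-v) b : ℂ).im
  have e6 := ww_norm_exp_sub_one (inner ℂ v b : ℂ).im
  have e7 : |(inner ℂ (-v) b : ℂ).im| = |(inner ℂ v b : ℂ).im| := by simp
  rw [e7] at e5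
  have e8 := mul_le_mul e5 hu.m0 (norm_nonneg _) (by positivity)
  have e9 := mul_le_mul e6 hu.m0 (norm_nonneg _) (by positivity)
  have e10 : 2 * M * mu b v = 2 * M * ‖v‖ + 2 * M * |(inner ℂ v b : ℂ).im| := by
    unfold mu; ring
  rw [e10]
  nlinarith [mul_nonneg hM (norm_nonneg v), mul_nonneg hM (abs_nonneg (inner ℂ v b : ℂ).im)]

lemma ww_Y_diff {M : ℝ} {u : H} (hu : S.Nice M u) (b v : K) (hv : ‖v‖ ≤ 1)
    (a : K) : ‖S.W a (wwY S b v u) - wwY S b v u‖ ≤ 6 * M * mu b v * ‖a‖ := by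
  have hM := ww_Nice_c0 hu
  have h0 : S.W a (wwY S b v u) - wwY S b v u
      = (1 / 2 : ℂ) • ((Complex.exp (-(2 * Complex.I * ((inner ℂ (-v) b).im : ℂ))) - 1)
          • (S.W a (S.W (-v) u) - S.W (-v) u))
      - (1 / 2 : ℂ) • ((Complex.exp (-(2 * Complex.I * ((inner ℂ v b).im : ℂ))) - 1)
          • (S.W a (S.W v u) - S.W v u))
      + (1 / 2 : ℂ) • ((S.W a (S.W (-v) u - u) - (S.W (-v) u - u))
          - (S.W a (S.W v u - u) - (S.W v u - u))) := by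
    rw [ww_Y_eq]
    simp only [map_add, map_sub, map_smul]
    module
  rw [h0]
  refine (norm_add_le _ _).trans ?_
  have e1 := norm_sub_le
    ((1 / 2 : ℂ) • ((Complex.exp (-(2 * Complex.I * ((inner ℂ (-v) b).im : ℂ))) - 1)
      • (S.W a (S.W (-v) u) - S.W (-v) u)))
    ((1 / 2 : ℂ) • ((Complex.exp (-(2 * Complex.I * ((inner ℂ v b).im : ℂ))) - 1)
      • (S.W a (S.W v u) - S.W v u)))
  rw [ww_half_norm, ww_half_norm, norm_smul, norm_smul] at e1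
  rw [ww_half_norm]
  have e2 := norm_sub_le (S.W a (S.W (-v) u - u) - (S.W (-v) u - u))
    (S.W a (S.W v u - u) - (S.W v u - u))
  have e3 := hu.m2 a (-v)
  have e4 := hu.m2 a v
  rw [norm_neg] at e3
  have e5 := ww_norm_exp_sub_one (inner ℂ (-v) b : ℂ).im
  have e6 := ww_norm_exp_sub_one (inner ℂ v b : ℂ).im
  have e7 : |(inner ℂ (-v) b : ℂ).im| = |(inner ℂ v b : ℂ).im| := by simp
  rw [e7] at e5
  have e8 := mul_le_mul e5 (ww_W_diff hu (w := -v) (by rwa [norm_neg]) a) (norm_nonneg _)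
    (by positivity)
  have e9 := mul_le_mul e6 (ww_W_diff hu hv a) (norm_nonneg _) (by positivity)
  have e10 : 6 * M * mu b v * ‖a‖
      = 6 * (M * ‖a‖ * ‖v‖) + 6 * (M * ‖a‖ * |(inner ℂ v b : ℂ).im|) := by
    unfold mu; ring
  rw [e10]
  have n1 : 0 ≤ M * ‖a‖ * ‖v‖ := by positivity
  have n2 : 0 ≤ M * ‖a‖ * |(inner ℂ v b : ℂ).im| := by positivity
  nlinarith

lemma ww_orth {x y : H} (hx : S.Z x = x) (hy : S.Z y = -y) : (inner ℂ x y : ℂ) = 0 := by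
  have h := S.inner_Z x y
  rw [hx, hy, inner_neg_right] at h
  have : (2 : ℂ) * inner ℂ x y = 0 := by linear_combination h
  simpa using this

lemma ww_orth' {x y : H} (hx : S.Z x = -x) (hy : S.Z y = y) : (inner ℂ x y : ℂ) = 0 := by
  have h := S.inner_Z x y
  rw [hx, hy, inner_neg_left] at h
  have : (2 : ℂ) * inner ℂ x y = 0 := by linear_combination -h
  simpa using this

/-- cross term of a frame with the odd part of a pulse -/
lemma ww_cross (hN : S.NStmt) (hO : S.OStmt) {M : ℝ} {b v : K} {p q : H} (hp : S.Nice M p)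
    (hq : S.Nice M q) (hv : ‖v‖ ≤ 1) (hb : b ≠ 0) :
    ‖(inner ℂ (S.W b p) (S.wwD v (S.W (-b) q)) : ℂ)‖ ≤ 4 * M ^ 2 * mu b v / ‖b‖ := by
  have hM := ww_Nice_c0 hp
  have hb' : 0 < ‖b‖ := norm_pos_iff.2 hb
  have hbb : b ≠ -b := by
    intro h
    apply hb
    have h2 : (2 : ℂ) • b = 0 := by
      rw [two_smul]
      nth_rewrite 2 [h]
      simp
    simpa using h2
  rw [ww_D_W]
  have h1 := hO.inn1 M M (2 * M * mu (-b) v) (6 * M * mu (-b) v) p (wwY S (-b) v q) b (-b)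
    hp.m1 hp.m0 (fun a => ww_Y_diff hq (-b) v hv a) (ww_Y_norm hq (-b) v) hbb
  refine h1.trans ?_
  have e : ‖b - -b‖ = 2 * ‖b‖ := by
    rw [sub_neg_eq_add, ← two_smul ℝ b, norm_smul]
    simp
  rw [e, ww_mu_neg']
  apply le_of_eq
  field_simp
  ring

/-- lemma F: a frame does not see first order flips -/
lemma ww_lemF (hN : S.NStmt) (hO : S.OStmt) {M : ℝ} {b v : K} {p q : H} (hp : S.Nice M p)
    (hq : S.Nice M q) (hZp : S.Z p = p) (hZq : S.Z q = -q) (hv : ‖v‖ ≤ 1) (hb : b ≠ 0) :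
    ‖(inner ℂ (S.W b p + S.W (-b) q)
      (S.wwD v (S.X (S.Z (S.W b p + S.W (-b) q)))) : ℂ)‖ ≤ 8 * M ^ 2 * mu b v / ‖b‖ := by
  have hXp : S.Nice M (S.X p) := hN.comm S.X S.WX M p hp
  have hXq : S.Nice M (S.X q) := hN.comm S.X S.WX M q hq
  have e0 : S.X (S.Z (S.W b p + S.W (-b) q)) = S.W b (S.X p) - S.W (-b) (S.X q) := by
    rw [map_add, map_add, ← S.WZ, ← S.WZ, hZp, hZq, map_neg, map_neg, ← S.WX, ← S.WX]
    abel
  rw [e0, ww_D_sub, inner_sub_right, inner_add_left, inner_add_left]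
  have z1 : (inner ℂ (S.W b p) (S.wwD v (S.W b (S.X p))) : ℂ) = 0 := by
    apply ww_orth (S := S)
    · rw [← S.WZ, hZp]
    · rw [← S.ww_D_Z, ← S.WZ, S.ZX, hZp, map_neg, ww_D_neg]
  have z2 : (inner ℂ (S.W (-b) q) (S.wwD v (S.W (-b) (S.X q))) : ℂ) = 0 := by
    apply ww_orth' (S := S)
    · rw [← S.WZ, hZq, map_neg]
    · rw [← S.ww_D_Z, ← S.WZ, S.ZX, hZq, map_neg S.X, neg_neg]
  rw [z1, z2, zero_add, add_zero]
  have c1 := ww_cross hN hO (b := -b) (v := v) hq hXp hv (neg_ne_zero.2 hb)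
  have c2 := ww_cross hN hO (b := b) (v := v) hp hXq hv hb
  rw [neg_neg, norm_neg, ww_mu_neg'] at c1
  refine (norm_sub_le _ _).trans ?_
  refine (add_le_add c1 c2).trans (le_of_eq ?_)
  ring

/-- lemma T: first order variation of `⟨Z^t P A, P Z A⟩` under one pulse -/
lemma ww_lemT (hN : S.NStmt) (hO : S.OStmt) {M C2 : ℝ} (hC2 : 0 ≤ C2)
    (hP2 : ∀ c z b t v t' v', S.Frm b c z → ‖v‖ ≤ 1 →
      ‖S.pul t' v' (S.pul t v z - z) - (S.pul t v z - z)‖ ≤ C2 * c * (mu b v' * mu b v))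
    {b v : K} {p q : H} (hp : S.Nice M p)
    (hq : S.Nice M q) (hZp : S.Z p = p) (hZq : S.Z q = -q) (hv : ‖v‖ ≤ 1) (hb : b ≠ 0)
    (t t' : ℝ) {A : H} (hA : A = S.W b p + S.W (-b) q) :
    ‖(inner ℂ (S.Zt t (S.pul t' v A - A)) (S.Z A)
      + inner ℂ (S.Zt t A) (S.pul t' v (S.Z A) - S.Z A) : ℂ)‖
      ≤ 2 * C2 * M ^ 2 * mu b v ^ 2 + 16 * M ^ 2 * mu b v / ‖b‖ := by
  have hM := ww_Nice_c0 hp
  have hFA : S.Frm b M A := ⟨p, q, hp, hq, hA⟩
  have hFZA : S.Frm b M (S.Z A) := ww_Frm_Z hN hFA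
  have hμ := ww_mu_nonneg b v
  have hQ : ∀ z, S.Frm b M z → ‖S.wwQ v z‖ ≤ C2 * M * mu b v ^ 2 / 2 := by
    intro z hz
    rw [S.ww_Q_eq 0 v z, norm_smul]
    have h := hP2 M z b 0 (-v) 0 v hz (by rwa [norm_neg])
    rw [ww_mu_neg] at h
    have : ‖(-(1 / 2) : ℂ)‖ = 1 / 2 := by simp
    rw [this]
    nlinarith
  have e1 : (inner ℂ (S.Zt t (S.pul t' v A - A)) (S.Z A)
      + inner ℂ (S.Zt t A) (S.pul t' v (S.Z A) - S.Z A) : ℂ)
      = (inner ℂ (S.Zt t (S.wwQ v A)) (S.Z A) + inner ℂ (S.Zt t A) (S.wwQ v (S.Z A)))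
        + inner ℂ A (S.wwD v (S.Zt t (S.Zt t' (S.Z A)) - S.Zt t' (S.Zt t (S.Z A)))) := by
    rw [ww_pul_sub, ww_pul_sub, map_add, inner_add_left, inner_add_right, ww_D_sub, inner_sub_right]
    have f1 : (inner ℂ (S.Zt t (S.wwD v (S.Zt t' A))) (S.Z A) : ℂ)
        = -inner ℂ A (S.wwD v (S.Zt t' (S.Zt t (S.Z A)))) := by
      rw [ww_inner_Zt, ww_inner_D, ww_inner_Zt, ← ww_D_Zt]
    have f2 : (inner ℂ (S.Zt t A) (S.wwD v (S.Zt t' (S.Z A))) : ℂ)
        = inner ℂ A (S.wwD v (S.Zt t (S.Zt t' (S.Z A)))) := by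
      rw [ww_inner_Zt, ← ww_D_Zt]
    rw [f1, f2]
    ring
  have e2 : S.Zt t (S.Zt t' (S.Z A)) - S.Zt t' (S.Zt t (S.Z A))
      = (-(2 * Complex.I * (Real.sin (2 * (t - t')) : ℂ))) • S.X (S.Z A) := by
    rw [ww_Zt_Zt, ww_Zt_Zt, ← ww_xr_sub_xr]
    have : 2 * (t' - t) = -(2 * (t - t')) := by ring
    rw [this]
  rw [e1, e2, ww_D_smul, inner_smul_right]
  refine (norm_add_le _ _).trans (add_le_add ((norm_add_le _ _).trans ?_) ?_)
  · have g1 : ‖(inner ℂ (S.Zt t (S.wwQ v A)) (S.Z A) : ℂ)‖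
        ≤ (C2 * M * mu b v ^ 2 / 2) * (2 * M) := by
      refine (norm_inner_le_norm _ _).trans ?_
      rw [(S.Zt t).norm_map]
      exact mul_le_mul (hQ A hFA) (ww_Frm_norm hFZA) (norm_nonneg _) (by positivity)
    have g2 : ‖(inner ℂ (S.Zt t A) (S.wwQ v (S.Z A)) : ℂ)‖
        ≤ (2 * M) * (C2 * M * mu b v ^ 2 / 2) := by
      refine (norm_inner_le_norm _ _).trans ?_
      rw [(S.Zt t).norm_map]
      exact mul_le_mul (ww_Frm_norm hFA) (hQ _ hFZA) (norm_nonneg _) (by positivity)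
    calc _ ≤ _ := add_le_add g1 g2
      _ = _ := by ring
  · rw [norm_mul, hA]
    have g3 := ww_lemF hN hO hp hq hZp hZq hv hb
    have g4 : ‖-(2 * Complex.I * (Real.sin (2 * (t - t')) : ℂ))‖ ≤ 2 := by
      rw [norm_neg, norm_mul, norm_mul, Complex.norm_I, Complex.norm_real]
      have := Real.abs_sin_le_one (2 * (t - t'))
      simp only [Complex.norm_ofNat, mul_one, Real.norm_eq_abs]
      linarith
    calc _ ≤ 2 * (8 * M ^ 2 * mu b v / ‖b‖) :=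
          mul_le_mul g4 g3 (norm_nonneg _) (by norm_num)
      _ = _ := by ring

end Sys

end Vale.Agent.P367.A
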