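import Vale.Agent.P367.A.WWm2

/-! P367, Theorem A, block WW (helper739), part 3: three pulses, second order. -/

namespace Vale.Agent.P367.A

open Complex Filter Topology

open Vale.Agent.P367.NI (Gate)

namespace Sys

variable {H K : Type*} [NormedAddCommGroup H] [InnerProductSpace ℂ H]
  [NormedAddCommGroup K] [InnerProductSpace ℂ K] {S : Sys H K}

/-- three pulses -/
noncomputable def ww3 (S : Sys H K) (τ1 τ2 τ3 : ℝ) (v1 v2 v3 : K) : H ≃ₗᵢ[ℂ] H :=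
  S.pul τ3 v3 * (S.pul τ2 v2 * S.pul τ1 v1)

lemma ww3_apply (τ1 τ2 τ3 : ℝ) (v1 v2 v3 : K) (z : H) :
    ww3 S τ1 τ2 τ3 v1 v2 v3 z = S.pul τ3 v3 (S.pul τ2 v2 (S.pul τ1 v1 z)) := rfl

lemma ww3_sub (τ1 τ2 τ3 : ℝ) (v1 v2 v3 : K) (z : H) :
    ‖ww3 S τ1 τ2 τ3 v1 v2 v3 z - z‖
      ≤ ‖S.pul τ1 v1 z - z‖ + ‖S.pul τ2 v2 z - z‖ + ‖S.pul τ3 v3 z - z‖ := by
  have e : ww3 S τ1 τ2 τ3 v1 v2 v3 z - z
      = S.pul τ3 v3 (S.pul τ2 v2 (S.pul τ1 v1 z - z)) + S.pul τ3 v3 (S.pul τ2 v2 z - z)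
        + (S.pul τ3 v3 z - z) := by
    rw [ww3_apply]
    simp only [map_sub]
    abel
  rw [e]
  refine (norm_add₃_le).trans ?_
  rw [(S.pul τ3 v3).norm_map, (S.pul τ3 v3).norm_map, (S.pul τ2 v2).norm_map]

lemma ww3_first (hP1 : ∀ c z b t v, S.Frm b c z → ‖S.pul t v z - z‖ ≤ 4 * c * mu b v)
    {τ1 τ2 τ3 : ℝ} {v1 v2 v3 : K} {b : K} {c μ : ℝ} {z : H} (hz : S.Frm b c z)
    (h1 : mu b v1 ≤ μ) (h2 : mu b v2 ≤ μ) (h3 : mu b v3 ≤ μ) :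
    ‖ww3 S τ1 τ2 τ3 v1 v2 v3 z - z‖ ≤ 12 * c * μ := by
  have hc := ww_Frm_c0 hz
  refine (ww3_sub τ1 τ2 τ3 v1 v2 v3 z).trans ?_
  have e1 := hP1 c z b τ1 v1 hz
  have e2 := hP1 c z b τ2 v2 hz
  have e3 := hP1 c z b τ3 v3 hz
  have f1 : 4 * c * mu b v1 ≤ 4 * c * μ := mul_le_mul_of_nonneg_left h1 (by positivity)
  have f2 : 4 * c * mu b v2 ≤ 4 * c * μ := mul_le_mul_of_nonneg_left h2 (by positivity)
  have f3 : 4 * c * mu b v3 ≤ 4 * c * μ := mul_le_mul_of_nonneg_left h3 (by positivity)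
  linarith

lemma ww3_expand {C2 : ℝ} (hC2 : 0 ≤ C2)
    (hP2 : ∀ c z b t v t' v', S.Frm b c z → ‖v‖ ≤ 1 →
      ‖S.pul t' v' (S.pul t v z - z) - (S.pul t v z - z)‖ ≤ C2 * c * (mu b v' * mu b v))
    {τ1 τ2 τ3 : ℝ} {v1 v2 v3 : K} {b : K} {c μ : ℝ} {z : H} (hz : S.Frm b c z)
    (h1 : mu b v1 ≤ μ) (h2 : mu b v2 ≤ μ) (h3 : mu b v3 ≤ μ) (n1 : ‖v1‖ ≤ 1) (n2 : ‖v2‖ ≤ 1) :
    ‖ww3 S τ1 τ2 τ3 v1 v2 v3 z - z
      - ((S.pul τ1 v1 z - z) + (S.pul τ2 v2 z - z) + (S.pul τ3 v3 z - z))‖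
      ≤ 3 * C2 * c * μ ^ 2 := by
  have hc := ww_Frm_c0 hz
  have m1 := ww_mu_nonneg b v1
  have m2 := ww_mu_nonneg b v2
  have m3 := ww_mu_nonneg b v3
  have hμ : 0 ≤ μ := m1.trans h1
  have e : ww3 S τ1 τ2 τ3 v1 v2 v3 z - z
      - ((S.pul τ1 v1 z - z) + (S.pul τ2 v2 z - z) + (S.pul τ3 v3 z - z))
      = S.pul τ3 v3 (S.pul τ2 v2 (S.pul τ1 v1 z - z) - (S.pul τ1 v1 z - z))
        + (S.pul τ3 v3 (S.pul τ1 v1 z - z) - (S.pul τ1 v1 z - z))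
        + (S.pul τ3 v3 (S.pul τ2 v2 z - z) - (S.pul τ2 v2 z - z)) := by
    rw [ww3_apply]
    simp only [map_sub]
    abel
  rw [e]
  refine (norm_add₃_le).trans ?_
  rw [(S.pul τ3 v3).norm_map]
  have e1 := hP2 c z b τ1 v1 τ2 v2 hz n1
  have e2 := hP2 c z b τ1 v1 τ3 v3 hz n1
  have e3 := hP2 c z b τ2 v2 τ3 v3 hz n2
  have g : ∀ x y, 0 ≤ x → 0 ≤ y → x ≤ μ → y ≤ μ → C2 * c * (x * y) ≤ C2 * c * μ ^ 2 := by
    intro x y hx hy hxμ hyμ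
    refine mul_le_mul_of_nonneg_left ?_ (by positivity)
    rw [pow_two]
    exact mul_le_mul hxμ hyμ hy hμ
  have g1 := g _ _ m2 m1 h2 h1
  have g2 := g _ _ m3 m1 h3 h1
  have g3 := g _ _ m3 m2 h3 h2
  linarith

/-- second order variation on the main frame -/
lemma ww3_main (hN : S.NStmt) (hO : S.OStmt)
    (hP1 : ∀ c z b t v, S.Frm b c z → ‖S.pul t v z - z‖ ≤ 4 * c * mu b v)
    {M C2 : ℝ} (hC2 : 0 ≤ C2)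
    (hP2 : ∀ c z b t v t' v', S.Frm b c z → ‖v‖ ≤ 1 →
      ‖S.pul t' v' (S.pul t v z - z) - (S.pul t v z - z)‖ ≤ C2 * c * (mu b v' * mu b v))
    {b : K} {p q : H} (hp : S.Nice M p)
    (hq : S.Nice M q) (hZp : S.Z p = p) (hZq : S.Z q = -q) (hb : b ≠ 0)
    (t : ℝ) {A : H} (hA : A = S.W b p + S.W (-b) q)
    {τ1 τ2 τ3 : ℝ} {v1 v2 v3 : K} {μ : ℝ}
    (h1 : mu b v1 ≤ μ) (h2 : mu b v2 ≤ μ) (h3 : mu b v3 ≤ μ) (n1 : ‖v1‖ ≤ 1) (n2 : ‖v2‖ ≤ 1)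
    (n3 : ‖v3‖ ≤ 1) :
    ‖(inner ℂ (S.Zt t (ww3 S τ1 τ2 τ3 v1 v2 v3 A)) (ww3 S τ1 τ2 τ3 v1 v2 v3 (S.Z A))
      - inner ℂ (S.Zt t A) (S.Z A) : ℂ)‖
      ≤ (18 * C2 + 144) * M ^ 2 * μ ^ 2 + 48 * M ^ 2 * μ / ‖b‖ := by
  have hM := ww_Nice_c0 hp
  have hb' : 0 < ‖b‖ := norm_pos_iff.2 hb
  have m1 := ww_mu_nonneg b v1
  have m2 := ww_mu_nonneg b v2
  have m3 := ww_mu_nonneg b v3
  have hμ : 0 ≤ μ := m1.trans h1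
  have hFA : S.Frm b M A := ⟨p, q, hp, hq, hA⟩
  have hFZA : S.Frm b M (S.Z A) := ww_Frm_Z hN hFA
  set P := ww3 S τ1 τ2 τ3 v1 v2 v3 with hPdef
  have T1 := ww_lemT hN hO hC2 hP2 hp hq hZp hZq n1 hb t τ1 hA
  have T2 := ww_lemT hN hO hC2 hP2 hp hq hZp hZq n2 hb t τ2 hA
  have T3 := ww_lemT hN hO hC2 hP2 hp hq hZp hZq n3 hb t τ3 hA
  have T' : ∀ x, 0 ≤ x → x ≤ μ → 2 * C2 * M ^ 2 * x ^ 2 + 16 * M ^ 2 * x / ‖b‖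
      ≤ 2 * C2 * M ^ 2 * μ ^ 2 + 16 * M ^ 2 * μ / ‖b‖ := by
    intro x hx hxμ
    gcongr
  have EA := ww3_expand hC2 hP2 (τ1 := τ1) (τ2 := τ2) (τ3 := τ3) hFA h1 h2 h3 n1 n2
  have EB := ww3_expand hC2 hP2 (τ1 := τ1) (τ2 := τ2) (τ3 := τ3) hFZA h1 h2 h3 n1 n2
  have FA := ww3_first hP1 (τ1 := τ1) (τ2 := τ2) (τ3 := τ3) hFA h1 h2 h3
  have FB := ww3_first hP1 (τ1 := τ1) (τ2 := τ2) (τ3 := τ3) hFZA h1 h2 h3
  rw [← hPdef] at EA EB FA FB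
  set EAv := P A - A - ((S.pul τ1 v1 A - A) + (S.pul τ2 v2 A - A) + (S.pul τ3 v3 A - A)) with hEA
  set EBv := P (S.Z A) - S.Z A - ((S.pul τ1 v1 (S.Z A) - S.Z A) + (S.pul τ2 v2 (S.Z A) - S.Z A)
    + (S.pul τ3 v3 (S.Z A) - S.Z A)) with hEB
  have e : (inner ℂ (S.Zt t (P A)) (P (S.Z A)) - inner ℂ (S.Zt t A) (S.Z A) : ℂ)
      = (inner ℂ (S.Zt t (S.pul τ1 v1 A - A)) (S.Z A)
          + inner ℂ (S.Zt t A) (S.pul τ1 v1 (S.Z A) - S.Z A))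
        + (inner ℂ (S.Zt t (S.pul τ2 v2 A - A)) (S.Z A)
          + inner ℂ (S.Zt t A) (S.pul τ2 v2 (S.Z A) - S.Z A))
        + (inner ℂ (S.Zt t (S.pul τ3 v3 A - A)) (S.Z A)
          + inner ℂ (S.Zt t A) (S.pul τ3 v3 (S.Z A) - S.Z A))
        + (inner ℂ (S.Zt t EAv) (S.Z A) + inner ℂ (S.Zt t A) EBv)
        + inner ℂ (S.Zt t (P A - A)) (P (S.Z A) - S.Z A) := by
    rw [hEA, hEB]
    simp only [map_sub, map_add, inner_sub_left, inner_sub_right, inner_add_left,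
      inner_add_right]
    ring
  rw [e]
  have G1 : ‖(inner ℂ (S.Zt t EAv) (S.Z A) : ℂ)‖ ≤ (3 * C2 * M * μ ^ 2) * (2 * M) := by
    refine (norm_inner_le_norm _ _).trans ?_
    rw [(S.Zt t).norm_map]
    exact mul_le_mul EA (ww_Frm_norm hFZA) (norm_nonneg _) (by positivity)
  have G2 : ‖(inner ℂ (S.Zt t A) EBv : ℂ)‖ ≤ (2 * M) * (3 * C2 * M * μ ^ 2) := by
    refine (norm_inner_le_norm _ _).trans ?_
    rw [(S.Zt t).norm_map]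
    exact mul_le_mul (ww_Frm_norm hFA) EB (norm_nonneg _) (by positivity)
  have G3 : ‖(inner ℂ (S.Zt t (P A - A)) (P (S.Z A) - S.Z A) : ℂ)‖
      ≤ (12 * M * μ) * (12 * M * μ) := by
    refine (norm_inner_le_norm _ _).trans ?_
    rw [(S.Zt t).norm_map]
    exact mul_le_mul FA FB (norm_nonneg _) (by positivity)
  refine (norm_add_le _ _).trans ?_
  refine (add_le_add ((norm_add_le _ _).trans (add_le_add (norm_add₃_le) (norm_add_le _ _)))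
    le_rfl).trans ?_
  have t1 := T1.trans (T' _ m1 h1)
  have t2 := T2.trans (T' _ m2 h2)
  have t3 := T3.trans (T' _ m3 h3)
  have e48 : 48 * M ^ 2 * μ / ‖b‖ = 3 * (16 * M ^ 2 * μ / ‖b‖) := by ring
  rw [e48]
  nlinarith [t1, t2, t3, G1, G2, G3]

end Sys

end Vale.Agent.P367.A
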