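import Vale.Agent.P367.A.WWm3

/-! P367, Theorem A, block WW (helper739), part 4: states. -/

namespace Vale.Agent.P367.A

open Complex Filter Topology

open Vale.Agent.P367.NI (Gate)

namespace Sys

variable {H K : Type*} [NormedAddCommGroup H] [InnerProductSpace ℂ H]
  [NormedAddCommGroup K] [InnerProductSpace ℂ K] {S : Sys H K}

lemma ww_inner_inv (U : H ≃ₗᵢ[ℂ] H) (a y : H) : (inner ℂ (U⁻¹ a) y : ℂ) = inner ℂ a (U y) := by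
  have h := U.inner_map_map (U⁻¹ a) y
  rw [ww_apply_inv] at h
  exact h.symm

lemma ww_norm_inv (U : H ≃ₗᵢ[ℂ] H) (x : H) : ‖U⁻¹ x‖ = ‖x‖ := (U⁻¹).norm_map x

lemma ww_norm_xt (t : ℝ) (V : H ≃ₗᵢ[ℂ] H) : ‖S.xt t V‖ = 1 := by
  rw [xt, ww_norm_inv, (S.Zt t).norm_map, V.norm_map, S.nOm]

lemma ww_norm_xv (V : H ≃ₗᵢ[ℂ] H) : ‖S.xv V‖ = 1 := by
  rw [xv, ww_norm_inv, S.Z.norm_map, V.norm_map, S.nOm]

lemma ww_xt_mul_sub (t : ℝ) (P V : H ≃ₗᵢ[ℂ] H) :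
    ‖S.xt t (P * V) - S.xt t V‖
      ≤ ‖P (V S.Om) - V S.Om‖ + ‖P (S.Zt t (V S.Om)) - S.Zt t (V S.Om)‖ := by
  have e : (P * V) (S.xt t (P * V) - S.xt t V)
      = S.Zt t (P (V S.Om) - V S.Om) - (P (S.Zt t (V S.Om)) - S.Zt t (V S.Om)) := by
    rw [map_sub, xt, ww_apply_inv, ww_mul_apply, ww_mul_apply, xt, ww_apply_inv, map_sub]
    abel
  rw [← (P * V).norm_map (S.xt t (P * V) - S.xt t V), e]
  refine (norm_sub_le _ _).trans ?_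
  rw [(S.Zt t).norm_map]

lemma ww_inner_xt_mul (t : ℝ) (P V : H ≃ₗᵢ[ℂ] H) :
    (inner ℂ (S.xt t (P * V)) (S.xv V) : ℂ)
      = inner ℂ (S.Zt t (P (V S.Om))) (P (S.Z (V S.Om))) := by
  rw [xt, ww_inner_inv, ww_mul_apply, ww_mul_apply, xv, ww_apply_inv]

lemma ww_inner_xt (t : ℝ) (V : H ≃ₗᵢ[ℂ] H) :
    (inner ℂ (S.xt t V) (S.xv V) : ℂ) = inner ℂ (S.Zt t (V S.Om)) (S.Z (V S.Om)) := by
  rw [xt, ww_inner_inv, xv, ww_apply_inv]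

lemma ww_base (t : ℝ) (ξ : H) :
    |(inner ℂ (S.Zt t ξ) (S.Z ξ) : ℂ).im| ≤ ‖(inner ℂ (S.X ξ) ξ : ℂ)‖ := by
  rw [S.ww_Zt, xr_apply, inner_sub_left, inner_smul_left, inner_smul_left]
  have h1 : (inner ℂ (S.Z ξ) (S.Z ξ) : ℂ) = ((‖S.Z ξ‖ ^ 2 : ℝ) : ℂ) := by
    rw [inner_self_eq_norm_sq_to_K]
    push_cast
    rfl
  have h2 : (inner ℂ (S.X (S.Z ξ)) (S.Z ξ) : ℂ) = -inner ℂ (S.X ξ) ξ := by
    rw [S.XZ, inner_neg_left, S.Z.inner_map_map]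
  rw [h1, h2]
  simp only [map_mul, Complex.conj_ofReal, Complex.conj_I]
  have h3 : (((Real.cos (2 * t) : ℝ) : ℂ) * ((‖S.Z ξ‖ ^ 2 : ℝ) : ℂ)
      - -Complex.I * ((Real.sin (2 * t) : ℝ) : ℂ) * -inner ℂ (S.X ξ) ξ).im
      = -(Real.sin (2 * t) * (inner ℂ (S.X ξ) ξ : ℂ).re) := by
    have e : ((Real.cos (2 * t) : ℝ) : ℂ) * ((‖S.Z ξ‖ ^ 2 : ℝ) : ℂ)
      - -Complex.I * ((Real.sin (2 * t) : ℝ) : ℂ) * -inner ℂ (S.X ξ) ξ
      = ((Real.cos (2 * t) * ‖S.Z ξ‖ ^ 2 : ℝ) : ℂ)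
        - Complex.I * (((Real.sin (2 * t) : ℝ) : ℂ) * inner ℂ (S.X ξ) ξ) := by
      push_cast
      ring
    rw [e, Complex.sub_im, Complex.ofReal_im, Complex.I_mul_im, Complex.re_ofReal_mul]
    ring
  rw [h3, abs_neg, abs_mul]
  have h4 := Real.abs_sin_le_one (2 * t)
  have h5 := Complex.abs_re_le_norm (inner ℂ (S.X ξ) ξ : ℂ)
  calc _ ≤ 1 * ‖(inner ℂ (S.X ξ) ξ : ℂ)‖ := mul_le_mul h4 h5 (abs_nonneg _) zero_le_one
    _ = _ := one_mul _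

/-- the two halves of a nice vector -/
lemma ww_halves (hN : S.NStmt) {M : ℝ} {ψ : H} (hψ : S.Nice M ψ) :
    S.Nice M ((1 / 2 : ℂ) • (ψ + S.Z ψ)) ∧ S.Nice M ((1 / 2 : ℂ) • (ψ - S.Z ψ)) ∧
    S.Z ((1 / 2 : ℂ) • (ψ + S.Z ψ)) = (1 / 2 : ℂ) • (ψ + S.Z ψ) ∧
    S.Z ((1 / 2 : ℂ) • (ψ - S.Z ψ)) = -((1 / 2 : ℂ) • (ψ - S.Z ψ)) := by
  have hZ : S.Nice M (S.Z ψ) := hN.comm S.Z S.WZ M ψ hψ
  have e : ‖(1 / 2 : ℂ)‖ * (M + M) = M := by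
    simp
    ring
  have e1 : ‖(-1 : ℂ)‖ * M = M := by simp
  refine ⟨?_, ?_, ?_, ?_⟩
  · have h := hN.smul _ _ (1 / 2 : ℂ) (hN.add _ _ _ _ hψ hZ)
    rwa [e] at h
  · have h0 := hN.smul _ _ (-1 : ℂ) hZ
    rw [e1, neg_one_smul] at h0
    have h := hN.smul _ _ (1 / 2 : ℂ) (hN.add _ _ _ _ hψ h0)
    rwa [e, ← sub_eq_add_neg] at h
  · rw [map_smul, map_add, S.ZZ, add_comm]
  · rw [map_smul, map_sub, S.ZZ, ← smul_neg, neg_sub]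

/-- base estimate: `⟨X ξ, ξ⟩` is small -/
lemma ww_keyBase (hN : S.NStmt) (hO : S.OStmt) {M δ ε : ℝ} (hM : 0 ≤ M) (hδ : 0 < δ)
    (hε : 0 < ε) (hε1 : ε ≤ 1) {b : K} (hbn : δ / ε ≤ ‖b‖) {p q A r ξ : H} (hp : S.Nice M p)
    (hq : S.Nice M q) (hZp : S.Z p = p) (hZq : S.Z q = -q) (hA : A = S.W b p + S.W (-b) q)
    (hrn : ‖r‖ ≤ 3 * M * ε) (hξ : ξ = A + r) :
    ‖(inner ℂ (S.X ξ) ξ : ℂ)‖ ≤ (2 * M ^ 2 / δ + 21 * M ^ 2) * ε := by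
  have hbpos : 0 < ‖b‖ := lt_of_lt_of_le (div_pos hδ hε) hbn
  have hb0 : b ≠ 0 := norm_pos_iff.1 hbpos
  have hFA : S.Frm b M A := ⟨p, q, hp, hq, hA⟩
  have hAn := ww_Frm_norm hFA
  have hbb : b ≠ -b := by
    intro h
    apply hb0
    have h2 : (2 : ℂ) • b = 0 := by
      rw [two_smul]
      nth_rewrite 2 [h]
      simp
    simpa using h2
  have ebb : ‖b - -b‖ = 2 * ‖b‖ := by
    rw [sub_neg_eq_add, ← two_smul ℝ b, norm_smul]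
    simp
  have ebb' : ‖-b - b‖ = 2 * ‖b‖ := by
    rw [← neg_add', norm_neg, ← two_smul ℝ b, norm_smul]
    simp
  have eXA : S.X A = S.W b (S.X p) + S.W (-b) (S.X q) := by
    rw [hA, map_add, ← S.WX, ← S.WX]
  have z1 : (inner ℂ (S.W b (S.X p)) (S.W b p) : ℂ) = 0 := by
    apply ww_orth' (S := S)
    · rw [← S.WZ, S.ZX, hZp, map_neg]
    · rw [← S.WZ, hZp]
  have z2 : (inner ℂ (S.W (-b) (S.X q)) (S.W (-b) q) : ℂ) = 0 := by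
    apply ww_orth (S := S)
    · rw [← S.WZ, S.ZX, hZq, map_neg S.X, neg_neg]
    · rw [← S.WZ, hZq, map_neg]
  have c1 := hO.inn M M (S.X p) q b (-b) (hN.comm S.X S.WX M p hp) hq hbb
  have c2 := hO.inn M M (S.X q) p (-b) b (hN.comm S.X S.WX M q hq) hp (Ne.symm hbb)
  rw [ebb] at c1
  rw [ebb'] at c2
  have hXAA : ‖(inner ℂ (S.X A) A : ℂ)‖ ≤ 2 * M ^ 2 / ‖b‖ := by
    have e0 : (inner ℂ (S.X A) A : ℂ)
        = inner ℂ (S.W b (S.X p)) (S.W (-b) q) + inner ℂ (S.W (-b) (S.X q)) (S.W b p) := by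
      rw [eXA, hA, inner_add_left, inner_add_right, inner_add_right, z1, z2, zero_add, add_zero]
    rw [e0]
    refine (norm_add_le _ _).trans ?_
    refine (add_le_add c1 c2).trans (le_of_eq ?_)
    field_simp
    ring
  have hM2 : 2 * M ^ 2 / ‖b‖ ≤ 2 * M ^ 2 / δ * ε := by
    have h1 : 2 * M ^ 2 / ‖b‖ ≤ 2 * M ^ 2 / (δ / ε) :=
      div_le_div_of_nonneg_left (by positivity) (div_pos hδ hε) hbn
    have h2 : 2 * M ^ 2 / (δ / ε) = 2 * M ^ 2 / δ * ε := by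
      field_simp
    rwa [h2] at h1
  have e3 : (inner ℂ (S.X ξ) ξ : ℂ) = inner ℂ (S.X A) A + inner ℂ (S.X A) r
      + inner ℂ (S.X r) A + inner ℂ (S.X r) r := by
    rw [hξ, map_add, inner_add_left, inner_add_right, inner_add_right]
    ring
  have g1 : ‖(inner ℂ (S.X A) r : ℂ)‖ ≤ (2 * M) * (3 * M * ε) := by
    refine (norm_inner_le_norm _ _).trans ?_
    rw [S.X.norm_map]
    exact mul_le_mul hAn hrn (norm_nonneg _) (by positivity)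
  have g2 : ‖(inner ℂ (S.X r) A : ℂ)‖ ≤ (3 * M * ε) * (2 * M) := by
    refine (norm_inner_le_norm _ _).trans ?_
    rw [S.X.norm_map]
    exact mul_le_mul hrn hAn (norm_nonneg _) (by positivity)
  have g3 : ‖(inner ℂ (S.X r) r : ℂ)‖ ≤ (3 * M * ε) * (3 * M * ε) := by
    refine (norm_inner_le_norm _ _).trans ?_
    rw [S.X.norm_map]
    exact mul_le_mul hrn hrn (norm_nonneg _) (by positivity)
  rw [e3]
  refine (norm_add_le _ _).trans ?_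
  refine (add_le_add (norm_add₃_le) le_rfl).trans ?_
  have h9 : (3 * M * ε) * (3 * M * ε) ≤ 9 * M ^ 2 * ε := by
    have : (3 * M * ε) * (3 * M * ε) = 9 * M ^ 2 * (ε * ε) := by ring
    rw [this]
    exact mul_le_mul_of_nonneg_left (by nlinarith) (by positivity)
  have h10 := hXAA.trans hM2
  have h11 : (2 * M ^ 2 / δ + 21 * M ^ 2) * ε
      = 2 * M ^ 2 / δ * ε + (2 * M) * (3 * M * ε) + (3 * M * ε) * (2 * M) + 9 * M ^ 2 * ε := by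
    ring
  rw [h11]
  linarith

/-- second order estimate with the register part -/
lemma ww_keySecond (hN : S.NStmt) (hO : S.OStmt) {M δ ε B : ℝ} (hM : 0 ≤ M) (hδ : 0 < δ)
    (hε : 0 < ε) {b c' : K} (P : H ≃ₗᵢ[ℂ] H)
    (pf : ∀ (b' : K) (z : H), S.Frm b' M z → S.Frm b' (5832 * M) (P z))
    (sep1 : δ / ε ≤ ‖b - c'‖) (sep2 : δ / ε ≤ ‖b + c'‖) (t : ℝ) {A φ ρ r ξ : H}
    (hFA : S.Frm b M A) (hφ : S.Frm c' M φ) (hρ : ‖ρ‖ ≤ M * ε ^ 2)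
    (hr : r = (ε : ℂ) • φ + ρ) (hrn : ‖r‖ ≤ 3 * M * ε) (hξ : ξ = A + r)
    (main : ‖(inner ℂ (S.Zt t (P A)) (P (S.Z A)) - inner ℂ (S.Zt t A) (S.Z A) : ℂ)‖ ≤ B) :
    ‖(inner ℂ (S.Zt t (P ξ)) (P (S.Z ξ)) - inner ℂ (S.Zt t ξ) (S.Z ξ) : ℂ)‖
      ≤ B + (2 * (16 * (5832 * M) ^ 2 / δ + 4 * M ^ 2) + 18 * M ^ 2) * ε ^ 2 := by
  have R0 : 0 < δ / ε := div_pos hδ hε
  have hAn := ww_Frm_norm hFA
  have hεn : ‖(ε : ℂ)‖ = ε := by rw [Complex.norm_real, Real.norm_eq_abs, abs_of_pos hε]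
  have hFZA := ww_Frm_Z hN hFA
  have fmono : ∀ (b' : K) (z : H), S.Frm b' M z → S.Frm b' (5832 * M) z := by
    rintro b' z ⟨x, y, hx, hy, rfl⟩
    have hmono : ∀ u : H, S.Nice M u → S.Nice (5832 * M) u := by
      intro u hu
      refine ⟨hu.m0.trans (by linarith), fun a => (hu.m1 a).trans ?_,
        fun a a' => (hu.m2 a a').trans ?_⟩
      · exact mul_le_mul_of_nonneg_right (by linarith) (norm_nonneg _)
      · exact mul_le_mul_of_nonneg_right (by linarith) (by positivity)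
    exact ⟨x, y, hmono x hx, hmono y hy, rfl⟩
  have cr1 : ‖(inner ℂ (S.Zt t (P A)) (P (S.Z φ)) - inner ℂ (S.Zt t A) (S.Z φ) : ℂ)‖
      ≤ 16 * (5832 * M) ^ 2 / δ * ε := by
    have a1 := hO.frm _ _ _ _ _ _ _ R0 (ww_Frm_Zt hN (pf b A hFA) t)
      (pf _ _ (ww_Frm_Z hN hφ)) sep1 sep2
    have a2 := hO.frm _ _ _ _ _ _ _ R0 (ww_Frm_Zt hN (fmono b A hFA) t)
      (fmono _ _ (ww_Frm_Z hN hφ)) sep1 sep2
    refine (norm_sub_le _ _).trans ((add_le_add a1 a2).trans (le_of_eq ?_))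
    field_simp
    ring
  have cr2 : ‖(inner ℂ (S.Zt t (P φ)) (P (S.Z A)) - inner ℂ (S.Zt t φ) (S.Z A) : ℂ)‖
      ≤ 16 * (5832 * M) ^ 2 / δ * ε := by
    have s1 : δ / ε ≤ ‖c' - b‖ := by rwa [norm_sub_rev]
    have s2 : δ / ε ≤ ‖c' + b‖ := by rwa [add_comm]
    have a1 := hO.frm _ _ _ _ _ _ _ R0 (ww_Frm_Zt hN (pf _ φ hφ) t)
      (pf _ _ hFZA) s1 s2
    have a2 := hO.frm _ _ _ _ _ _ _ R0 (ww_Frm_Zt hN (fmono _ φ hφ) t)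
      (fmono _ _ hFZA) s1 s2
    refine (norm_sub_le _ _).trans ((add_le_add a1 a2).trans (le_of_eq ?_))
    field_simp
    ring
  have gen : ∀ u w : H, ‖(inner ℂ (S.Zt t (P u)) (P w) - inner ℂ (S.Zt t u) w : ℂ)‖
      ≤ 2 * (‖u‖ * ‖w‖) := by
    intro u w
    refine (norm_sub_le _ _).trans ?_
    have a1 := norm_inner_le_norm (𝕜 := ℂ) (S.Zt t (P u)) (P w)
    have a2 := norm_inner_le_norm (𝕜 := ℂ) (S.Zt t u) w
    rw [(S.Zt t).norm_map, P.norm_map, P.norm_map] at a1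
    rw [(S.Zt t).norm_map] at a2
    linarith
  have hZr : S.Z r = (ε : ℂ) • S.Z φ + S.Z ρ := by rw [hr, map_add, map_smul]
  have e1 : (inner ℂ (S.Zt t (P ξ)) (P (S.Z ξ)) - inner ℂ (S.Zt t ξ) (S.Z ξ) : ℂ)
    = (inner ℂ (S.Zt t (P A)) (P (S.Z A)) - inner ℂ (S.Zt t A) (S.Z A))
      + (inner ℂ (S.Zt t (P A)) (P (S.Z r)) - inner ℂ (S.Zt t A) (S.Z r))
      + (inner ℂ (S.Zt t (P r)) (P (S.Z A)) - inner ℂ (S.Zt t r) (S.Z A))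
      + (inner ℂ (S.Zt t (P r)) (P (S.Z r)) - inner ℂ (S.Zt t r) (S.Z r)) := by
    rw [hξ]
    simp only [map_add, inner_add_left, inner_add_right]
    ring
  have e2 : (inner ℂ (S.Zt t (P A)) (P (S.Z r)) - inner ℂ (S.Zt t A) (S.Z r) : ℂ)
      = (ε : ℂ) * (inner ℂ (S.Zt t (P A)) (P (S.Z φ)) - inner ℂ (S.Zt t A) (S.Z φ))
        + (inner ℂ (S.Zt t (P A)) (P (S.Z ρ)) - inner ℂ (S.Zt t A) (S.Z ρ)) := by
    rw [hZr]
    simp only [map_add, map_smul, inner_add_right, inner_smul_right]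
    ring
  have e3 : (inner ℂ (S.Zt t (P r)) (P (S.Z A)) - inner ℂ (S.Zt t r) (S.Z A) : ℂ)
      = (ε : ℂ) * (inner ℂ (S.Zt t (P φ)) (P (S.Z A)) - inner ℂ (S.Zt t φ) (S.Z A))
        + (inner ℂ (S.Zt t (P ρ)) (P (S.Z A)) - inner ℂ (S.Zt t ρ) (S.Z A)) := by
    rw [hr]
    simp only [map_add, map_smul, inner_add_left, inner_smul_left, Complex.conj_ofReal]
    ring
  have b1 : ‖(ε : ℂ) * (inner ℂ (S.Zt t (P A)) (P (S.Z φ)) - inner ℂ (S.Zt t A) (S.Z φ))‖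
      ≤ ε * (16 * (5832 * M) ^ 2 / δ * ε) := by
    rw [norm_mul, hεn]
    exact mul_le_mul_of_nonneg_left cr1 hε.le
  have b2 : ‖(ε : ℂ) * (inner ℂ (S.Zt t (P φ)) (P (S.Z A)) - inner ℂ (S.Zt t φ) (S.Z A))‖
      ≤ ε * (16 * (5832 * M) ^ 2 / δ * ε) := by
    rw [norm_mul, hεn]
    exact mul_le_mul_of_nonneg_left cr2 hε.le
  have b3 : ‖(inner ℂ (S.Zt t (P A)) (P (S.Z ρ)) - inner ℂ (S.Zt t A) (S.Z ρ) : ℂ)‖
      ≤ 2 * ((2 * M) * (M * ε ^ 2)) := by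
    refine (gen A (S.Z ρ)).trans ?_
    rw [S.Z.norm_map]
    have := mul_le_mul hAn hρ (norm_nonneg _) (by positivity : (0 : ℝ) ≤ 2 * M)
    linarith
  have b4 : ‖(inner ℂ (S.Zt t (P ρ)) (P (S.Z A)) - inner ℂ (S.Zt t ρ) (S.Z A) : ℂ)‖
      ≤ 2 * ((M * ε ^ 2) * (2 * M)) := by
    refine (gen ρ (S.Z A)).trans ?_
    rw [S.Z.norm_map]
    have := mul_le_mul hρ hAn (norm_nonneg _) (by positivity : (0 : ℝ) ≤ M * ε ^ 2)
    linarith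
  have b5 : ‖(inner ℂ (S.Zt t (P r)) (P (S.Z r)) - inner ℂ (S.Zt t r) (S.Z r) : ℂ)‖
      ≤ 2 * ((3 * M * ε) * (3 * M * ε)) := by
    refine (gen r (S.Z r)).trans ?_
    rw [S.Z.norm_map]
    have := mul_le_mul hrn hrn (norm_nonneg _) (by positivity : (0 : ℝ) ≤ 3 * M * ε)
    linarith
  rw [e1]
  refine (norm_add_le _ _).trans ?_
  refine (add_le_add (norm_add₃_le) b5).trans ?_
  have b12 := (norm_add_le ((ε : ℂ) * (inner ℂ (S.Zt t (P A)) (P (S.Z φ))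
    - inner ℂ (S.Zt t A) (S.Z φ)))
    (inner ℂ (S.Zt t (P A)) (P (S.Z ρ)) - inner ℂ (S.Zt t A) (S.Z ρ))).trans (add_le_add b1 b3)
  have b34 := (norm_add_le ((ε : ℂ) * (inner ℂ (S.Zt t (P φ)) (P (S.Z A))
    - inner ℂ (S.Zt t φ) (S.Z A)))
    (inner ℂ (S.Zt t (P ρ)) (P (S.Z A)) - inner ℂ (S.Zt t ρ) (S.Z A))).trans (add_le_add b2 b4)
  rw [← e2] at b12
  rw [← e3] at b34
  have fin : B + (2 * (16 * (5832 * M) ^ 2 / δ + 4 * M ^ 2) + 18 * M ^ 2) * ε ^ 2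
      = B + (ε * (16 * (5832 * M) ^ 2 / δ * ε) + 2 * ((2 * M) * (M * ε ^ 2)))
        + (ε * (16 * (5832 * M) ^ 2 / δ * ε) + 2 * ((M * ε ^ 2) * (2 * M)))
        + 2 * ((3 * M * ε) * (3 * M * ε)) := by ring
  rw [fin]
  linarith

/-- separation of the frames -/
lemma ww_sep {δ ε s' : ℝ} (hε : 0 < ε) {x c : K} (hx : ‖x‖ = 1)
    (hal : δ ≤ |(inner ℂ x c : ℂ).im|) (k : ℝ) (hk : |k| = 1) :
    δ / ε ≤ ‖((s' / ε : ℝ) : ℂ) • x + ((k / ε : ℝ) : ℂ) • c‖ := by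
  have e1 : (inner ℂ x (((s' / ε : ℝ) : ℂ) • x + ((k / ε : ℝ) : ℂ) • c) : ℂ).im
      = k / ε * (inner ℂ x c : ℂ).im := by
    rw [inner_add_right, inner_smul_right, inner_smul_right, inner_self_eq_norm_sq_to_K, hx]
    rw [Complex.add_im, Complex.im_ofReal_mul, Complex.im_ofReal_mul]
    simp
  have e2 : ‖(inner ℂ x (((s' / ε : ℝ) : ℂ) • x + ((k / ε : ℝ) : ℂ) • c) : ℂ)‖
      ≤ ‖((s' / ε : ℝ) : ℂ) • x + ((k / ε : ℝ) : ℂ) • c‖ := by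
    refine (norm_inner_le_norm _ _).trans ?_
    rw [hx, one_mul]
  have e3 := (Complex.abs_im_le_norm _).trans e2
  rw [e1, abs_mul, abs_div, abs_of_pos hε, hk] at e3
  have e4 := mul_le_mul_of_nonneg_left hal (div_nonneg zero_le_one hε.le)
  have e5 : δ / ε = 1 / ε * δ := by ring
  rw [e5]
  linarith

/-- key estimate for three pulses at a state -/
lemma ww_key (hN : S.NStmt) (hO : S.OStmt) (hP : S.PStmt) {M δ : ℝ} (hM : 0 ≤ M) (hδ : 0 < δ)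
    {m : ℝ} (hm : 0 ≤ m) : ∃ C, 0 ≤ C ∧ ∀ ε, 0 < ε → ε ≤ 1 → m * ε ≤ 1 →
    ∀ (s' : ℝ) (V : H ≃ₗᵢ[ℂ] H) (c : K) (t1 t2 : ℝ), S.Ctx M δ ε s' V c t1 t2 →
    ∀ (τ1 τ2 τ3 : ℝ) (v1 v2 v3 : K),
      mu (((s' / ε : ℝ) : ℂ) • S.iota (S.xv V)) v1 ≤ m * ε →
      mu (((s' / ε : ℝ) : ℂ) • S.iota (S.xv V)) v2 ≤ m * ε →
      mu (((s' / ε : ℝ) : ℂ) • S.iota (S.xv V)) v3 ≤ m * ε →
      ∀ t : ℝ,
      ‖S.xt t (ww3 S τ1 τ2 τ3 v1 v2 v3 * V) - S.xt t V‖ ≤ C * ε ∧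
      (s' ≠ 0 → |(inner ℂ (S.xt t V) (S.xv V) : ℂ).im| ≤ C * ε) ∧
      (s' ≠ 0 → |(inner ℂ (S.xt t (ww3 S τ1 τ2 τ3 v1 v2 v3 * V)) (S.xv V) : ℂ).im
        - (inner ℂ (S.xt t V) (S.xv V) : ℂ).im| ≤ C * ε ^ 2) := by
  obtain ⟨C2, hC2, hP2⟩ := hP.p2
  refine ⟨24 * M * m + 12 * M + (2 * M ^ 2 / δ + 21 * M ^ 2)
    + ((18 * C2 + 144) * M ^ 2 * m ^ 2 + 48 * M ^ 2 * m / δ
      + (2 * (16 * (5832 * M) ^ 2 / δ + 4 * M ^ 2) + 18 * M ^ 2)), by positivity, ?_⟩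
  intro ε hε hε1 hmε s' V c t1 t2 hctx τ1 τ2 τ3 v1 v2 v3 h1 h2 h3 t
  obtain ⟨ψ, φ, hψ, hφ, hsplit⟩ := hctx.split
  set b : K := ((s' / ε : ℝ) : ℂ) • S.iota (S.xv V) with hb
  obtain ⟨hp, hq, hZp, hZq⟩ := ww_halves hN hψ
  set p := (1 / 2 : ℂ) • (ψ + S.Z ψ) with hpdef
  set q := (1 / 2 : ℂ) • (ψ - S.Z ψ) with hqdef
  set A : H := S.zr (-b) ψ with hAdef
  have hA : A = S.W b p + S.W (-b) q := S.ww_zr_neg b ψ
  set ξ : H := V S.Om with hξ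
  set ρ : H := ξ - A - (ε : ℂ) • φ with hρdef
  have hρ : ‖ρ‖ ≤ M * ε ^ 2 := hsplit
  have hFA : S.Frm b M A := ⟨p, q, hp, hq, hA⟩
  set r : H := (ε : ℂ) • φ + ρ with hr
  have hξr : ξ = A + r := by rw [hr, hρdef]; abel
  have hφn := ww_Frm_norm hφ
  have hεn : ‖(ε : ℂ)‖ = ε := by rw [Complex.norm_real, Real.norm_eq_abs, abs_of_pos hε]
  have hε2 : ε ^ 2 ≤ ε := by nlinarith
  have hrn : ‖r‖ ≤ 3 * M * ε := by
    rw [hr]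
    refine (norm_add_le _ _).trans ?_
    rw [norm_smul, hεn]
    nlinarith [mul_le_mul_of_nonneg_left hφn hε.le, mul_le_mul_of_nonneg_left hε2 hM]
  have nv : ∀ v : K, mu b v ≤ m * ε → ‖v‖ ≤ 1 := by
    intro v hv
    have : ‖v‖ ≤ mu b v := by
      unfold mu
      linarith [abs_nonneg (inner ℂ v b : ℂ).im]
    linarith
  have n1 := nv v1 h1
  have n2 := nv v2 h2
  have n3 := nv v3 h3
  have hx0 : ‖S.iota (S.xv V)‖ = 1 := by rw [S.iota.norm_map, ww_norm_xv]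
  have pos1 : 0 ≤ (18 * C2 + 144) * M ^ 2 * m ^ 2 := by positivity
  have pos2 : 0 ≤ 48 * M ^ 2 * m / δ := by positivity
  have pos3 : 0 ≤ 16 * (5832 * M) ^ 2 / δ := by positivity
  have pos4 : 0 ≤ M * m := by positivity
  have pos5 : 0 ≤ M ^ 2 := by positivity
  have pos6 : 0 ≤ 2 * M ^ 2 / δ := by positivity
  have hbn : s' ≠ 0 → δ / ε ≤ ‖b‖ := by
    intro hs
    have hsδ : δ ≤ |s'| := hctx.s'_ge.resolve_left hs
    have : ‖b‖ = |s'| / ε := by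
      rw [hb, norm_smul, hx0, mul_one, Complex.norm_real, Real.norm_eq_abs, abs_div,
        abs_of_pos hε]
    rw [this]
    exact div_le_div_of_nonneg_right hsδ hε.le
  refine ⟨?_, ?_, ?_⟩
  · -- first order
    have first : ∀ z w : H, S.Frm b M z → ‖w‖ ≤ 3 * M * ε →
        ‖ww3 S τ1 τ2 τ3 v1 v2 v3 (z + w) - (z + w)‖ ≤ (12 * M * m + 6 * M) * ε := by
      intro z w hz hw
      have e1 := ww3_first hP.p1 (τ1 := τ1) (τ2 := τ2) (τ3 := τ3) hz h1 h2 h3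
      have e2 : ww3 S τ1 τ2 τ3 v1 v2 v3 (z + w) - (z + w)
          = (ww3 S τ1 τ2 τ3 v1 v2 v3 z - z) + (ww3 S τ1 τ2 τ3 v1 v2 v3 w - w) := by
        rw [map_add]
        abel
      rw [e2]
      refine (norm_add_le _ _).trans ?_
      have e3 : ‖ww3 S τ1 τ2 τ3 v1 v2 v3 w - w‖ ≤ 2 * ‖w‖ := by
        refine (norm_sub_le _ _).trans ?_
        rw [(ww3 S τ1 τ2 τ3 v1 v2 v3).norm_map]
        linarith
      linarith
    have e1 := first A r hFA hrn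
    have e2 := first (S.Zt t A) (S.Zt t r) (ww_Frm_Zt hN hFA t) (by rwa [(S.Zt t).norm_map])
    rw [← hξr] at e1
    rw [← map_add, ← hξr] at e2
    have e3 := ww_xt_mul_sub (S := S) t (ww3 S τ1 τ2 τ3 v1 v2 v3) V
    rw [← hξ] at e3
    have e4 : ‖S.xt t (ww3 S τ1 τ2 τ3 v1 v2 v3 * V) - S.xt t V‖
        ≤ (24 * M * m + 12 * M) * ε := by linarith
    refine e4.trans (mul_le_mul_of_nonneg_right ?_ hε.le)
    linarith
  · intro hs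
    rw [ww_inner_xt, ← hξ]
    refine (ww_base t ξ).trans ?_
    refine (ww_keyBase hN hO hM hδ hε hε1 (hbn hs) hp hq hZp hZq hA hrn hξr).trans ?_
    refine mul_le_mul_of_nonneg_right ?_ hε.le
    have : 0 ≤ 24 * M * m := by positivity
    linarith
  · intro hs
    have hbpos : 0 < ‖b‖ := lt_of_lt_of_le (div_pos hδ hε) (hbn hs)
    have hb0 : b ≠ 0 := norm_pos_iff.1 hbpos
    have sep1 : δ / ε ≤ ‖b - ((1 / ε : ℝ) : ℂ) • c‖ := by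
      have h := ww_sep (s' := s') hε hx0 hctx.al0 (-1) (by simp)
      have e : ((-1 / ε : ℝ) : ℂ) • c = -(((1 / ε : ℝ) : ℂ) • c) := by
        rw [neg_div, Complex.ofReal_neg, neg_smul]
      rwa [e, ← sub_eq_add_neg] at h
    have sep2 : δ / ε ≤ ‖b + ((1 / ε : ℝ) : ℂ) • c‖ :=
      ww_sep (s' := s') hε hx0 hctx.al0 1 (by simp)
    have pf : ∀ (b' : K) (z : H), S.Frm b' M z →
        S.Frm b' (5832 * M) (ww3 S τ1 τ2 τ3 v1 v2 v3 z) := by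
      intro b' z hz
      have h := hP.p0 _ _ b' τ3 v3 (hP.p0 _ _ b' τ2 v2 (hP.p0 _ _ b' τ1 v1 hz n1) n2) n3
      have e : 18 * (18 * (18 * M)) = 5832 * M := by ring
      rwa [e] at h
    have main := ww3_main hN hO hP.p1 hC2 hP2 hp hq hZp hZq hb0 t hA (τ1 := τ1) (τ2 := τ2)
      (τ3 := τ3) h1 h2 h3 n1 n2 n3
    have tot := ww_keySecond hN hO hM hδ hε (ww3 S τ1 τ2 τ3 v1 v2 v3) pf sep1 sep2 t hFA hφ hρ
      hr hrn hξr main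
    have b6 : 48 * M ^ 2 * (m * ε) / ‖b‖ ≤ 48 * M ^ 2 * m / δ * ε ^ 2 := by
      have g1 : 48 * M ^ 2 * (m * ε) / ‖b‖ ≤ 48 * M ^ 2 * (m * ε) / (δ / ε) :=
        div_le_div_of_nonneg_left (by positivity) (div_pos hδ hε) (hbn hs)
      have g2 : 48 * M ^ 2 * (m * ε) / (δ / ε) = 48 * M ^ 2 * m / δ * ε ^ 2 := by
        field_simp
      rwa [g2] at g1
    rw [ww_inner_xt_mul, ww_inner_xt, ← hξ, ← Complex.sub_im]
    refine (Complex.abs_im_le_norm _).trans (tot.trans ?_)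
    have e5 : (24 * M * m + 12 * M + (2 * M ^ 2 / δ + 21 * M ^ 2)
      + ((18 * C2 + 144) * M ^ 2 * m ^ 2 + 48 * M ^ 2 * m / δ
      + (2 * (16 * (5832 * M) ^ 2 / δ + 4 * M ^ 2) + 18 * M ^ 2))) * ε ^ 2
      = (24 * M * m + 12 * M + (2 * M ^ 2 / δ + 21 * M ^ 2)) * ε ^ 2
        + (18 * C2 + 144) * M ^ 2 * (m * ε) ^ 2 + 48 * M ^ 2 * m / δ * ε ^ 2
        + (2 * (16 * (5832 * M) ^ 2 / δ + 4 * M ^ 2) + 18 * M ^ 2) * ε ^ 2 := by ring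
    rw [e5]
    have e6 : 0 ≤ (24 * M * m + 12 * M + (2 * M ^ 2 / δ + 21 * M ^ 2)) * ε ^ 2 := by
      positivity
    linarith

end Sys

end Vale.Agent.P367.A
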